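import Vale.Agent.P101.Desc

/-! Absorption of a strongly self-absorbing limit of dimension drop algebras. -/

set_option linter.unusedSectionVars false
set_option linter.unusedSimpArgs false

namespace Vale.Agent.P101

open Filter Topology
open scoped BoundedContinuousFunction CStarAlgebra TensorProduct Kronecker

universe u

section Tensor
variable {A B C E : Type u} [CStarAlgebra A] [CStarAlgebra B] [CStarAlgebra C] [CStarAlgebra E]

@[simp] theorem tmulMap_tmul (i : A →⋆ₐ[ℂ] C) (j : B →⋆ₐ[ℂ] C) (a : A) (b : B) :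
    tmulMap i j (a ⊗ₜ b) = i a * j b := rfl

theorem tmulMap_mul {i : A →⋆ₐ[ℂ] C} {j : B →⋆ₐ[ℂ] C} (h : ∀ a b, Commute (i a) (j b))
    (x y : A ⊗[ℂ] B) : tmulMap i j (x * y) = tmulMap i j x * tmulMap i j y := by
  induction x using TensorProduct.induction_on with
  | zero => simp
  | add x x' hx hx' => rw [add_mul, map_add, map_add, add_mul, hx, hx']
  | tmul a b =>
    induction y using TensorProduct.induction_on with
    | zero => simp
    | add y y' hy hy' => rw [mul_add, map_add, map_add, mul_add, hy, hy']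
    | tmul a' b' => simp [(h a' b).symm.mul_mul_mul_comm]

theorem exists_theta {i : A →⋆ₐ[ℂ] C} {j : B →⋆ₐ[ℂ] C} (h : IsCTensor i j) {α : A →⋆ₐ[ℂ] E}
    {β : B →⋆ₐ[ℂ] E} (hc : ∀ a b, Commute (α a) (β b))
    (hn : ∀ x, ‖tmulMap α β x‖ ≤ ‖tmulMap i j x‖) :
    ∃ Θ : C →⋆ₐ[ℂ] E, (∀ a, Θ (i a) = α a) ∧ ∀ b, Θ (j b) = β b := by
  let Γ : StarSubalgebra ℂ (C × E) :=
    { carrier := Set.range fun x => (tmulMap i j x, tmulMap α β x)
      mul_mem' := by
        rintro _ _ ⟨x, rfl⟩ ⟨y, rfl⟩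
        exact ⟨x * y, by simp [tmulMap_mul h.comm, tmulMap_mul hc]⟩
      add_mem' := by
        rintro _ _ ⟨x, rfl⟩ ⟨y, rfl⟩
        exact ⟨x + y, by simp⟩
      algebraMap_mem' := fun c => ⟨c • (1 ⊗ₜ 1), by
        ext <;> simp [Algebra.algebraMap_eq_smul_one]⟩
      star_mem' := by
        rintro _ ⟨x, rfl⟩
        induction x using TensorProduct.induction_on with
        | zero => exact ⟨0, by ext <;> simp⟩
        | add x y hx hy =>
          obtain ⟨x', hx⟩ := hx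
          obtain ⟨y', hy⟩ := hy
          refine ⟨x' + y', ?_⟩
          have := congrArg₂ (· + ·) hx hy
          simp only [← star_add] at this
          simpa using this
        | tmul a b =>
          exact ⟨star a ⊗ₜ star b, by
            ext <;> simp [← map_star, (h.comm (star a) (star b)).eq, (hc (star a) (star b)).eq]⟩ }
  obtain ⟨Θ, hΘ⟩ := graph_ext Γ (by rintro _ ⟨x, rfl⟩; exact hn x) (h.dense.mono (by
    rintro _ ⟨x, rfl⟩
    exact ⟨_, ⟨x, rfl⟩, rfl⟩))
  exact ⟨Θ, fun a => by simpa using hΘ _ ⟨a ⊗ₜ 1, rfl⟩, fun b => by simpa using hΘ _ ⟨1 ⊗ₜ b, rfl⟩⟩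

end Tensor

/-- Approximate unitary equivalence along a filter. -/
def FUE {D E : Type*} [CStarAlgebra E] (α β : D → E) : Prop :=
  ∃ l : Filter (unitary E), l.NeBot ∧
    ∀ d, Tendsto (fun u : unitary E => (u : E) * α d * star (u : E)) l (𝓝 (β d))

section FUE
variable {D E : Type*} [CStarAlgebra E] {α β γ : D → E}

theorem FUE.symm (h : FUE α β) : FUE β α := by
  obtain ⟨l, hl, h⟩ := h
  refine ⟨l.map star, inferInstance, fun d => ?_⟩
  rw [tendsto_map'_iff, tendsto_iff_norm_sub_tendsto_zero]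
  refine (tendsto_iff_norm_sub_tendsto_zero.1 (h d)).congr fun u => ?_
  rw [← norm_conj' u, norm_sub_rev]
  congr 1
  simp only [Function.comp, Unitary.coe_star, star_star, mul_sub, sub_mul, mul_assoc,
    Unitary.star_mul_self_of_mem u.2, mul_one]
  rw [← mul_assoc (star (u : E)) u, Unitary.star_mul_self_of_mem u.2, one_mul]

theorem FUE.trans (h : FUE α β) (h' : FUE β γ) : FUE α γ := by
  obtain ⟨l, hl, h⟩ := h
  obtain ⟨l', hl', h'⟩ := h'
  refine ⟨(l ×ˢ l').map fun p => p.2 * p.1, inferInstance, fun d => ?_⟩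
  rw [tendsto_map'_iff, tendsto_iff_norm_sub_tendsto_zero]
  have a1 := (tendsto_iff_norm_sub_tendsto_zero.1 (h d)).comp (tendsto_fst (g := l'))
  have a2 := (tendsto_iff_norm_sub_tendsto_zero.1 (h' d)).comp (tendsto_snd (f := l))
  refine squeeze_zero (fun _ => norm_nonneg _) (fun p => ?_) (by simpa using a1.add a2)
  simp only [Function.comp]
  rw [← norm_conj p.2 (_ - β d)]
  refine le_of_eq_of_le (congrArg norm ?_) (norm_add_le _ _)
  simp only [Submonoid.coe_mul, star_mul, mul_sub, sub_mul, mul_assoc]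
  abel

theorem FUE.comp {D' : Type*} (h : FUE α β) (j : D' → D) : FUE (α ∘ j) (β ∘ j) := by
  obtain ⟨l, hl, h⟩ := h
  exact ⟨l, hl, fun d => h (j d)⟩

theorem FUE.map {E' : Type*} [CStarAlgebra E'] (h : FUE α β) (Θ : E →⋆ₐ[ℂ] E') :
    FUE (Θ ∘ α) (Θ ∘ β) := by
  obtain ⟨l, hl, h⟩ := h
  refine ⟨l.map fun u : unitary E => ⟨Θ u, by
    rw [Unitary.mem_iff, ← map_star, ← map_mul, ← map_mul, u.2.1, u.2.2, map_one]
    exact ⟨rfl, rfl⟩⟩, inferInstance, fun d => ?_⟩
  rw [tendsto_map'_iff]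
  refine (((map_continuous Θ).tendsto _).comp (h d)).congr fun u => ?_
  simp [map_star]

end FUE

theorem half_flip {D E : Type u} [CStarAlgebra D] [CStarAlgebra E] (hn : IsNuclear D)
    (hs : IsSelfAbsorbing D) (α β : D →⋆ₐ[ℂ] E) (hc : ∀ a b, Commute (α a) (β b)) : FUE α β := by
  obtain ⟨C, _, i, j, hT, φ, v, hv⟩ := hs
  have h0 : FUE φ i := ⟨atTop.map v, inferInstance, fun d => tendsto_map'_iff.2 (hv d)⟩
  let j' : D →⋆ₐ[ℂ] D := (φ.symm : C →⋆ₐ[ℂ] D).comp j
  have key : ∀ α β : D →⋆ₐ[ℂ] E, (∀ a b, Commute (α a) (β b)) → FUE β (α.comp j') := by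
    intro α β hc
    obtain ⟨Θ, h1, h2⟩ := exists_theta hT hc (hn D C E i j α β hT hc)
    have := (h0.map Θ).comp j'
    convert this using 1
    · ext d; simp [j', h2]
    · ext d; simp [h1]
  exact ((key β α fun a b => (hc b a).symm).trans
    (key β (α.comp j') fun a b => (hc _ a).symm).symm).trans (key α β hc).symm

theorem exists_drop_hom {p q : ℕ} (hp : 0 < p) (hq : 0 < q) (h : Nat.Coprime p q) :
    ∃ k, Nonempty (DimDrop p q →⋆ₐ[ℂ] DimDrop (k + 1) (k + 2)) := by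
  obtain ⟨k₀, h1, h2⟩ := Nat.chineseRemainder h 0 (q - 1)
  have hpq : 0 < p * q := Nat.mul_pos hp hq
  obtain ⟨r, hr⟩ : p ∣ k₀ + p * q - 1 + 1 := by
    rw [Nat.sub_add_cancel (by omega)]
    exact dvd_add ((Nat.modEq_zero_iff_dvd).1 h1) (dvd_mul_right _ _)
  obtain ⟨s, hs⟩ : q ∣ k₀ + p * q - 1 + 2 := by
    have : k₀ + 1 ≡ 0 [MOD q] := by
      have := h2.add_right 1
      rw [Nat.sub_add_cancel hq] at this
      exact this.trans (Nat.modEq_zero_iff_dvd.2 dvd_rfl)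
    rw [show k₀ + p * q - 1 + 2 = (k₀ + 1) + p * q by omega]
    exact dvd_add (Nat.modEq_zero_iff_dvd.1 this) (dvd_mul_left _ _)
  refine ⟨k₀ + p * q - 1, ?_⟩
  generalize k₀ + p * q - 1 = k at hr hs
  let e₁ : Fin (k + 1) ≃ Fin p × Fin r := (finCongr hr).trans finProdFinEquiv.symm
  let e₂ : Fin (k + 2) ≃ Fin q × Fin s := (finCongr hs).trans finProdFinEquiv.symm
  let e : Fin (k + 1) × Fin (k + 2) ≃ (Fin p × Fin q) × (Fin r × Fin s) :=
    (e₁.prodCongr e₂).trans (Equiv.prodProdProdComm _ _ _ _)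
  let Φ : Matrix (Fin p × Fin q) (Fin p × Fin q) ℂ →
      Matrix (Fin (k + 1) × Fin (k + 2)) (Fin (k + 1) × Fin (k + 2)) ℂ :=
    fun M => (M ⊗ₖ (1 : Matrix (Fin r × Fin s) (Fin r × Fin s) ℂ)).submatrix e e
  have hΦ : Continuous Φ := continuous_matrix fun i j => by
    simp only [Φ, Matrix.submatrix_apply, Matrix.kroneckerMap_apply]
    fun_prop
  refine ⟨{ toFun := fun f => ⟨⟨fun t => Φ (f.1 t), hΦ.comp f.1.continuous⟩, ?_, ?_⟩
            map_one' := ?_, map_mul' := fun f g => ?_, map_zero' := ?_,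
            map_add' := fun f g => ?_, commutes' := fun c => ?_, map_star' := fun f => ?_ }⟩
  · obtain ⟨a, ha⟩ := f.2.1
    refine ⟨(a ⊗ₖ (1 : Matrix (Fin r) (Fin r) ℂ)).submatrix e₁ e₁, ?_⟩
    ext ⟨x, y⟩ ⟨x', y'⟩
    simp only [Φ, e, ha, ContinuousMap.coe_mk, Matrix.submatrix_apply, Matrix.kroneckerMap_apply,
      Matrix.one_apply, Equiv.trans_apply, Equiv.prodCongr_apply, Prod.map,
      Equiv.prodProdProdComm_apply, Prod.mk.injEq, ← e₂.injective.eq_iff (a := y),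
      Prod.ext_iff (x := e₂ y)]
    by_cases h1 : (e₂ y).1 = (e₂ y').1 <;> by_cases h2 : (e₂ y).2 = (e₂ y').2 <;> simp [h1, h2]
  · obtain ⟨a, ha⟩ := f.2.2
    refine ⟨(a ⊗ₖ (1 : Matrix (Fin s) (Fin s) ℂ)).submatrix e₂ e₂, ?_⟩
    ext ⟨x, y⟩ ⟨x', y'⟩
    simp only [Φ, e, ha, ContinuousMap.coe_mk, Matrix.submatrix_apply, Matrix.kroneckerMap_apply,
      Matrix.one_apply, Equiv.trans_apply, Equiv.prodCongr_apply, Prod.map,
      Equiv.prodProdProdComm_apply, Prod.mk.injEq, ← e₁.injective.eq_iff (a := x),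
      Prod.ext_iff (x := e₁ x)]
    by_cases h1 : (e₁ x).1 = (e₁ x').1 <;> by_cases h2 : (e₁ x).2 = (e₁ x').2 <;> simp [h1, h2]
  · exact Subtype.ext (ContinuousMap.ext fun t => by simp [Φ])
  · exact Subtype.ext (ContinuousMap.ext fun t => by
      simp [Φ, Matrix.submatrix_mul_equiv, ← Matrix.mul_kronecker_mul])
  · exact Subtype.ext (ContinuousMap.ext fun t => by simp [Φ])
  · exact Subtype.ext (ContinuousMap.ext fun t => by
      simp [Φ, Matrix.add_kronecker, Matrix.submatrix_add])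
  · exact Subtype.ext (ContinuousMap.ext fun t => by
      simp [Φ, Algebra.algebraMap_eq_smul_one, Matrix.smul_kronecker, Matrix.submatrix_smul])
  · exact Subtype.ext (ContinuousMap.ext fun t => by
      simp [Φ, Matrix.star_eq_conjTranspose, Matrix.conjTranspose_kronecker])

open scoped Matrix.Norms.L2Operator in
theorem drop_contr {p q : ℕ} {D F : Type*} [CStarAlgebra D] [CStarAlgebra F]
    (ι : DimDrop p q →⋆ₐ[ℂ] D) (hι : Function.Injective ι) (γ : DimDrop p q →⋆ₐ[ℂ] F)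
    (f : DimDrop p q) : ‖γ f‖ ≤ ‖ι f‖ := by
  have hc : IsClosed (DimDrop p q : Set C(unitInterval, Matrix (Fin p × Fin q) (Fin p × Fin q) ℂ)) := by
    have h1 : IsClosed (Set.range fun a : Matrix (Fin p) (Fin p) ℂ =>
        a ⊗ₖ (1 : Matrix (Fin q) (Fin q) ℂ)) :=
      (LinearMap.range ((Matrix.kroneckerBilinear (R := ℂ)).flip
        (1 : Matrix (Fin q) (Fin q) ℂ))).closed_of_finiteDimensional
    have h2 : IsClosed (Set.range fun a : Matrix (Fin q) (Fin q) ℂ =>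
        (1 : Matrix (Fin p) (Fin p) ℂ) ⊗ₖ a) :=
      (LinearMap.range (Matrix.kroneckerBilinear (R := ℂ)
        (1 : Matrix (Fin p) (Fin p) ℂ))).closed_of_finiteDimensional
    have := (h1.preimage (continuous_eval_const
      (F := C(unitInterval, Matrix (Fin p × Fin q) (Fin p × Fin q) ℂ)) (0 : unitInterval))).inter
      (h2.preimage (continuous_eval_const (1 : unitInterval)))
    convert this using 1
    ext g
    simp only [Set.mem_inter_iff, Set.mem_preimage, Set.mem_range, eq_comm (b := g _)]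
    rfl
  let _ : CStarAlgebra (DimDrop p q) := StarSubalgebra.cstarAlgebra _
  rw [NonUnitalStarAlgHom.norm_map ι hι]
  exact NonUnitalStarAlgHom.norm_apply_le γ f

theorem limit_hom {D F : Type*} [CStarAlgebra D] [CStarAlgebra F] {ω : Ultrafilter ℕ}
    (hω : (ω : Filter ℕ) ≤ cofinite) {S : ℕ → Type*} [∀ n, Semiring (S n)] [∀ n, StarRing (S n)]
    [∀ n, Algebra ℂ (S n)] (ι : ∀ n, S n →⋆ₐ[ℂ] D) (γ : ∀ n, S n →⋆ₐ[ℂ] F)
    (hn : ∀ n f, ‖γ n f‖ ≤ ‖ι n f‖) (mono : ∀ n, Set.range (ι n) ⊆ Set.range (ι (n + 1)))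
    (hd : Dense (⋃ n, Set.range (ι n))) : Nonempty (D →⋆ₐ[ℂ] Ultrapower F ω) := by
  classical
  have hω' : (ω : Filter ℕ) ≤ atTop := Nat.cofinite_eq_atTop ▸ hω
  let Γ : StarSubalgebra ℂ (D × Ultrapower F ω) :=
    { carrier := {z | ∃ s : ℕ →ᵇ F, Ideal.Quotient.mk _ s = z.2 ∧
        ∀ᶠ m in ω, ∃ f, ι m f = z.1 ∧ γ m f = s m}
      mul_mem' := by
        rintro z w ⟨s, hs, h⟩ ⟨t, ht, h'⟩
        refine ⟨s * t, by rw [map_mul, hs, ht]; rfl, ?_⟩
        filter_upwards [h, h'] with m ⟨f, a1, a2⟩ ⟨g, b1, b2⟩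
        exact ⟨f * g, by rw [map_mul, a1, b1]; rfl, by rw [map_mul, a2, b2]; rfl⟩
      add_mem' := by
        rintro z w ⟨s, hs, h⟩ ⟨t, ht, h'⟩
        refine ⟨s + t, by rw [map_add, hs, ht]; rfl, ?_⟩
        filter_upwards [h, h'] with m ⟨f, a1, a2⟩ ⟨g, b1, b2⟩
        exact ⟨f + g, by rw [map_add, a1, b1]; rfl, by rw [map_add, a2, b2]; rfl⟩
      algebraMap_mem' := fun c => ⟨algebraMap ℂ _ c, rfl, Eventually.of_forall fun m =>
        ⟨algebraMap ℂ _ c, (ι m).commutes c, (γ m).commutes c⟩⟩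
      star_mem' := by
        rintro z ⟨s, hs, h⟩
        refine ⟨star s, by rw [← star_mk, hs]; rfl, ?_⟩
        filter_upwards [h] with m ⟨f, a1, a2⟩
        exact ⟨star f, by rw [map_star, a1]; rfl, by rw [map_star, a2]; rfl⟩ }
  obtain ⟨Θ, -⟩ := graph_ext Γ (by
    rintro z ⟨s, hs, h⟩
    rw [← hs]
    refine norm_mk_le_of_eventually (norm_nonneg _) ?_
    filter_upwards [h] with m ⟨f, a1, a2⟩
    rw [← a1, ← a2]
    exact hn m f) (hd.mono (by
    intro d hd
    obtain ⟨n, hn'⟩ := Set.mem_iUnion.1 hd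
    have m2 : Monotone fun n => Set.range (ι n) := monotone_nat_of_le_succ mono
    let g : ℕ → F := fun m => if h : d ∈ Set.range (ι m) then γ m h.choose else 0
    have hg : ∀ m, ‖g m‖ ≤ ‖d‖ := fun m => by
      simp only [g]
      split_ifs with h
      · exact (hn m _).trans (by rw [h.choose_spec])
      · simp
    refine ⟨(d, Ideal.Quotient.mk _ (BoundedContinuousFunction.ofNormedAddCommGroupDiscrete g _ hg)),
      ⟨_, rfl, ?_⟩, rfl⟩
    filter_upwards [hω' (eventually_ge_atTop n)] with m hm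
    have h : d ∈ Set.range (ι m) := m2 hm hn'
    have e : g m = γ m h.choose := dif_pos h
    exact ⟨h.choose, h.choose_spec, e.symm⟩))
  exact ⟨Θ⟩

theorem good_top {A Z C W V : Type u} [CStarAlgebra A] [CStarAlgebra Z] [CStarAlgebra C]
    [CStarAlgebra W] [CStarAlgebra V] (hn : IsNuclear Z) (hs : IsSelfAbsorbing Z)
    {i : A →⋆ₐ[ℂ] C} {j : Z →⋆ₐ[ℂ] C} (hC : IsCTensor i j) (c₂ : C →⋆ₐ[ℂ] W) (Λ : V →⋆ₐ[ℂ] W)
    (α₀ : Z →⋆ₐ[ℂ] W) (h1 : ∀ d a, Commute (α₀ d) (c₂ (i a)))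
    (h2 : ∀ d d', Commute (α₀ d) (c₂ (j d'))) (h3 : ∀ a d, c₂ (i a) * α₀ d ∈ Set.range Λ) :
    Good (fun a => c₂ (i a)) (fun c => c₂ c) (Set.range Λ) := by
  let E := StarSubalgebra.centralizer ℂ (Set.range fun a => c₂ (i a))
  have hE : IsClosed (E : Set (W)) := isClosed_centr _
  have memE : ∀ y, (∀ a, Commute y (c₂ (i a))) → y ∈ E := fun y hy => by
    rw [StarSubalgebra.mem_centralizer_iff]
    rintro _ ⟨a, rfl⟩
    exact ⟨(hy a).symm, by rw [← map_star, ← map_star]; exact (hy _).symm⟩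
  let α : Z →⋆ₐ[ℂ] E := α₀.codRestrict E fun d => memE _ fun a => h1 d a
  let β : Z →⋆ₐ[ℂ] E := (c₂.comp j).codRestrict E fun d => memE _ fun a =>
    ((hC.comm a d).map c₂).symm
  obtain ⟨l, hl, hlim⟩ := half_flip hn hs β α fun a b => Subtype.ext (h2 b a).symm
  have key : ∀ x : A ⊗[ℂ] Z, ∃ b ∈ Set.range Λ, Tendsto (fun u : unitary E =>
      (u : E).1 * c₂ (tmulMap i j x) * star (u : E).1) l (𝓝 b) := by
    intro x
    induction x using TensorProduct.induction_on with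
    | zero => exact ⟨0, ⟨0, map_zero _⟩, by simp⟩
    | add x y hx hy =>
      obtain ⟨_, ⟨b, rfl⟩, hb⟩ := hx
      obtain ⟨_, ⟨b', rfl⟩, hb'⟩ := hy
      exact ⟨_, ⟨b + b', map_add _ _ _⟩, by simpa only [map_add, mul_add, add_mul] using hb.add hb'⟩
    | tmul a d =>
      refine ⟨c₂ (i a) * (α d).1, h3 a d, ?_⟩
      refine (((continuous_subtype_val.tendsto _).comp (hlim d)).const_mul (c₂ (i a))).congr
        fun u => ?_
      have := ((StarSubalgebra.mem_centralizer_iff ℂ).1 (u : E).2 _ ⟨a, rfl⟩).1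
      rw [tmulMap_tmul, map_mul, ← mul_assoc, ← this]
      simp only [mul_assoc]
      rfl
  intro s t ε hε
  have ev : ∀ᶠ u : unitary E in l, ∀ c ∈ t, ∃ b ∈ Set.range Λ,
      ‖(u : E).1 * c₂ c * star (u : E).1 - b‖ < ε := by
    rw [eventually_all_finset]
    intro c _
    obtain ⟨x, hx⟩ := hC.dense.exists_dist_lt c (half_pos hε)
    obtain ⟨b, hb, hb'⟩ := key x
    filter_upwards [(tendsto_iff_norm_sub_tendsto_zero.1 hb').eventually
      (gt_mem_nhds (half_pos hε))] with u hu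
    refine ⟨b, hb, ?_⟩
    have h1 : ‖(u : E).1 * (c₂ c - c₂ (tmulMap i j x)) * star (u : E).1‖ < ε / 2 := by
      have := norm_conj (C := W)
        ⟨(u : E).1, congrArg Subtype.val u.2.1, congrArg Subtype.val u.2.2⟩
        (c₂ c - c₂ (tmulMap i j x))
      rw [this, ← map_sub]
      exact (NonUnitalStarAlgHom.norm_apply_le c₂ _).trans_lt (by rwa [← dist_eq_norm])
    have h2 := norm_add_le ((u : E).1 * (c₂ c - c₂ (tmulMap i j x)) * star (u : E).1)
      ((u : E).1 * c₂ (tmulMap i j x) * star (u : E).1 - b)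
    rw [mul_sub, sub_mul, sub_add_sub_cancel] at h2
    rw [mul_sub, sub_mul] at h1
    linarith
  obtain ⟨u, hu⟩ := ev.exists
  refine ⟨star ⟨(u : E).1, congrArg Subtype.val u.2.1, congrArg Subtype.val u.2.2⟩,
    fun a _ => ?_, fun c hc => ?_⟩
  · have := ((StarSubalgebra.mem_centralizer_iff ℂ).1 (star_mem (u : E).2) _ ⟨a, rfl⟩).1
    change ‖star (u : E).1 * c₂ (i a) - c₂ (i a) * star (u : E).1‖ < ε
    rwa [this, sub_self, norm_zero]
  · simpa using hu c hc

theorem absorb {A Z C : Type u} [CStarAlgebra A] [TopologicalSpace.SeparableSpace A]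
    [CStarAlgebra Z] [TopologicalSpace.SeparableSpace Z] [Nontrivial Z] [CStarAlgebra C]
    (hn : IsNuclear Z) (hs : IsSelfAbsorbing Z) {ω : Ultrafilter ℕ}
    (Γ : Z →⋆ₐ[ℂ] Ultrapower (CentralSeq A ω) ω) {i : A →⋆ₐ[ℂ] C} {j : Z →⋆ₐ[ℂ] C}
    (hC : IsCTensor i j) : Nonempty (A ≃⋆ₐ[ℂ] C) := by
  have hi : Function.Injective i := fun a b hab => by
    have : tmulMap i j (a ⊗ₜ 1) = tmulMap i j (b ⊗ₜ 1) := by simp [hab]
    exact Algebra.TensorProduct.includeLeft_injective (S := ℂ) (algebraMap ℂ Z).injective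
      (hC.inj this)
  have hsep : TopologicalSpace.SeparableSpace C := by
    rw [← TopologicalSpace.isSeparable_univ_iff, ← hC.dense.closure_range]
    refine TopologicalSpace.IsSeparable.closure ?_
    have h1 : TopologicalSpace.IsSeparable (Set.range fun p : A × Z => i p.1 * j p.2) :=
      TopologicalSpace.isSeparable_range
        (((map_continuous i).comp continuous_fst).mul ((map_continuous j).comp continuous_snd))
    refine (h1.span (R := ℂ)).mono ?_
    rintro _ ⟨x, rfl⟩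
    induction x using TensorProduct.induction_on with
    | zero => simp
    | add x y hx hy => rw [map_add]; exact add_mem hx hy
    | tmul a b => exact Submodule.subset_span ⟨(a, b), rfl⟩
  let κ : CentralSeq A ω →⋆ₐ[ℂ] Ultrapower C ω := (ultraMap ω i).comp (CentralSeq A ω).subtype
  have hg := good_top hn hs hC ((cS _ ω).comp (cS C ω)) (ultraMap ω (ultraMap ω i))
    ((ultraMap ω κ).comp Γ)
    (fun d a => commute_ultraMap (φ := κ) (c := cS C ω (i a)) (fun f => by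
      have := ((StarSubalgebra.mem_centralizer_iff ℂ).1 f.2 _ ⟨a, rfl⟩).1
      exact (Commute.map this (ultraMap ω i)).symm) (Γ d))
    (fun d d' => commute_ultraMap (φ := κ) (c := cS C ω (j d'))
      (fun f => commute_ultraMap (fun x => hC.comm x d') f.1) (Γ d))
    (fun a d => ⟨cS _ ω (cS A ω a) * ultraMap ω (CentralSeq A ω).subtype (Γ d), by
      rw [map_mul, ← ultraMap_comp, ultraMap_cS, ultraMap_cS]; rfl⟩)
  exact intertwine i hi (Good.descend (ω := ω) (Good.descend (ω := ω) hg))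

theorem jiangSu_absorb {A Z C : Type u} [CStarAlgebra A] [TopologicalSpace.SeparableSpace A]
    [CStarAlgebra Z] [CStarAlgebra C] (hZ : IsJiangSu Z) {ω : Ultrafilter ℕ}
    (hω : (ω : Filter ℕ) ≤ cofinite) (h : IsEmpty (CentralSeq A ω →⋆ₐ[ℂ] ℂ))
    {i : A →⋆ₐ[ℂ] C} {j : Z →⋆ₐ[ℂ] C} (hC : IsCTensor i j) : Nonempty (A ≃⋆ₐ[ℂ] C) := by
  have := hZ.separable
  have := hZ.simple
  obtain ⟨p, q, T, hpq, h2, h3⟩ := hZ.limit
  choose ι h1 hT using fun n => (hpq n).2.2.2
  obtain rfl : T = fun n => Set.range (ι n) := funext fun n => (hT n).symm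
  have hγ : ∀ n, Nonempty (DimDrop (p n) (q n) →⋆ₐ[ℂ] CentralSeq A ω) := fun n => by
    obtain ⟨k, ⟨φ⟩⟩ := exists_drop_hom (by have := (hpq n).1; omega) (by have := (hpq n).2.1; omega)
      (hpq n).2.2.1
    obtain ⟨ψ⟩ := central_drop hω h k
    exact ⟨ψ.comp φ⟩
  obtain ⟨Γ⟩ := limit_hom hω ι (fun n => (hγ n).some) (fun n f => drop_contr _ (h1 n) _ f)
    (fun n => h2 (Nat.le_succ n)) h3
  exact absorb hZ.nuclear hZ.absorbing Γ hC

end Vale.Agent.P101
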