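import Vale.Agent.P101.Ultra

/-! The dimension drop algebras have no characters. -/

set_option linter.unusedSectionVars false
set_option linter.unusedSimpArgs false

namespace Vale.Agent.P101

open scoped Kronecker

/-- `(1 - t) a ⊗ 1`. -/
noncomputable def dropL (p q : ℕ) (a : Matrix (Fin p) (Fin p) ℂ) : DimDrop p q :=
  ⟨⟨fun t => ((1 - t : ℝ) : ℂ) • (a ⊗ₖ (1 : Matrix (Fin q) (Fin q) ℂ)), by fun_prop⟩,
    ⟨a, by simp⟩, 0, by simp⟩

/-- `t 1 ⊗ b`. -/
noncomputable def dropR (p q : ℕ) (b : Matrix (Fin q) (Fin q) ℂ) : DimDrop p q :=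
  ⟨⟨fun t => ((t : ℝ) : ℂ) • ((1 : Matrix (Fin p) (Fin p) ℂ) ⊗ₖ b), by fun_prop⟩,
    ⟨0, by simp⟩, b, by simp⟩

theorem char_aux {D : Type*} [Semiring D] {p : ℕ} (hp : 2 ≤ p) (χ : D →ₙ+* ℂ)
    (L : Matrix (Fin p) (Fin p) ℂ → D) (h0 : L 0 * L 0 = 0) (ha : ∀ a b, L (a + b) = L a + L b)
    (hm : ∀ a b c d, a * b = c * d → L a * L b = L c * L d) : χ (L 1) = 0 := by
  have z : ∀ a, a * a = 0 → χ (L a) = 0 := fun a h => by
    rw [← mul_self_eq_zero, ← map_mul, hm a a 0 0 (by simp [h]), h0, map_zero]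
  have d : ∀ i, χ (L (Matrix.single i i 1)) = 0 := fun i => by
    have : Nontrivial (Fin p) := Fin.nontrivial_iff_two_le.2 hp
    obtain ⟨j, hj⟩ := exists_ne i
    rw [← mul_self_eq_zero, ← map_mul, hm _ _ (Matrix.single i j 1) (Matrix.single j i 1)
      (by simp), map_mul, z _ (Matrix.single_mul_single_of_ne _ _ _ _ hj _), zero_mul]
  have key : ∀ s : Finset (Fin p), χ (L (∑ i ∈ s, Matrix.single i i 1)) = 0 := by
    intro s
    induction s using Finset.induction_on with
    | empty => exact z _ (by simp)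
    | insert i s hi ih => rw [Finset.sum_insert hi, ha, map_add, d, ih, add_zero]
  have := key Finset.univ
  rwa [Matrix.sum_single_one] at this

theorem drop_char {p q : ℕ} (hp : 2 ≤ p) (hq : 2 ≤ q) (χ : DimDrop p q →ₙ+* ℂ) : χ 1 = 0 := by
  have h : (1 : DimDrop p q) = dropL p q 1 + dropR p q 1 := Subtype.ext (by
    ext t : 1
    simp [dropL, dropR, sub_smul])
  rw [h, map_add, char_aux hp χ (dropL p q), char_aux hq χ (dropR p q), add_zero]
  · exact Subtype.ext (by ext t : 1; simp [dropR])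
  · exact fun a b => Subtype.ext (by ext t : 1; simp [dropR, Matrix.kronecker_add])
  · exact fun a b c d h => Subtype.ext (by
      ext t : 1; simp [dropR, ← Matrix.mul_kronecker_mul, h])
  · exact Subtype.ext (by ext t : 1; simp [dropL])
  · exact fun a b => Subtype.ext (by ext t : 1; simp [dropL, Matrix.add_kronecker])
  · exact fun a b c d h => Subtype.ext (by
      ext t : 1; simp [dropL, ← Matrix.mul_kronecker_mul, h])

end Vale.Agent.P101
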