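import Vale.Agent.P101.Join

/-! The covering argument. -/

set_option linter.unusedSectionVars false
set_option linter.unusedSimpArgs false

namespace Vale.Agent.P101

open Filter Topology

variable {G : Type*} [CStarAlgebra G] [PartialOrder G] [StarOrderedRing G]

/-- The sum over the subsets of size `j` of `n` slots of `z` on the subset and `s` off it. -/
def sym (S : G →⋆ₐ[ℂ] G) (s z : G) : ℕ → ℕ → G
  | 0, 0 => 1
  | 0, _ + 1 => 0
  | n + 1, 0 => s * S (sym S s z n 0)
  | n + 1, j + 1 => s * S (sym S s z n (j + 1)) + z * S (sym S s z n j)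

theorem sym_zero (S : G →⋆ₐ[ℂ] G) (s z : G) (n : ℕ) : sym S s z n 0 = tpow S s n := by
  induction n with
  | zero => rfl
  | succ n ih => rw [sym, tpow, ih]

theorem star_mul_shift {S : G →⋆ₐ[ℂ] G} {a b : G} (ha : ∀ x, Commute a (S x))
    (hb : ∀ x, Commute b (S x)) (p q : G) :
    star (a * S p) * (b * S q) = star a * b * S (star p * q) := by
  have h1 : Commute (star a) (S (star p)) := by
    have := (ha p).star_star
    rwa [← map_star] at this
  rw [star_mul, ← map_star, ← h1.eq, (hb _).symm.mul_mul_mul_comm, map_mul]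

theorem sym_orth {S : G →⋆ₐ[ℂ] G} {s z z' : G} (cs : ∀ x, Commute s (S x))
    (cz : ∀ x, Commute z (S x)) (cz' : ∀ x, Commute z' (S x)) (h : star z * s = 0)
    (h' : star s * z' = 0) (n : ℕ) : ∀ j j', j ≠ j' → star (sym S s z n j) * sym S s z' n j' = 0 := by
  induction n with
  | zero =>
    rintro (_ | j) (_ | j') hne <;> simp_all [sym]
  | succ n ih =>
    rintro (_ | j) (_ | j') hne
    · exact absurd rfl hne
    · simp only [sym, mul_add, star_mul_shift cs cs, star_mul_shift cs cz', ih _ _ hne, h']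
      simp
    · simp only [sym, star_add, add_mul, star_mul_shift cs cs, star_mul_shift cz cs, ih _ _ hne, h]
      simp
    · simp only [sym, star_add, add_mul, mul_add, star_mul_shift cs cs, star_mul_shift cz cs,
        star_mul_shift cs cz', star_mul_shift cz cz', ih _ _ hne, h, h',
        ih j j' (fun e => hne (by rw [e]))]
      simp

theorem sym_norm {S : G →⋆ₐ[ℂ] G} {s z : G} (cs : ∀ x, Commute s (S x))
    (cz : ∀ x, Commute z (S x)) (h : star z * s = 0) (n : ℕ) :
    ∀ j, star (sym S s z n j) * sym S s z n j = sym S (star s * s) (star z * z) n j := by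
  have h' : star s * z = 0 := by rw [← star_star z, ← star_mul, h, star_zero]
  induction n with
  | zero => rintro (_ | j) <;> simp [sym]
  | succ n ih =>
    rintro (_ | j)
    · simp only [sym, star_mul_shift cs cs, ih]
    · simp only [sym, star_add, add_mul, mul_add, star_mul_shift cs cs, star_mul_shift cz cs,
        star_mul_shift cs cz, star_mul_shift cz cz, ih, h, h']
      simp

theorem sym_nonneg {S : G →⋆ₐ[ℂ] G} {c z : G} (c0 : 0 ≤ c) (z0 : 0 ≤ z) (cc : ∀ x, Commute c (S x))
    (cz : ∀ x, Commute z (S x)) (n : ℕ) : ∀ j, 0 ≤ sym S c z n j := by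
  induction n with
  | zero => rintro (_ | j) <;> simp [sym]
  | succ n ih =>
    rintro (_ | j)
    · exact Commute.mul_nonneg c0 (map_nonneg' S (ih _)) (cc _)
    · exact add_nonneg (Commute.mul_nonneg c0 (map_nonneg' S (ih _)) (cc _))
        (Commute.mul_nonneg z0 (map_nonneg' S (ih _)) (cz _))

theorem mul_shift_le {S : G →⋆ₐ[ℂ] G} {c : G} (c0 : 0 ≤ c) (cc : ∀ x, Commute c (S x)) {p q : G}
    (h : p ≤ q) : c * S p ≤ c * S q := by
  rw [← sub_nonneg, ← mul_sub, ← map_sub]
  exact Commute.mul_nonneg c0 (map_nonneg' S (sub_nonneg.2 h)) (cc _)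

theorem cover {S : G →⋆ₐ[ℂ] G} {N : ℕ} {z : Fin N → G} (z0 : ∀ a, 0 ≤ z a)
    (cz : ∀ a x, Commute (z a) (S x)) (n : ℕ) : ∀ j : Fin N → ℕ,
      ((∃ b, j b = 0) ∨ ∑ b, (j b - 1) < n) →
      tpow S (∑ a, z a) n ≤ ∑ b, sym S (∑ a, z a) (z b) n (j b) := by
  have c0 : 0 ≤ ∑ a, z a := Finset.sum_nonneg fun a _ => z0 a
  have cc : ∀ x, Commute (∑ a, z a) (S x) := fun x => Commute.sum_left _ _ _ fun a _ => cz a x
  have triv : ∀ n (j : Fin N → ℕ), (∃ b, j b = 0) →
      tpow S (∑ a, z a) n ≤ ∑ b, sym S (∑ a, z a) (z b) n (j b) := by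
    rintro n j ⟨b, hb⟩
    refine le_trans ?_ (Finset.single_le_sum (fun a _ => sym_nonneg c0 (z0 a) cc (cz a) n (j a))
      (Finset.mem_univ b))
    rw [hb, sym_zero]
  induction n with
  | zero =>
    rintro j (h | h)
    · exact triv _ _ h
    · omega
  | succ n ih =>
    intro j h
    by_cases h0 : ∃ b, j b = 0
    · exact triv _ _ h0
    replace h := h.resolve_left h0
    push Not at h0
    obtain ⟨i, rfl⟩ : ∃ i : Fin N → ℕ, j = fun b => i b + 1 :=
      ⟨fun b => j b - 1, funext fun b => (Nat.sub_add_cancel (Nat.pos_of_ne_zero (h0 b))).symm⟩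
    simp only [Nat.add_sub_cancel] at h
    set c := ∑ a, z a with hc
    have step : ∀ a, z a * S (tpow S c n) ≤ z a * S (sym S c (z a) n (i a))
        + ∑ b, z a * S (sym S c (z b) n (i b + 1)) := by
      intro a
      rw [← Finset.mul_sum, ← map_sum, ← mul_add, ← map_add]
      refine mul_shift_le (z0 a) (cz a) ((ih (Function.update (fun b => i b + 1) a (i a)) ?_).trans ?_)
      · rcases Nat.eq_zero_or_pos (i a) with h1 | h1
        · exact Or.inl ⟨a, by simp [h1]⟩
        · right
          have h2 := Finset.add_sum_erase Finset.univ i (Finset.mem_univ a)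
          rw [← Finset.add_sum_erase Finset.univ _ (Finset.mem_univ a)]
          have h3 : ∑ x ∈ Finset.univ.erase a, (Function.update (fun b => i b + 1) a (i a) x - 1)
              = ∑ x ∈ Finset.univ.erase a, i x :=
            Finset.sum_congr rfl fun x hx => by
              simp [Function.update_of_ne (Finset.ne_of_mem_erase hx)]
          rw [h3, Function.update_self]
          omega
      · rw [← Finset.add_sum_erase Finset.univ _ (Finset.mem_univ a), Function.update_self]
        refine add_le_add le_rfl ?_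
        have h3 : ∑ x ∈ Finset.univ.erase a,
            sym S c (z x) n (Function.update (fun b => i b + 1) a (i a) x)
              = ∑ x ∈ Finset.univ.erase a, sym S c (z x) n (i x + 1) :=
            Finset.sum_congr rfl fun x hx => by
              simp [Function.update_of_ne (Finset.ne_of_mem_erase hx)]
        rw [h3]
        exact Finset.sum_le_sum_of_subset_of_nonneg (Finset.erase_subset _ _)
          fun b _ _ => sym_nonneg c0 (z0 b) cc (cz b) n _
    calc tpow S c (n + 1) = ∑ a, z a * S (tpow S c n) := by rw [tpow, ← Finset.sum_mul]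
      _ ≤ _ := Finset.sum_le_sum fun a _ => step a
      _ = _ := by
        simp only [sym, Finset.sum_add_distrib]
        rw [add_comm, Finset.sum_comm]
        simp only [← Finset.sum_mul, ← hc]

theorem douglas {W p : G} (p0 : 0 ≤ p) (h : p ≤ star W * W) :
    ∃ v : G, star v * v = p ∧ ∀ e : G, e * W = W → e * v = v := by
  set y := star W * W with hy
  have y0 : 0 ≤ y := star_mul_self_nonneg W
  have sy := y0.isSelfAdjoint
  have sp := p0.isSelfAdjoint
  set s := cfc (fun t : ℝ => √t) p with hs
  have ss : IsSelfAdjoint s := cfc_predicate _ _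
  have s2 : s * s = p := by
    rw [hs, ← cfc_mul _ _ p]
    nth_rewrite 2 [← cfc_id' ℝ p]
    exact cfc_congr fun t ht => Real.mul_self_sqrt (spectrum_nonneg_of_nonneg p0 ht)
  set u := cfc (fun t : ℝ => √t) y with hu
  have su : IsSelfAdjoint u := cfc_predicate _ _
  have u2 : u * u = y := by
    rw [hu, ← cfc_mul _ _ y]
    nth_rewrite 2 [← cfc_id' ℝ y]
    exact cfc_congr fun t ht => Real.mul_self_sqrt (spectrum_nonneg_of_nonneg y0 ht)
  have hWu : ∀ x, star (W * x) * (W * x) = star (u * x) * (u * x) := fun x => by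
    rw [star_mul, star_mul, su.star_eq, mul_assoc, mul_assoc, ← mul_assoc u, u2, ← mul_assoc (star W)]
  have hn : ∀ x, ‖W * x‖ = ‖u * x‖ := fun x => by
    have := congrArg norm (hWu x)
    rw [CStarRing.norm_star_mul_self, CStarRing.norm_star_mul_self] at this
    exact le_antisymm (abs_le_of_abs_le this.le (norm_nonneg _))
      (abs_le_of_abs_le this.ge (norm_nonneg _))
  let ε : ℕ → ℝ := fun n => 1 / ((n : ℝ) + 1)
  have hε : ∀ n, 0 < ε n := fun n => Nat.one_div_pos_of_nat
  have hc : ∀ n, Continuous fun t : ℝ => (√t + ε n)⁻¹ := fun n =>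
    Continuous.inv₀ (by fun_prop) fun t => (add_pos_of_nonneg_of_pos (Real.sqrt_nonneg t) (hε n)).ne'
  let g : ℕ → G := fun n => cfc (fun t : ℝ => (√t + ε n)⁻¹) y
  have key : ∀ n, ‖u * (g n * s) - s‖ ≤ ε n := by
    intro n
    have hc2 : Continuous fun t : ℝ => √t * (√t + ε n)⁻¹ - 1 := by
      have := hc n
      fun_prop
    have h1 : u * g n - 1 = cfc (fun t : ℝ => √t * (√t + ε n)⁻¹ - 1) y := by
      rw [cfc_sub (fun t : ℝ => √t * (√t + ε n)⁻¹) (fun _ => 1) y
        (Real.continuous_sqrt.mul (hc n)).continuousOn continuousOn_const, cfc_const_one ℝ y,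
        cfc_mul _ _ y Real.continuous_sqrt.continuousOn (hc n).continuousOn]
    set q := cfc (fun t : ℝ => √t * (√t + ε n)⁻¹ - 1) y with hq
    have sq : IsSelfAdjoint q := cfc_predicate _ _
    have h2 : u * (g n * s) - s = q * s := by rw [← h1, sub_mul, one_mul, mul_assoc]
    have h3 : q * y * q = cfc (fun t : ℝ => (√t * (√t + ε n)⁻¹ - 1) * t
        * (√t * (√t + ε n)⁻¹ - 1)) y := by
      rw [cfc_mul (fun t : ℝ => (√t * (√t + ε n)⁻¹ - 1) * t) _ y
        (hc2.mul continuous_id).continuousOn hc2.continuousOn,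
        cfc_mul _ (fun t => t) y hc2.continuousOn continuousOn_id, cfc_id' ℝ y]
    have h4 : q * s * star (q * s) ≤ q * y * q := by
      have := star_left_conjugate_le_conjugate h q
      rw [sq.star_eq] at this
      rwa [star_mul, ss.star_eq, sq.star_eq, mul_assoc, ← mul_assoc s, s2, ← mul_assoc]
    have h5 := CStarAlgebra.norm_le_norm_of_nonneg_of_le (mul_star_self_nonneg _) h4
    rw [CStarRing.norm_self_mul_star, h3] at h5
    rw [h2]
    refine abs_le_of_abs_le (h5.trans (norm_cfc_le (mul_pos (hε n) (hε n)).le fun t ht => ?_))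
      (hε n).le
    have t0 := spectrum_nonneg_of_nonneg y0 ht
    have e0 := hε n
    have t1 := Real.sqrt_nonneg t
    have t2 : √t * (√t + ε n)⁻¹ - 1 = -(ε n * (√t + ε n)⁻¹) := by
      field_simp
      ring
    have t3 : √t * (√t + ε n)⁻¹ ≤ 1 := by
      rw [← div_eq_mul_inv, div_le_one (by positivity)]
      linarith
    rw [t2, Real.norm_eq_abs, abs_of_nonneg (by
      have : 0 ≤ ε n * (√t + ε n)⁻¹ * t * (ε n * (√t + ε n)⁻¹) := by positivity
      linarith)]
    calc _ = ε n * ε n * ((√t * (√t + ε n)⁻¹) * (√t * (√t + ε n)⁻¹)) := by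
          nth_rewrite 2 [← Real.mul_self_sqrt t0]
          ring
      _ ≤ ε n * ε n * (1 * 1) := by gcongr
      _ = _ := by ring
  have lim1 : Tendsto (fun n => u * (g n * s)) atTop (𝓝 s) := by
    rw [tendsto_iff_norm_sub_tendsto_zero]
    exact squeeze_zero (fun _ => norm_nonneg _) key tendsto_one_div_add_atTop_nhds_zero_nat
  have hC : CauchySeq fun n => W * (g n * s) := by
    have := lim1.cauchySeq
    rw [Metric.cauchySeq_iff] at this ⊢
    simpa only [dist_eq_norm, ← mul_sub, hn] using this
  obtain ⟨v, hv⟩ := cauchySeq_tendsto_of_complete hC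
  refine ⟨v, ?_, fun e he => ?_⟩
  · have l1 := hv.star.mul hv
    have l2 := lim1.star.mul lim1
    simp only [hWu] at l1
    rw [tendsto_nhds_unique l1 l2, ss.star_eq, s2]
  · have l1 := hv.const_mul e
    simp only [← mul_assoc e, he] at l1
    exact tendsto_nhds_unique l1 hv

theorem Pre.exists_rw {S : G →⋆ₐ[ℂ] G} {k N : ℕ} {x : Fin (k + 1) → G} {y ξ : G} {d : Fin N → G}
    (h : Pre S x y ξ d) : ∃ (E : Fin (k + 1) → Fin (k + 1) → G) (e v : G),
      OZ E e ∧ e ≤ 1 ∧ star v * v = 1 - e ∧ E 0 0 * v = v := by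
  have hO := h.vec.oz
  set r := ∑ a, x a * star (x a) with hr
  have cxs : ∀ i b, Commute (star (x i)) (S b) := fun i b => by
    have := (h.cx i (star b)).star_star
    rwa [← map_star, star_star] at this
  have cR : ∀ i j b, Commute (x i * star (x j)) (S b) := fun i j b => (h.cx i b).mul_left (cxs j b)
  have cr : ∀ b, Commute r (S b) := fun b => Commute.sum_left _ _ _ fun a _ => cR _ _ _
  have r0 : 0 ≤ r := Finset.sum_nonneg fun a _ => mul_star_self_nonneg _
  have r1 : r ≤ 1 := by
    have a1 : r - r * r = ∑ a, x a * (1 - y) * star (x a) := by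
      have : ∀ a, r * (x a * star (x a)) = x a * y * star (x a) := fun a => by
        have h1 := hO.mul a a a a
        have h2 := h.vec a a
        rw [if_pos rfl] at h1 h2
        rw [← h1, ← h2]
        simp only [mul_assoc]
      nth_rewrite 3 [hr]
      rw [Finset.mul_sum, hr, ← Finset.sum_sub_distrib]
      refine Finset.sum_congr rfl fun a _ => ?_
      rw [← hr, this]
      noncomm_ring
    have a2 : 0 ≤ r - r * r :=
      a1 ▸ Finset.sum_nonneg fun a _ => star_right_conjugate_nonneg (sub_nonneg.2 h.le) _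
    have a3 := add_nonneg a2 (star_mul_self_nonneg (1 - r))
    rw [star_sub, star_one, r0.isSelfAdjoint.star_eq] at a3
    rw [← sub_nonneg]
    convert a3 using 1
    noncomm_ring
  have c0 : 0 ≤ 1 - r := sub_nonneg.2 r1
  have sc := c0.isSelfAdjoint
  set s := cfc (fun t : ℝ => √t) (1 - r) with hs
  have ss : IsSelfAdjoint s := cfc_predicate _ _
  have s2 : s * s = 1 - r := by
    rw [hs, ← cfc_mul _ _ (1 - r)]
    nth_rewrite 2 [← cfc_id' ℝ (1 - r)]
    exact cfc_congr fun t ht => Real.mul_self_sqrt (spectrum_nonneg_of_nonneg c0 ht)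
  have cs : ∀ b, Commute s (S b) := fun b =>
    Commute.cfc_real ((Commute.one_left _).sub_left (cr b)) _
  have rξ : r * ξ = ξ := by
    have h1 := hO.mul 0 0 0 0
    rw [if_pos rfl] at h1
    have h2 := congrArg (· * ξ) h1
    simp only [mul_assoc (x 0 * star (x 0)), mul_assoc r, h.fix] at h2
    exact h2.symm
  have sξ : s * ξ = 0 := by
    rw [← CStarRing.star_mul_self_eq_zero_iff, star_mul, ss.star_eq, mul_assoc, ← mul_assoc s,
      s2, sub_mul, rξ, one_mul, sub_self, mul_zero]
  let z : Fin N → G := fun a => ξ * d a * s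
  have cz : ∀ a b, Commute (z a) (S b) := fun a b => ((h.cξ b).mul_left (h.cd a b)).mul_left (cs b)
  have sz : ∀ a, star s * z a = 0 := fun a => by
    simp only [z, ss.star_eq, ← mul_assoc, sξ, zero_mul]
  have zs : ∀ a, star (z a) * s = 0 := fun a => by
    have := congrArg star (sz a)
    rwa [star_mul, star_star, star_zero] at this
  have zsum : ∑ a, star (z a) * z a = 1 - r := by
    rw [← s2]
    nth_rewrite 1 [← mul_one s]
    rw [← h.sum, Finset.mul_sum, Finset.sum_mul]
    refine Finset.sum_congr rfl fun a _ => ?_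
    simp only [z, star_mul, ss.star_eq, mul_assoc]
  have czz : ∀ a b, Commute (star (z a) * z a) (S b) := fun a b => by
    have := (cz a (star b)).star_star
    rw [← map_star, star_star] at this
    exact this.mul_left (cz a b)
  let j : Fin N → Fin N → ℕ := fun a b => finProdFinEquiv (a, b)
  have jinj : ∀ a b a' b', j a b = j a' b' → a = a' ∧ b = b' := fun a b a' b' e => by
    simpa using finProdFinEquiv.injective (Fin.ext e)
  set n := N * (N * N) + 1 with hn
  let Y : Fin N → G := fun a => ∑ b, sym S s (z b) n (j a b)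
  have YY : ∀ a a', a ≠ a' → star (Y a) * Y a' = 0 := fun a a' hne => by
    simp only [Y, star_sum, Finset.sum_mul, Finset.mul_sum]
    exact Finset.sum_eq_zero fun b _ => Finset.sum_eq_zero fun b' _ =>
      sym_orth cs (cz _) (cz _) (zs _) (sz _) n _ _ fun e => hne (jinj _ _ _ _ e).1
  have YY' : ∀ a, tpow S (1 - r) n ≤ star (Y a) * Y a := fun a => by
    have h1 := cover (fun a => star_mul_self_nonneg (z a)) czz n (j a) (Or.inr (by
      calc ∑ b, (j a b - 1) ≤ ∑ _b : Fin N, N * N := Finset.sum_le_sum fun b _ =>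
            (Nat.sub_le _ _).trans (finProdFinEquiv (a, b)).2.le
        _ < n := by simp [hn]))
    rw [zsum] at h1
    refine h1.trans (le_of_eq ?_)
    simp only [Y, star_sum, Finset.sum_mul]
    refine Finset.sum_congr rfl fun b _ => ?_
    rw [Finset.mul_sum, Finset.sum_eq_single b, sym_norm cs (cz b) (zs b), ss.star_eq, s2]
    · exact fun b' _ hb => sym_orth cs (cz _) (cz _) (zs _) (sz _) n _ _
        fun e => hb (jinj _ _ _ _ e).2.symm
    · simp
  set W := ∑ a, z a * S (Y a) with hW
  have WW : tpow S (1 - r) (n + 1) ≤ star W * W := by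
    rw [tpow, hW, star_sum, Finset.sum_mul]
    nth_rewrite 1 [← zsum]
    rw [Finset.sum_mul]
    refine Finset.sum_le_sum fun a _ => ?_
    rw [Finset.mul_sum, Finset.sum_eq_single a, star_mul_shift (cz a) (cz a)]
    · exact mul_shift_le (star_mul_self_nonneg _) (czz a) (YY' a)
    · intro b _ hb
      rw [star_mul_shift (cz a) (cz b), YY a b hb.symm, map_zero, mul_zero]
    · simp
  obtain ⟨E, e, hE, e0, e1, hle, hfix⟩ := iter_join S hO r0 r1 cR 0 n
  obtain ⟨v, hv, hv'⟩ := douglas (W := (2 : ℝ) ^ n • W) (sub_nonneg.2 e1) (hle.trans (by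
    rw [star_smul, star_trivial, smul_mul_smul_comm, ← mul_pow]
    rw [show (2 : ℝ) * 2 = 4 by norm_num]
    exact smul_le_smul_of_nonneg_left WW (pow_nonneg (by norm_num) n)))
  refine ⟨E, e, v, hE, e1, hv, hv' _ (hfix _ ?_)⟩
  rw [mul_smul_comm, hW, Finset.mul_sum]
  congr 1
  refine Finset.sum_congr rfl fun a _ => ?_
  simp only [z, ← mul_assoc, h.fix]

end Vale.Agent.P101
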