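import Mathlib

/-! Ultrapower, central sequence algebra and dimension drop algebras. -/

namespace Vale.Agent.P101

open Filter Topology
open scoped BoundedContinuousFunction Kronecker

/-- A two-sided ideal that is closed under the involution. -/
class StarIdeal {E : Type*} [Ring E] [StarRing E] (I : Ideal E) : Prop extends I.IsTwoSided where
  star_mem : ∀ x ∈ I, star x ∈ I

/-- The involution of the quotient by a self-adjoint two-sided ideal: `[x]* = [x*]`. -/
instance quotStar {E : Type*} [Ring E] [StarRing E] (I : Ideal E) [h : StarIdeal I] :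
    Star (E ⧸ I) where
  star := Quotient.map' star fun a b hab => by
    rw [Submodule.quotientRel_def] at hab ⊢
    simpa using h.star_mem _ hab

theorem star_mk {E : Type*} [Ring E] [StarRing E] (I : Ideal E) [StarIdeal I] (a : E) :
    star (Ideal.Quotient.mk I a) = Ideal.Quotient.mk I (star a) := rfl

instance quotStarRing {E : Type*} [Ring E] [StarRing E] (I : Ideal E) [StarIdeal I] :
    StarRing (E ⧸ I) where
  star_involutive x := by
    obtain ⟨a, rfl⟩ := Ideal.Quotient.mk_surjective x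
    simp [star_mk]
  star_mul x y := by
    obtain ⟨a, rfl⟩ := Ideal.Quotient.mk_surjective x
    obtain ⟨b, rfl⟩ := Ideal.Quotient.mk_surjective y
    rw [← map_mul, star_mk, star_mk, star_mk, star_mul, map_mul]
  star_add x y := by
    obtain ⟨a, rfl⟩ := Ideal.Quotient.mk_surjective x
    obtain ⟨b, rfl⟩ := Ideal.Quotient.mk_surjective y
    rw [← map_add, star_mk, star_mk, star_mk, star_add, map_add]

instance quotStarModule {E : Type*} [Ring E] [StarRing E] [Algebra ℂ E] [StarModule ℂ E]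
    (I : Ideal E) [StarIdeal I] : StarModule ℂ (E ⧸ I) where
  star_smul c x := by
    obtain ⟨a, rfl⟩ := Ideal.Quotient.mk_surjective x
    change star (Ideal.Quotient.mk I (c • a)) = Ideal.Quotient.mk I (star c • star a)
    rw [star_mk, star_smul]

/-- The bounded sequences that tend to zero in norm along the ultrafilter. -/
def nullIdeal (A : Type*) [CStarAlgebra A] (ω : Ultrafilter ℕ) : Ideal (ℕ →ᵇ A) where
  carrier := {a | Tendsto (fun n => ‖a n‖) ω (𝓝 0)}
  zero_mem' := by simp
  add_mem' {a b} ha hb :=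
    squeeze_zero (fun _ => norm_nonneg _) (fun n => norm_add_le (a n) (b n))
      (by simpa using ha.add hb)
  smul_mem' c a ha :=
    squeeze_zero (fun _ => norm_nonneg _)
      (fun n => (norm_mul_le (c n) (a n)).trans
        (mul_le_mul_of_nonneg_right (c.norm_coe_le_norm n) (norm_nonneg _)))
      (by simpa using ha.const_mul ‖c‖)

instance nullStarIdeal (A : Type*) [CStarAlgebra A] (ω : Ultrafilter ℕ) :
    StarIdeal (nullIdeal A ω) where
  mul_mem_of_left {a} c ha :=
    squeeze_zero (fun _ => norm_nonneg _)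
      (fun n => (norm_mul_le (a n) (c n)).trans
        (mul_le_mul_of_nonneg_left (c.norm_coe_le_norm n) (norm_nonneg _)))
      (by simpa using Tendsto.mul_const ‖c‖ ha)
  star_mem a ha := by
    change Tendsto (fun n => ‖star (a n)‖) ω (𝓝 0)
    simp only [norm_star]
    exact ha

/-- The ultrapower `A_ω = ℓ^∞(ℕ, A) / {(a_n) : lim_ω ‖a_n‖ = 0}`. -/
abbrev Ultrapower (A : Type*) [CStarAlgebra A] (ω : Ultrafilter ℕ) : Type _ :=
  (ℕ →ᵇ A) ⧸ nullIdeal A ω

/-- The class of the constant sequence. -/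
noncomputable def constSeq {A : Type*} [CStarAlgebra A] (ω : Ultrafilter ℕ) (a : A) :
    Ultrapower A ω :=
  Ideal.Quotient.mk (nullIdeal A ω) (BoundedContinuousFunction.const ℕ a)

/-- The central sequence algebra `F_ω(A) = A_ω ∩ A'`. -/
noncomputable def CentralSeq (A : Type*) [CStarAlgebra A] (ω : Ultrafilter ℕ) :
    StarSubalgebra ℂ (Ultrapower A ω) :=
  StarSubalgebra.centralizer ℂ (Set.range (constSeq (A := A) ω))

/-- The dimension drop algebra
`I(p, q) = {f ∈ C([0,1], M_p ⊗ M_q) : f 0 ∈ M_p ⊗ 1, f 1 ∈ 1 ⊗ M_q}`. -/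
noncomputable def DimDrop (p q : ℕ) :
    StarSubalgebra ℂ C(unitInterval, Matrix (Fin p × Fin q) (Fin p × Fin q) ℂ) where
  carrier := {f | (∃ a : Matrix (Fin p) (Fin p) ℂ, f 0 = a ⊗ₖ (1 : Matrix (Fin q) (Fin q) ℂ)) ∧
    ∃ b : Matrix (Fin q) (Fin q) ℂ, f 1 = (1 : Matrix (Fin p) (Fin p) ℂ) ⊗ₖ b}
  mul_mem' := by
    rintro f g ⟨⟨a, ha⟩, b, hb⟩ ⟨⟨c, hc⟩, d, hd⟩
    exact ⟨⟨a * c, by simp [ha, hc, ← Matrix.mul_kronecker_mul]⟩,
      b * d, by simp [hb, hd, ← Matrix.mul_kronecker_mul]⟩
  add_mem' := by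
    rintro f g ⟨⟨a, ha⟩, b, hb⟩ ⟨⟨c, hc⟩, d, hd⟩
    exact ⟨⟨a + c, by simp [ha, hc, Matrix.add_kronecker]⟩,
      b + d, by simp [hb, hd, Matrix.kronecker_add]⟩
  algebraMap_mem' z :=
    ⟨⟨z • 1, by simp [Algebra.algebraMap_eq_smul_one, Matrix.smul_kronecker]⟩,
      z • 1, by simp [Algebra.algebraMap_eq_smul_one, Matrix.kronecker_smul]⟩
  star_mem' := by
    rintro f ⟨⟨a, ha⟩, b, hb⟩
    exact ⟨⟨star a, by simp [ha, Matrix.star_eq_conjTranspose, Matrix.conjTranspose_kronecker]⟩,
      star b, by simp [hb, Matrix.star_eq_conjTranspose, Matrix.conjTranspose_kronecker]⟩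

/-- The star algebra `S` has no character: every star homomorphism to `ℂ` is zero. -/
def NoCharacter {B : Type*} [Semiring B] [StarRing B] [Algebra ℂ B] [StarModule ℂ B]
    (S : StarSubalgebra ℂ B) : Prop :=
  ∀ χ : S →⋆ₙₐ[ℂ] ℂ, χ = 0

/-- There is a unital star homomorphism from `D` to `S`. -/
def UnitalHom {B C : Type*} [Semiring B] [StarRing B] [Algebra ℂ B] [StarModule ℂ B]
    [Semiring C] [StarRing C] [Algebra ℂ C] [StarModule ℂ C]
    (D : StarSubalgebra ℂ B) (S : StarSubalgebra ℂ C) : Prop :=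
  Nonempty (D →⋆ₐ[ℂ] S)

/-- `F_ω(A)` has no character. -/
def CentralNoCharacter (A : Type*) [CStarAlgebra A] (ω : Ultrafilter ℕ) : Prop :=
  NoCharacter (CentralSeq A ω)

/-- There is a unital star homomorphism `I(p, q) → F_ω(A)`. -/
def CentralDimDrop (A : Type*) [CStarAlgebra A] (ω : Ultrafilter ℕ) (p q : ℕ) : Prop :=
  UnitalHom (DimDrop p q) (CentralSeq A ω)

end Vale.Agent.P101
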