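import Vale.Agent.P101.Inter

/-! Functoriality of the ultrapower and descent of almost central unitaries. -/

set_option linter.unusedSectionVars false
set_option linter.unusedSimpArgs false

namespace Vale.Agent.P101

open Filter Topology
open scoped BoundedContinuousFunction CStarAlgebra

variable {A B : Type*} [CStarAlgebra A] [CStarAlgebra B] {ω : Ultrafilter ℕ}

/-- A homomorphism applied to bounded sequences. -/
noncomputable def seqMap (φ : A →⋆ₐ[ℂ] B) : (ℕ →ᵇ A) →⋆ₐ[ℂ] (ℕ →ᵇ B) where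
  toFun f := BoundedContinuousFunction.ofNormedAddCommGroupDiscrete (fun n => φ (f n)) ‖f‖
    fun n => (NonUnitalStarAlgHom.norm_apply_le φ _).trans (f.norm_coe_le_norm n)
  map_one' := BoundedContinuousFunction.ext fun _ => map_one φ
  map_mul' _ _ := BoundedContinuousFunction.ext fun _ => map_mul φ _ _
  map_zero' := BoundedContinuousFunction.ext fun _ => map_zero φ
  map_add' _ _ := BoundedContinuousFunction.ext fun _ => map_add φ _ _
  commutes' c := BoundedContinuousFunction.ext fun _ => φ.commutes c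
  map_star' _ := BoundedContinuousFunction.ext fun _ => map_star φ _

theorem seqMap_apply (φ : A →⋆ₐ[ℂ] B) (f : ℕ →ᵇ A) (n : ℕ) : seqMap φ f n = φ (f n) := rfl

/-- The homomorphism induced on ultrapowers. -/
noncomputable def ultraMap (ω : Ultrafilter ℕ) (φ : A →⋆ₐ[ℂ] B) :
    Ultrapower A ω →⋆ₐ[ℂ] Ultrapower B ω :=
  { Ideal.Quotient.liftₐ (nullIdeal A ω) ((mkS (nullIdeal B ω)).comp (seqMap φ)).toAlgHom
      (fun a ha => Ideal.Quotient.eq_zero_iff_mem.2 (squeeze_zero (fun _ => norm_nonneg _)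
        (fun n => NonUnitalStarAlgHom.norm_apply_le φ (a n)) ha)) with
    map_star' := fun x => by
      obtain ⟨a, rfl⟩ := Ideal.Quotient.mk_surjective x
      exact map_star ((mkS (nullIdeal B ω)).comp (seqMap φ)) a }

theorem ultraMap_mk (φ : A →⋆ₐ[ℂ] B) (a : ℕ →ᵇ A) :
    ultraMap ω φ (Ideal.Quotient.mk _ a) = Ideal.Quotient.mk _ (seqMap φ a) := rfl

/-- The constant sequences. -/
noncomputable def cS (A : Type*) [CStarAlgebra A] (ω : Ultrafilter ℕ) : A →⋆ₐ[ℂ] Ultrapower A ω :=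
  (mkS (nullIdeal A ω)).comp
    { toFun := BoundedContinuousFunction.const ℕ
      map_one' := rfl
      map_mul' _ _ := rfl
      map_zero' := rfl
      map_add' _ _ := rfl
      commutes' _ := rfl
      map_star' _ := rfl }

theorem cS_apply (a : A) : cS A ω a = Ideal.Quotient.mk _ (BoundedContinuousFunction.const ℕ a) :=
  rfl

theorem ultraMap_cS (φ : A →⋆ₐ[ℂ] B) (a : A) : ultraMap ω φ (cS A ω a) = cS B ω (φ a) := rfl

theorem ultraMap_comp {C : Type*} [CStarAlgebra C] (φ : A →⋆ₐ[ℂ] B) (ψ : B →⋆ₐ[ℂ] C)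
    (x : Ultrapower A ω) : ultraMap ω (ψ.comp φ) x = ultraMap ω ψ (ultraMap ω φ x) := by
  obtain ⟨a, rfl⟩ := Ideal.Quotient.mk_surjective x
  rfl

theorem commute_ultraMap {φ : A →⋆ₐ[ℂ] B} {c : B} (h : ∀ a, Commute (φ a) c) (x : Ultrapower A ω) :
    Commute (ultraMap ω φ x) (cS B ω c) := by
  obtain ⟨a, rfl⟩ := Ideal.Quotient.mk_surjective x
  rw [ultraMap_mk, cS_apply, commute_mk]
  simp [seqMap_apply, (h _).eq]

theorem eventually_norm_lt {a : ℕ →ᵇ A} {ε : ℝ} (h : ‖Ideal.Quotient.mk (nullIdeal A ω) a‖ < ε) :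
    ∀ᶠ n in ω, ‖a n‖ < ε := by
  set δ := (ε - ‖Ideal.Quotient.mk (nullIdeal A ω) a‖) / 2 with hδ
  have h0 : 0 < δ := by linarith
  obtain ⟨r, hr, hr'⟩ := q_norm_mk_lt _ (Ideal.Quotient.mk (nullIdeal A ω) a) h0
  rw [eq_comm, Ideal.Quotient.eq] at hr
  filter_upwards [(mem_null.1 hr).eventually (gt_mem_nhds h0)] with n hn
  have h1 := norm_add_le (a n - r n) (r n)
  rw [sub_add_cancel] at h1
  have h2 := r.norm_coe_le_norm n
  change ‖a n - r n‖ < δ at hn
  linarith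

theorem mk_eq_of_eventually {a b : ℕ →ᵇ A} (h : ∀ᶠ n in ω, a n = b n) :
    Ideal.Quotient.mk (nullIdeal A ω) a = Ideal.Quotient.mk (nullIdeal A ω) b := by
  rw [Ideal.Quotient.eq, mem_null]
  refine tendsto_const_nhds.congr' ?_
  filter_upwards [h] with n hn
  simp [hn]

theorem norm_mk_le_of_eventually {a : ℕ →ᵇ A} {c : ℝ} (hc : 0 ≤ c) (h : ∀ᶠ n in ω, ‖a n‖ ≤ c) :
    ‖Ideal.Quotient.mk (nullIdeal A ω) a‖ ≤ c := by
  classical
  let b : ℕ →ᵇ A := BoundedContinuousFunction.ofNormedAddCommGroupDiscrete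
    (fun n => if ‖a n‖ ≤ c then a n else 0) c fun n => by split_ifs with h <;> simp [h, hc]
  have : Ideal.Quotient.mk (nullIdeal A ω) a = Ideal.Quotient.mk (nullIdeal A ω) b :=
    mk_eq_of_eventually (h.mono fun n hn => (if_pos hn).symm)
  rw [this]
  refine (q_norm_mk_le _ _).trans ((BoundedContinuousFunction.norm_le hc).2 fun n => ?_)
  change ‖if ‖a n‖ ≤ c then a n else 0‖ ≤ c
  split_ifs with h <;> simp [h, hc]

theorem exists_unitary_near {x : A} (h1 : ‖star x * x - 1‖ < 1) (h2 : ‖x * star x - 1‖ < 1) :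
    ∃ v ∈ unitary A, ‖v - x‖ ≤ ‖star x * x - 1‖ := by
  let _ := CStarAlgebra.spectralOrder A
  have := CStarAlgebra.spectralOrderedRing A
  have un : ∀ z : A, ‖z - 1‖ < 1 → IsUnit z := fun z hz => by
    rw [norm_sub_rev] at hz
    simpa using (Units.oneSub _ hz).isUnit
  obtain ⟨a, ha⟩ := un _ h1
  obtain ⟨b, hb⟩ := un _ h2
  have ux : IsUnit x := by
    have e1 : (↑a⁻¹ * star x) * x = 1 := by rw [mul_assoc, ← ha, Units.inv_mul]
    have e2 : x * (star x * ↑b⁻¹) = 1 := by rw [← mul_assoc, ← hb, Units.mul_inv]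
    exact ⟨⟨x, _, e2, by rw [← left_inv_eq_right_inv e1 e2]; exact e1⟩, rfl⟩
  set D := star x * x with hD
  have D0 : 0 ≤ D := star_mul_self_nonneg x
  have sD := D0.isSelfAdjoint
  have uD : IsUnit D := ⟨a, ha⟩
  have Dpos : ∀ t ∈ spectrum ℝ D, 0 < t := fun t ht =>
    lt_of_le_of_ne (spectrum_nonneg_of_nonneg D0 ht) (by
      rintro rfl
      exact spectrum.zero_notMem ℝ uD ht)
  have hc : ContinuousOn (fun t : ℝ => (√t)⁻¹) (spectrum ℝ D) :=
    ContinuousOn.inv₀ (by fun_prop) fun t ht => (Real.sqrt_pos.2 (Dpos t ht)).ne'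
  set e := cfc (fun t : ℝ => (√t)⁻¹) D with he
  set s := cfc (fun t : ℝ => √t) D with hs
  have se : IsSelfAdjoint e := cfc_predicate _ _
  have es : e * s = 1 := by
    rw [he, hs, ← cfc_mul _ _ D hc (by fun_prop), ← cfc_const_one ℝ D]
    exact cfc_congr fun t ht => inv_mul_cancel₀ (Real.sqrt_pos.2 (Dpos t ht)).ne'
  have se' : s * e = 1 := by rw [cfc_commute_cfc, es]
  have ss : s * s = D := by
    rw [hs, ← cfc_mul _ _ D]
    nth_rewrite 2 [← cfc_id' ℝ D]
    exact cfc_congr fun t ht => Real.mul_self_sqrt (Dpos t ht).le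
  have v1 : star (x * e) * (x * e) = 1 := by
    rw [star_mul, se.star_eq, mul_assoc, ← mul_assoc (star x), ← hD, ← ss, mul_assoc, se', mul_one,
      es]
  have uv : IsUnit (x * e) := ux.mul ⟨⟨e, s, es, se'⟩, rfl⟩
  have hv : x * e ∈ unitary A := by
    refine ⟨v1, ?_⟩
    obtain ⟨w, hw⟩ := uv
    have : star (x * e) = ↑w⁻¹ := by
      rw [← mul_one (star _), ← w.mul_inv, ← mul_assoc, hw, v1, one_mul]
    rw [this, ← hw, Units.mul_inv]
  refine ⟨x * e, hv, ?_⟩
  have e3 : x * e - x = x * e * (1 - s) := by rw [mul_sub, mul_one, mul_assoc, es, mul_one]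
  rw [e3, CStarRing.norm_mem_unitary_mul _ hv, hs, ← cfc_const_one ℝ D, ← cfc_sub _ _ D]
  refine norm_cfc_le (norm_nonneg _) fun t ht => ?_
  have t0 := (Dpos t ht).le
  have h3 : ‖t - 1‖ ≤ ‖D - cfc (fun _ : ℝ => (1 : ℝ)) D‖ := by
    nth_rewrite 1 [← cfc_id' ℝ D]
    rw [← cfc_sub _ _ D]
    exact norm_apply_le_norm_cfc (fun t : ℝ => t - 1) D ht
  refine le_trans ?_ h3
  rw [Real.norm_eq_abs, Real.norm_eq_abs, abs_sub_comm]
  nth_rewrite 2 [← Real.mul_self_sqrt t0]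
  have h4 := Real.sqrt_nonneg t
  rw [show √t * √t - 1 = (√t - 1) * (√t + 1) by ring, abs_mul, abs_of_nonneg (by linarith : 0 ≤ √t + 1)]
  nlinarith [abs_nonneg (√t - 1)]

theorem lift_unitary (u : unitary (Ultrapower A ω)) :
    ∃ v : ℕ →ᵇ A, (∀ n, v n ∈ unitary A) ∧ Ideal.Quotient.mk _ v = (u : Ultrapower A ω) := by
  classical
  obtain ⟨w, hw⟩ := Ideal.Quotient.mk_surjective (u : Ultrapower A ω)
  have h1 : star w * w - 1 ∈ nullIdeal A ω := by
    rw [← Ideal.Quotient.eq, map_mul, ← star_mk, hw, map_one]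
    exact u.2.1
  have h2 : w * star w - 1 ∈ nullIdeal A ω := by
    rw [← Ideal.Quotient.eq, map_mul, ← star_mk, hw, map_one]
    exact u.2.2
  have key : ∀ n, ∃ v ∈ unitary A, ‖star (w n) * w n - 1‖ < 1 → ‖w n * star (w n) - 1‖ < 1 →
      ‖v - w n‖ ≤ ‖star (w n) * w n - 1‖ := fun n => by
    by_cases h : ‖star (w n) * w n - 1‖ < 1 ∧ ‖w n * star (w n) - 1‖ < 1
    · obtain ⟨v, hv, hv'⟩ := exists_unitary_near h.1 h.2
      exact ⟨v, hv, fun _ _ => hv'⟩
    · exact ⟨1, one_mem _, fun a b => absurd ⟨a, b⟩ h⟩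
  choose v hv hv' using key
  refine ⟨BoundedContinuousFunction.ofNormedAddCommGroupDiscrete v ‖(1 : A)‖ fun n => by
    rw [← mul_one (v n), CStarRing.norm_mem_unitary_mul _ (hv n)], hv, ?_⟩
  rw [← hw, Ideal.Quotient.eq, mem_null]
  refine squeeze_zero' (Eventually.of_forall fun _ => norm_nonneg _) ?_ (mem_null.1 h1)
  filter_upwards [(mem_null.1 h1).eventually (gt_mem_nhds one_pos),
    (mem_null.1 h2).eventually (gt_mem_nhds one_pos)] with n a b
  exact hv' n a b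

theorem Good.descend {X Y : Type*} {n : X → B} {y : Y → B} {φ : A →⋆ₐ[ℂ] B}
    (h : Good (fun x => cS B ω (n x)) (fun c => cS B ω (y c)) (Set.range (ultraMap ω φ))) :
    Good n y (Set.range φ) := by
  intro s t ε hε
  obtain ⟨u, h1, h2⟩ := h s t ε hε
  beta_reduce at h1 h2
  obtain ⟨v, hv, huv⟩ := lift_unitary u
  have e1 : ∀ᶠ m in ω, ∀ a ∈ s, ‖v m * n a - n a * v m‖ < ε := by
    rw [eventually_all_finset]
    intro a ha
    have := h1 a ha
    rw [← huv, cS_apply, ← map_mul, ← map_mul, ← map_sub] at this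
    exact eventually_norm_lt this
  have e2 : ∀ᶠ m in ω, ∀ c ∈ t, ∃ b ∈ Set.range φ, ‖star (v m) * y c * v m - b‖ < ε := by
    rw [eventually_all_finset]
    intro c hc
    obtain ⟨_, ⟨b, rfl⟩, hb⟩ := h2 c hc
    obtain ⟨b, rfl⟩ := Ideal.Quotient.mk_surjective b
    rw [← huv, cS_apply, ultraMap_mk, star_mk, ← map_mul, ← map_mul, ← map_sub] at hb
    filter_upwards [eventually_norm_lt hb] with m hm
    exact ⟨_, ⟨b m, rfl⟩, hm⟩
  obtain ⟨m, a1, a2⟩ := (e1.and e2).exists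
  exact ⟨⟨v m, hv m⟩, a1, a2⟩

end Vale.Agent.P101
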