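import Vale.Agent.P101.RW

/-! The unital homomorphism from the dimension drop algebra. -/

set_option linter.unusedSectionVars false
set_option linter.unusedSimpArgs false

namespace Vale.Agent.P101

open scoped Kronecker

variable {G : Type*} [CStarAlgebra G]

theorem exists_kappa {T : G} (hT : IsSelfAdjoint T) : ∃ κ : C(ℝ, ℂ) →⋆ₐ[ℂ] G,
    κ (rf id continuous_id) = T ∧ ∀ z y, Commute T y → Commute (κ z) y := by
  have hn : IsStarNormal T := hT.isStarNormal
  let r : C(spectrum ℂ T, ℝ) := ⟨fun z => (z : ℂ).re, by fun_prop⟩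
  refine ⟨(cfcHom hn).comp (ContinuousMap.compStarAlgHom' ℂ ℂ r), ?_,
    fun z y hy => hT.commute_cfcHom hn hy _⟩
  refine Eq.trans ?_ (cfcHom_id (R := ℂ) hn)
  rw [StarAlgHom.comp_apply]
  congr 1
  ext z
  exact (hT.mem_spectrum_eq_re z.2).symm

/-- The constant functions. -/
noncomputable def cst (ι : Type*) [Fintype ι] [DecidableEq ι] :
    Matrix ι ι ℂ →⋆ₐ[ℂ] Matrix ι ι C(ℝ, ℂ) :=
  { (Algebra.ofId ℂ C(ℝ, ℂ)).mapMatrix with
    map_star' := fun M => by
      ext i j t
      simp [Algebra.ofId_apply, Algebra.algebraMap_eq_smul_one] }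

theorem bar_cst {ι : Type*} [Fintype ι] [DecidableEq ι] (κ : C(ℝ, ℂ) →⋆ₐ[ℂ] G) (R : ι → ι → G)
    (M : Matrix ι ι ℂ) : bar κ R (cst ι M) = ∑ i, ∑ j, M i j • R i j := by
  refine Finset.sum_congr rfl fun i _ => Finset.sum_congr rfl fun j _ => ?_
  change κ (algebraMap ℂ _ (M i j)) * _ = _
  rw [AlgHomClass.commutes, Algebra.smul_def]

theorem cst_apply {ι : Type*} [Fintype ι] [DecidableEq ι] (M : Matrix ι ι ℂ) (i j : ι) (t : ℝ) :
    cst ι M i j t = M i j := by
  change algebraMap ℂ C(ℝ, ℂ) (M i j) t = _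
  simp [Algebra.algebraMap_eq_smul_one]

variable [PartialOrder G] [StarOrderedRing G]

theorem exists_drop {k : ℕ} {E : Fin (k + 1) → Fin (k + 1) → G} {e v : G} (hE : OZ E e)
    (e1 : e ≤ 1) (hv : star v * v = 1 - e) (hfix : E 0 0 * v = v) :
    Nonempty (DimDrop (k + 1) (k + 2) →⋆ₐ[ℂ] G) := by
  have c0 : 0 ≤ 1 - e := sub_nonneg.2 e1
  have sc := c0.isSelfAdjoint
  set n := cfc (fun t : ℝ => √t) (1 - e) with hn
  have sn : IsSelfAdjoint n := cfc_predicate _ _
  have n2 : n * n = 1 - e := by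
    rw [hn, ← cfc_mul _ _ (1 - e)]
    nth_rewrite 2 [← cfc_id' ℝ (1 - e)]
    exact cfc_congr fun t ht => Real.mul_self_sqrt (spectrum_nonneg_of_nonneg c0 ht)
  have cn : ∀ i j, Commute n (E i j) := fun i j =>
    Commute.cfc_real ((Commute.one_left _).sub_left (hE.comm i j)) _
  have cne : Commute n e := Commute.cfc_real ((Commute.one_left _).sub_left (Commute.refl e)) _
  clear_value n
  have ev : e * v = v := by
    have h1 := hE.mul 0 0 0 0
    rw [if_pos rfl] at h1
    have h2 := congrArg (· * v) h1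
    simp only [mul_assoc, hfix] at h2
    exact h2.symm
  have nv : n * v = 0 := by
    rw [← CStarRing.star_mul_self_eq_zero_iff, star_mul, sn.star_eq, mul_assoc, ← mul_assoc n,
      n2, sub_mul, ev, one_mul, sub_self, mul_zero]
  let x : Fin (k + 2) → G := Fin.cons n fun j => E j 0 * v
  have x0 : x 0 = n := rfl
  have xs : ∀ j : Fin (k + 1), x j.succ = E j 0 * v := fun j => rfl
  have Ex : ∀ a b c : Fin (k + 1), E a b * x c.succ = if b = c then x a.succ else 0 := by
    intro a b c
    rw [xs, xs, ← mul_assoc, hE.mul]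
    split_ifs
    · rw [(hE.comm _ _).eq, mul_assoc, ev]
    · simp
  have xE : ∀ a b c : Fin (k + 1), star (x c.succ) * E a b
      = if c = a then star (x b.succ) else 0 := by
    intro a b c
    have := congrArg star (Ex b a c)
    rw [star_mul, hE.adj] at this
    rw [this]
    simp only [eq_comm (a := a)]
    split_ifs <;> simp
  have nx : ∀ c : Fin (k + 1), n * x c.succ = 0 := fun c => by
    rw [xs, ← mul_assoc, (cn _ _).eq, mul_assoc, nv, mul_zero]
  have xn : ∀ c : Fin (k + 1), star (x c.succ) * n = 0 := fun c => by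
    rw [← sn.star_eq, ← star_mul, nx, star_zero]
  have hx : Vec x (1 - e) := by
    intro i j
    refine Fin.cases ?_ (fun i => ?_) i <;> refine Fin.cases ?_ (fun j => ?_) j
    · simp [x0, sn.star_eq, n2]
    · simp [x0, sn.star_eq, nx, (Fin.succ_ne_zero j).symm]
    · simp [x0, xn]
    · rw [xs j, ← mul_assoc, xE]
      simp only [Fin.succ_inj]
      split_ifs
      · have : x (Fin.succ 0) = v := by rw [xs, hfix]
        rw [this, hv]
      · simp
  have hβ := hx.oz
  set T := ∑ a, x a * star (x a) with hT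
  have Tx : ∀ p, T * x p = x p * (1 - e) := fun p => by
    rw [hT, Finset.sum_mul, Finset.sum_eq_single p]
    · rw [mul_assoc, hx, if_pos rfl]
    · intro a _ ha
      rw [mul_assoc, hx, if_neg ha, mul_zero]
    · simp
  have xT : ∀ p, star (x p) * T = (1 - e) * star (x p) := fun p => by
    have := congrArg star (Tx p)
    rwa [star_mul, star_mul, hβ.sa.star_eq, sc.star_eq] at this
  have Tx' : ∀ p, (1 - T) * x p = x p * e := fun p => by
    rw [sub_mul, Tx]; noncomm_ring
  have T2 : T = 1 - e + ∑ a : Fin (k + 1), x a.succ * star (x a.succ) := by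
    rw [hT, Fin.sum_univ_succ, x0, sn.star_eq, n2]
  have TE : ∀ a b, T * E a b = n * E a b * n + x a.succ * star (x b.succ) := fun a b => by
    rw [T2, add_mul, Finset.sum_mul, mul_assoc, ← (cn _ _).eq, ← mul_assoc, n2]
    simp [mul_assoc, xE]
  let ε : Fin (k + 1) × Fin (k + 2) → Fin (k + 1) × Fin (k + 2) → G :=
    fun I J => x I.2 * E I.1 J.1 * star (x J.2)
  have hε : OZ ε (T * (1 - T)) := ⟨fun I J => by simp [ε, hE.adj, mul_assoc], fun I J L N => by
      have h1 : T * (1 - T) * ε I N = x I.2 * ((1 - e) * (e * (E I.1 N.1 * star (x N.2)))) := by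
        simp only [ε, mul_assoc]
        rw [← mul_assoc (1 - T), Tx', ← mul_assoc T, ← mul_assoc T, Tx]
        simp only [mul_assoc]
      have c1 : Commute (1 - e) (E I.1 J.1) := (Commute.one_left _).sub_left (hE.comm _ _)
      rw [h1]
      simp only [ε, mul_assoc]
      rw [← mul_assoc (star _), hx]
      simp only [Prod.ext_iff]
      by_cases h2 : J.2 = L.2
      · rw [if_pos h2, ← c1.left_comm, ← mul_assoc (E _ _), hE.mul]
        by_cases h3 : J.1 = L.1 <;> simp [h2, h3, mul_assoc]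
      · simp [h2], by
      rw [Fintype.sum_prod_type_right]
      simp only [ε, ← Finset.sum_mul, ← Finset.mul_sum, hE.sum]
      simp only [← Tx', mul_assoc, ← Finset.mul_sum, ← hT]
      noncomm_ring⟩
  let α : Fin (k + 1) → Fin (k + 1) → G := fun a b => E a b - x a.succ * star (x b.succ)
  have hα : OZ α (1 - T) := ⟨fun a b => by simp [α, hE.adj], fun a b c d => by
      have h1 : (1 - T) * α a d = e * E a d - x a.succ * star (x d.succ)
          - x a.succ * e * star (x d.succ) := by
        simp only [α]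
        rw [mul_sub, ← mul_assoc, Tx', sub_mul, TE, mul_assoc n, ← (cn _ _).eq, ← mul_assoc, n2]
        noncomm_ring
      have h2 : x a.succ * star (x b.succ) * (x c.succ * star (x d.succ))
          = if b = c then x a.succ * (1 - e) * star (x d.succ) else 0 := by
        rw [mul_assoc, ← mul_assoc (star _), hx]
        simp only [Fin.succ_inj]
        split_ifs <;> simp [mul_assoc]
      rw [h1]
      simp only [α]
      rw [sub_mul, mul_sub, mul_sub, h2, hE.mul, ← mul_assoc (E a b), Ex, mul_assoc (x a.succ), xE]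
      split_ifs
      · noncomm_ring
      · simp, by
      simp only [α, Finset.sum_sub_distrib, hE.sum]
      rw [T2]
      abel⟩
  have lα : ∀ a b, T * α a b = ∑ p, ε (flip (a, p)) (flip (b, p)) := fun a b => by
    rw [Fin.sum_univ_succ]
    simp only [flip, Fin.cases_zero, Fin.cases_succ, ε, α, x0, sn.star_eq, ← Finset.sum_mul,
      ← Finset.mul_sum, hE.sum]
    rw [mul_sub, TE, ← Tx', ← mul_assoc]
    noncomm_ring
  have lβ : ∀ p q, (1 - T) * (x p * star (x q)) = ∑ a, ε (a, p) (a, q) := fun p q => by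
    simp only [ε, ← Finset.sum_mul, ← Finset.mul_sum, hE.sum]
    rw [← mul_assoc, Tx']
  have cε : ∀ I J, Commute T (ε I J) := fun I J => by
    have c1 : Commute (1 - e) (E I.1 J.1) := (Commute.one_left _).sub_left (hE.comm _ _)
    change T * (x I.2 * E I.1 J.1 * star (x J.2)) = x I.2 * E I.1 J.1 * star (x J.2) * T
    rw [mul_assoc _ _ T, xT, ← mul_assoc, ← mul_assoc, Tx, mul_assoc _ (1 - e), c1.eq]
    simp only [mul_assoc]
  have cα : ∀ a b, Commute T (α a b) := fun a b => by
    have := (Commute.one_left (α a b)).sub_left (hα.comm a b)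
    rwa [sub_sub_cancel] at this
  obtain ⟨κ, hκ, cκ⟩ := exists_kappa hβ.sa
  obtain ⟨l₀, l₁, μ, φ₀, φ₁, ψ, s₀, s₁, sm, f1, f2, f3, f4, f5, f6, z0, z1⟩ := exists_fns
  obtain ⟨F, F0, F1⟩ := exists_twist (k + 1)
  set τ := rf id continuous_id with hτ
  have k1 : κ (1 - τ) = 1 - T := by rw [map_sub, map_one, hκ]
  have k2 : κ (τ * (1 - τ)) = T * (1 - T) := by rw [map_mul, k1, hκ]
  refine glue κ
    ((k1 ▸ hα : OZ α (κ (1 - τ))).ozMap (fun z i j => cκ z _ (cα i j))
      ((cst _).comp (endL (k + 1) (k + 1))))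
    ((hκ ▸ hβ : OZ _ (κ τ)).ozMap (fun z i j => cκ z _ (hβ.comm i j))
      ((cst _).comp (endR k (k + 2))))
    ((k2 ▸ hε : OZ ε (κ (τ * (1 - τ)))).ozMap (fun z i j => cκ z _ (cε i j)) F)
    s₀ s₁ sm f1 f2 f3 f4 f5 f6 (fun f => ?_) (fun f => ?_)
  · change κ _ * (κ τ * bar κ α (cst _ (endL (k + 1) (k + 1) f))) = κ _ * bar κ ε (F f)
    have h1 : (l₀ * (1 - τ)) • F f = (l₀ * (1 - τ)) • cst _ ((f.1 0).submatrix flip flip) := by
      ext I J t
      simp only [Matrix.smul_apply, smul_eq_mul, ContinuousMap.mul_apply, cst_apply]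
      rcases le_or_gt t (1 / 3) with h | h
      · rw [F0 f I J t h, Matrix.submatrix_apply]
      · simp [z0 t h]
    rw [← bar_smul κ ε, h1, bar_smul, bar_cst, bar_cst, hκ]
    congr 1
    have hs : ∀ g : Fin (k + 1) × Fin (k + 2) → G, ∑ x, g x = ∑ x, g (flip x) := fun g =>
      (Equiv.sum_comp (Function.Involutive.toPerm flip flip_flip) g).symm
    have h2 : ∑ i, ∑ j, (f.1 0).submatrix flip flip i j • ε i j
        = ∑ i, ∑ j, f.1 0 i j • ε (flip i) (flip j) := by
      rw [hs]
      refine Finset.sum_congr rfl fun i _ => ?_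
      rw [hs]
      simp only [Matrix.submatrix_apply, flip_flip]
    rw [h2]
    simp only [endL_spec,
      Finset.mul_sum, mul_smul_comm, lα, Fintype.sum_prod_type, Matrix.kroneckerMap_apply,
      Matrix.one_apply, Finset.smul_sum, mul_ite, mul_one, mul_zero, ite_smul, zero_smul,
      Finset.sum_ite_eq, Finset.mem_univ, if_true]
    exact Finset.sum_congr rfl fun a _ => Finset.sum_comm
  · change κ _ * (κ (1 - τ) * bar κ (fun i j => x i * star (x j)) (cst _ (endR k (k + 2) f)))
      = κ _ * bar κ ε (F f)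
    have h1 : (l₁ * τ) • F f = (l₁ * τ) • cst _ (f.1 1) := by
      ext I J t
      simp only [Matrix.smul_apply, smul_eq_mul, ContinuousMap.mul_apply, cst_apply]
      rcases le_or_gt (2 / 3) t with h | h
      · rw [F1 f I J t h]
      · simp [z1 t h]
    rw [← bar_smul κ ε, h1, bar_smul, bar_cst, bar_cst, k1]
    congr 1
    simp only [endR_spec, Finset.mul_sum, mul_smul_comm, lβ, Fintype.sum_prod_type,
      Matrix.kroneckerMap_apply, Matrix.one_apply, Finset.smul_sum, ite_mul, one_mul, zero_mul,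
      ite_smul, zero_smul, Finset.sum_ite_irrel, Finset.sum_const_zero,
      Finset.sum_ite_eq, Finset.mem_univ, if_true]
    rw [Finset.sum_comm (γ := Fin (k + 1))]
    exact Finset.sum_congr rfl fun a _ => Finset.sum_comm

/-- The abstract theorem for shift systems. -/
theorem shift_drop {G : Type*} [CStarAlgebra G] {T : G →⋆ₐ[ℂ] G} (hT : Gen T) {n K : ℕ}
    {v : Fin (n + 1) → G} (h1 : ∀ i, v i ∈ Loc T K) (h2 : ∀ i, v i * v i = 0)
    (h3 : Full (Set.range v)) (k : ℕ) : Nonempty (DimDrop (k + 1) (k + 2) →⋆ₐ[ℂ] G) := by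
  let _ := CStarAlgebra.spectralOrder G
  have := CStarAlgebra.spectralOrderedRing G
  obtain ⟨K, w, hw, sw, fw⟩ := exists_full_sq_zero hT n K v h1 h2 h3
  obtain ⟨K, x, y, hx, hv, fy⟩ := exists_vec hw sw fw k
  obtain ⟨S, N, x, y, ξ, d, hP⟩ := exists_pre hT hx hv fy
  obtain ⟨E, e, v, hE, e1, hv, hfix⟩ := hP.exists_rw
  exact exists_drop hE e1 hv hfix

end Vale.Agent.P101
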