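import Vale.Agent.P101.Cover

/-! Gluing three order zero maps to a unital homomorphism. -/

set_option linter.unusedSectionVars false
set_option linter.unusedSimpArgs false

namespace Vale.Agent.P101

section Alg
variable {G Z D : Type*} [Ring G] [StarRing G] [Algebra ℂ G] [StarModule ℂ G]
  [CommRing Z] [StarRing Z] [Algebra ℂ Z] [Semiring D] [StarRing D] [Algebra ℂ D]

/-- An order zero map with support `κ σ`. -/
structure OZMap (κ : Z →⋆ₐ[ℂ] G) (σ : Z) (P : D →ₗ[ℂ] G) : Prop where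
  mul : ∀ f g, P f * P g = κ σ * P (f * g)
  one : P 1 = κ σ
  adj : ∀ f, star (P f) = P (star f)
  comm : ∀ z f, Commute (κ z) (P f)

theorem glue (κ : Z →⋆ₐ[ℂ] G) {τ l₀ l₁ μ φ₀ φ₁ ψ : Z} {P₀ P₁ Pm : D →ₗ[ℂ] G}
    (h₀ : OZMap κ (1 - τ) P₀) (h₁ : OZMap κ τ P₁) (hm : OZMap κ (τ * (1 - τ)) Pm)
    (s₀ : star l₀ = l₀) (s₁ : star l₁ = l₁) (sm : star μ = μ)
    (e1 : l₀ * (1 - τ) + l₁ * τ + μ * (τ * (1 - τ)) = 1)
    (a1 : φ₀ * l₁ = 0) (a2 : φ₀ * μ = 0) (b1 : φ₁ * l₀ = 0) (b2 : φ₁ * μ = 0)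
    (e2 : ψ * ((τ * (1 - τ)) ^ 2 + (φ₀ * (1 - τ)) ^ 2 + (φ₁ * τ) ^ 2) = 1)
    (k₀ : ∀ f, κ (l₀ * (1 - τ)) * (κ τ * P₀ f) = κ (l₀ * (1 - τ)) * Pm f)
    (k₁ : ∀ f, κ (l₁ * τ) * (κ (1 - τ) * P₁ f) = κ (l₁ * τ) * Pm f) :
    Nonempty (D →⋆ₐ[ℂ] G) := by
  let π : D →ₗ[ℂ] G := (LinearMap.mulLeft ℂ (κ l₀)).comp P₀ + (LinearMap.mulLeft ℂ (κ l₁)).comp P₁
    + (LinearMap.mulLeft ℂ (κ μ)).comp Pm
  have hπ : ∀ f, π f = κ l₀ * P₀ f + κ l₁ * P₁ f + κ μ * Pm f := fun f => rfl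
  have mm : ∀ z w x, κ z * (κ w * x) = κ (z * w) * x := fun z w x => by rw [map_mul, mul_assoc]
  have cκ : ∀ z w, Commute (κ z) (κ w) := fun z w => (Commute.all z w).map κ
  have cπ : ∀ z f, Commute (κ z) (π f) := fun z f =>
    (((cκ _ _).mul_right (h₀.comm _ _)).add_right ((cκ _ _).mul_right (h₁.comm _ _))).add_right
      ((cκ _ _).mul_right (hm.comm _ _))
  have Lm : ∀ f, κ (1 * (τ * (1 - τ))) * π f = κ 1 * Pm f := fun f => by
    have t0 := k₀ f
    have t1 := k₁ f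
    rw [mm] at t0 t1
    rw [hπ, mul_add, mul_add, mm, mm, mm, show 1 * (τ * (1 - τ)) * l₀ = l₀ * (1 - τ) * τ by ring,
      show 1 * (τ * (1 - τ)) * l₁ = l₁ * τ * (1 - τ) by ring, t0, t1, ← add_mul, ← add_mul,
      ← map_add, ← map_add]
    congr 2
    linear_combination e1
  have L0 : ∀ f, κ (φ₀ * (1 - τ)) * π f = κ φ₀ * P₀ f := fun f => by
    rw [hπ, mul_add, mul_add, mm, mm, mm, show φ₀ * (1 - τ) * l₁ = 0 by linear_combination (1 - τ) * a1,
      show φ₀ * (1 - τ) * μ = 0 by linear_combination (1 - τ) * a2,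
      show φ₀ * (1 - τ) * l₀ = φ₀ by
        linear_combination φ₀ * e1 - τ * a1 - τ * (1 - τ) * a2]
    simp
  have L1 : ∀ f, κ (φ₁ * τ) * π f = κ φ₁ * P₁ f := fun f => by
    rw [hπ, mul_add, mul_add, mm, mm, mm, show φ₁ * τ * l₀ = 0 by linear_combination τ * b1,
      show φ₁ * τ * μ = 0 by linear_combination τ * b2,
      show φ₁ * τ * l₁ = φ₁ by
        linear_combination φ₁ * e1 - (1 - τ) * b1 - τ * (1 - τ) * b2]
    simp
  have gen : ∀ {σ w : Z} {P : D →ₗ[ℂ] G}, OZMap κ σ P → (∀ f, κ (w * σ) * π f = κ w * P f) →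
      ∀ f g, κ ((w * σ) ^ 2) * (π f * π g - π (f * g)) = 0 := by
    intro σ w P hP hL f g
    have t1 : κ ((w * σ) ^ 2) * (π f * π g) = κ (w * σ) * π f * (κ (w * σ) * π g) := by
      rw [(cπ _ _).symm.mul_mul_mul_comm, ← map_mul κ, sq]
    have t2 : κ ((w * σ) ^ 2) * π (f * g) = κ (w * σ) * (κ (w * σ) * π (f * g)) := by
      rw [mm, sq]
    rw [mul_sub, t1, t2, hL, hL, hL, (hP.comm _ _).symm.mul_mul_mul_comm, hP.mul, ← map_mul κ, mm,
      mm, show w * w * σ = w * σ * w by ring, sub_self]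
  have hmul : ∀ f g, π (f * g) = π f * π g := fun f g => by
    have t1 := gen hm Lm f g
    have t2 := gen h₀ L0 f g
    have t3 := gen h₁ L1 f g
    rw [one_mul] at t1
    have t4 : κ (ψ * ((τ * (1 - τ)) ^ 2 + (φ₀ * (1 - τ)) ^ 2 + (φ₁ * τ) ^ 2))
        * (π f * π g - π (f * g)) = 0 := by
      rw [map_mul, map_add, map_add, mul_assoc, add_mul, add_mul, t1, t2, t3]
      simp
    rw [e2, map_one, one_mul, sub_eq_zero] at t4
    exact t4.symm
  have hone : π 1 = 1 := by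
    rw [hπ, h₀.one, h₁.one, hm.one, ← map_mul, ← map_mul, ← map_mul, ← map_add, ← map_add, e1,
      map_one]
  refine ⟨{ AlgHom.ofLinearMap π hone hmul with map_star' := fun f => ?_ }⟩
  change π (star f) = star (π f)
  simp only [hπ, star_add, star_mul, h₀.adj, h₁.adj, hm.adj, ← map_star κ, s₀, s₁, sm,
    (h₀.comm _ _).eq, (h₁.comm _ _).eq, (hm.comm _ _).eq]

variable {ι : Type*} [Fintype ι] [DecidableEq ι]

/-- The linear map of a system of matrix units. -/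
def bar (κ : Z →⋆ₐ[ℂ] G) (R : ι → ι → G) : Matrix ι ι Z →ₗ[ℂ] G where
  toFun M := ∑ i, ∑ j, κ (M i j) * R i j
  map_add' M N := by simp [add_mul, Finset.sum_add_distrib]
  map_smul' c M := by simp [Finset.smul_sum]

theorem bar_apply (κ : Z →⋆ₐ[ℂ] G) (R : ι → ι → G) (M : Matrix ι ι Z) :
    bar κ R M = ∑ i, ∑ j, κ (M i j) * R i j := rfl

theorem bar_smul (κ : Z →⋆ₐ[ℂ] G) (R : ι → ι → G) (z : Z) (M : Matrix ι ι Z) :
    bar κ R (z • M) = κ z * bar κ R M := by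
  simp [bar_apply, Finset.mul_sum, mul_assoc]

theorem OZ.ozMap [StarModule ℂ Z] {κ : Z →⋆ₐ[ℂ] G} {σ : Z} {R : ι → ι → G} (h : OZ R (κ σ))
    (c : ∀ z i j, Commute (κ z) (R i j)) (Φ : D →⋆ₐ[ℂ] Matrix ι ι Z) :
    OZMap κ σ ((bar κ R).comp Φ.toAlgHom.toLinearMap) where
  mul f g := by
    change bar κ R (Φ f) * bar κ R (Φ g) = κ σ * bar κ R (Φ (f * g))
    rw [map_mul]
    generalize Φ f = M
    generalize Φ g = N
    have t : ∀ i j l n, κ (M i j) * R i j * (κ (N l n) * R l n)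
        = if j = l then κ σ * (κ (M i j * N l n) * R i n) else 0 := by
      intro i j l n
      rw [(c _ _ _).symm.mul_mul_mul_comm, h.mul, ← map_mul]
      split_ifs
      · rw [((Commute.all _ _).map κ).left_comm]
      · simp
    rw [bar_apply, bar_apply, bar_apply, Finset.sum_mul, Finset.mul_sum]
    refine Finset.sum_congr rfl fun i _ => ?_
    simp only [Finset.sum_mul, Finset.mul_sum, t, Matrix.mul_apply, map_sum]
    simp only [Finset.sum_ite_eq', Finset.mem_univ, if_true]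
    exact Finset.sum_comm
  one := by
    change bar κ R (Φ 1) = _
    simp [bar_apply, Matrix.one_apply, apply_ite κ, h.sum]
  adj f := by
    change star (bar κ R (Φ f)) = bar κ R (Φ (star f))
    rw [map_star]
    simp only [bar_apply, star_sum, star_mul, h.adj, ← map_star κ, Matrix.star_apply,
      ← (c _ _ _).eq]
    exact Finset.sum_comm
  comm z f := Commute.sum_right _ _ _ fun i _ => Commute.sum_right _ _ _ fun j _ =>
    ((Commute.all _ _).map κ).mul_right (c _ _ _)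

end Alg

end Vale.Agent.P101
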