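import Vale.Agent.P101.Drop

/-! From the central sequence algebra to a shift system. -/

set_option linter.unusedSectionVars false
set_option linter.unusedSimpArgs false

namespace Vale.Agent.P101

open Filter Topology
open scoped BoundedContinuousFunction CStarAlgebra

theorem tuple_drop {G' : Type*} [CStarAlgebra G'] (T' : G' →⋆ₐ[ℂ] G') {ι : Type*} (Y : ι → G')
    (c1 : ∀ i j p, Commute (Y i) ((T' ^ (p + 1)) (Y j)))
    (c2 : ∀ i j p, Commute (star (Y i)) ((T' ^ (p + 1)) (Y j))) {n : ℕ} (a s b : Fin n → ι)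
    (hs : ∀ i, Y (s i) * Y (s i) = 0) (hsum : ∑ i, Y (a i) * Y (s i) * Y (b i) = 1) (k : ℕ) :
    Nonempty (DimDrop (k + 1) (k + 2) →⋆ₐ[ℂ] G') := by
  let G := (StarAlgebra.adjoin ℂ {g | ∃ p i, g = (T' ^ p) (Y i)}).topologicalClosure
  have hG : IsClosed (G : Set G') := isClosed_closure
  have gen : ∀ H : StarSubalgebra ℂ G', IsClosed (H : Set G') → (∀ p i, (T' ^ p) (Y i) ∈ H) →
      G ≤ H := fun H hH h =>
    StarSubalgebra.topologicalClosure_minimal (StarAlgebra.adjoin_le (by
      rintro _ ⟨p, i, rfl⟩; exact h p i)) hH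
  have mem : ∀ p i, (T' ^ p) (Y i) ∈ G := fun p i =>
    StarSubalgebra.le_topologicalClosure _ (StarAlgebra.subset_adjoin ℂ _ ⟨p, i, rfl⟩)
  have hc : Continuous T' := map_continuous T'
  have succ : ∀ p g, T' ((T' ^ p) g) = (T' ^ (p + 1)) g := fun p g => by rw [pow_succ']; rfl
  have hT : ∀ g : G, (T'.comp G.subtype) g ∈ G := fun g =>
    gen (G.comap T') (hG.preimage hc) (fun p i => by
      rw [StarSubalgebra.mem_comap, succ]; exact mem _ _) g.2
  let T : G →⋆ₐ[ℂ] G := (T'.comp G.subtype).codRestrict G hT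
  have Tp : ∀ p (g : G), ((T ^ p) g : G') = (T' ^ p) g := by
    intro p g
    induction p with
    | zero => rfl
    | succ p ih => rw [← succ, ← ih, pow_succ']; rfl
  let Z : ι → G := fun i => ⟨Y i, mem 0 i⟩
  have hZ : ∀ i, Z i ∈ Loc T 1 := fun i => mem_Loc.2 fun g => by
    have := gen ((StarSubalgebra.centralizer ℂ {Y i}).comap T') ((isClosed_centr _).preimage hc)
      (fun p j => by
        rw [StarSubalgebra.mem_comap, succ, StarSubalgebra.mem_centralizer_iff]
        rintro _ rfl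
        exact ⟨c1 _ _ _, c2 _ _ _⟩) g.2
    rw [StarSubalgebra.mem_comap, StarSubalgebra.mem_centralizer_iff] at this
    exact Subtype.ext (this _ rfl).1
  have hGen : Gen T := fun H hH h g => by
    obtain ⟨g', hg', e⟩ := gen (H.map G.subtype)
      (hG.isClosedEmbedding_subtypeVal.isClosedMap _ hH)
      (fun p i => ⟨_, h p _ (hZ i), Tp p _⟩) g.2
    rwa [← (Subtype.ext e : g' = g)]
  obtain ⟨φ⟩ := shift_drop hGen (K := 1) (v := Fin.cons 0 fun i => Z (s i))
    (Fin.cases (zero_mem _) fun i => hZ _)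
    (Fin.cases (mul_zero _) fun i => Subtype.ext (hs i)) (by
      have h1 : (1 : G) = ∑ i, Z (a i) * Z (s i) * Z (b i) := Subtype.ext (by
        simp only [AddSubmonoidClass.coe_finset_sum, MulMemClass.coe_mul, Z, hsum]
        rfl)
      rw [Full, h1]
      exact sum_mem fun i _ => AddSubmonoid.subset_closure ⟨_, _, ⟨i.succ, rfl⟩, _, rfl⟩) k
  exact ⟨G.subtype.comp φ⟩

/-- Reindexing of bounded sequences. -/
noncomputable def reidx (A : Type*) [CStarAlgebra A] (g : ℕ → ℕ) : (ℕ →ᵇ A) →⋆ₐ[ℂ] (ℕ →ᵇ A) where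
  toFun f := f.compContinuous ⟨g, continuous_of_discreteTopology⟩
  map_one' := rfl
  map_mul' _ _ := rfl
  map_zero' := rfl
  map_add' _ _ := rfl
  commutes' _ := rfl
  map_star' _ := rfl

theorem reidx_apply {A : Type*} [CStarAlgebra A] (g : ℕ → ℕ) (f : ℕ →ᵇ A) (n : ℕ) :
    reidx A g f n = f (g n) := rfl

theorem reidx_pow {A : Type*} [CStarAlgebra A] (p : ℕ) (f : ℕ →ᵇ A) (n : ℕ) :
    (reidx A Nat.succ ^ p) f n = f (n + p) := by
  induction p generalizing n with
  | zero => rfl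
  | succ p ih =>
    rw [pow_succ']
    change (reidx A Nat.succ ^ p) f (n + 1) = _
    rw [ih, add_right_comm, add_assoc]

/-- Evaluation at an index. -/
noncomputable def evalAt (A : Type*) [CStarAlgebra A] (n : ℕ) : (ℕ →ᵇ A) →⋆ₐ[ℂ] A where
  toFun f := f n
  map_one' := rfl
  map_mul' _ _ := rfl
  map_zero' := rfl
  map_add' _ _ := rfl
  commutes' _ := rfl
  map_star' _ := rfl

theorem seq_drop {F : Type*} [CStarAlgebra F] {ι : Type*} (y : ι → ℕ → F) (C : ι → ℝ)
    (hC : ∀ i p, ‖y i p‖ ≤ C i) (c1 : ∀ i j p q, Commute (y i p) (y j (p + (q + 1))))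
    (c2 : ∀ i j p q, Commute (star (y i p)) (y j (p + (q + 1)))) {n : ℕ} (a s b : Fin n → ι)
    (hs : ∀ i p, y (s i) p * y (s i) p = 0)
    (hsum : ∀ p, ∑ i, y (a i) p * y (s i) p * y (b i) p = 1) (k : ℕ) :
    Nonempty (DimDrop (k + 1) (k + 2) →⋆ₐ[ℂ] F) := by
  let Y : ι → (ℕ →ᵇ F) := fun i =>
    BoundedContinuousFunction.ofNormedAddCommGroupDiscrete (y i) (C i) (hC i)
  obtain ⟨φ⟩ := tuple_drop (reidx F Nat.succ) Y
    (fun i j q => BoundedContinuousFunction.ext fun p => by
      simp only [BoundedContinuousFunction.mul_apply, reidx_pow]; exact c1 i j p q)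
    (fun i j q => BoundedContinuousFunction.ext fun p => by
      simp only [BoundedContinuousFunction.mul_apply, reidx_pow]; exact c2 i j p q) a s b
    (fun i => BoundedContinuousFunction.ext fun p => hs i p)
    (BoundedContinuousFunction.ext fun p => by
      rw [BoundedContinuousFunction.sum_apply]; exact hsum p) k
  exact ⟨(evalAt F 0).comp φ⟩

variable {A : Type*} [CStarAlgebra A] {ω : Ultrafilter ℕ}

theorem mem_null {a : ℕ →ᵇ A} : a ∈ nullIdeal A ω ↔ Tendsto (fun n => ‖a n‖) ω (𝓝 0) := Iff.rfl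

instance : IsClosed (nullIdeal A ω : Set (ℕ →ᵇ A)) := by
  refine isClosed_of_closure_subset fun a ha => ?_
  rw [SetLike.mem_coe, mem_null, Metric.tendsto_nhds]
  intro ε hε
  obtain ⟨b, hb, hab⟩ := Metric.mem_closure_iff.1 ha (ε / 2) (half_pos hε)
  filter_upwards [Metric.tendsto_nhds.1 (mem_null.1 hb) (ε / 2) (half_pos hε)] with n hn
  rw [Real.dist_eq, sub_zero, abs_norm] at hn ⊢
  have h1 := (a.dist_coe_le_dist (g := b) n).trans_lt hab
  rw [dist_eq_norm] at h1
  have h2 := norm_add_le (a n - b n) (b n)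
  rw [sub_add_cancel] at h2
  linarith

instance : IsClosed (CentralSeq A ω : Set (Ultrapower A ω)) := isClosed_centr _

theorem commute_mk {a b : ℕ →ᵇ A} : Commute (Ideal.Quotient.mk (nullIdeal A ω) a)
    (Ideal.Quotient.mk (nullIdeal A ω) b) ↔
      Tendsto (fun n => ‖a n * b n - b n * a n‖) ω (𝓝 0) := by
  rw [commute_iff_eq, ← map_mul, ← map_mul, Ideal.Quotient.eq]
  rfl

theorem mk_mem_central {a : ℕ →ᵇ A} : Ideal.Quotient.mk (nullIdeal A ω) a ∈ CentralSeq A ω ↔
    ∀ c : A, Tendsto (fun n => ‖c * a n - a n * c‖) ω (𝓝 0) := by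
  rw [CentralSeq, StarSubalgebra.mem_centralizer_iff]
  constructor
  · exact fun h c => commute_mk.1 (h _ ⟨c, rfl⟩).1
  · rintro h _ ⟨c, rfl⟩
    exact ⟨commute_mk.2 (h c), (commute_mk (a := star (BoundedContinuousFunction.const ℕ c))).2
      (h (star c))⟩

theorem exists_reindex [TopologicalSpace.SeparableSpace A] (hω : (ω : Filter ℕ) ≤ cofinite)
    {ι κ : Type*} [Finite ι] [Finite κ] (y : ι → ℕ →ᵇ A)
    (hy : ∀ i c, Tendsto (fun n => ‖c * y i n - y i n * c‖) ω (𝓝 0)) (N : κ → ℕ → ℝ)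
    (hN : ∀ j, Tendsto (N j) ω (𝓝 0)) : ∃ m : ℕ → ℕ,
      (∀ j, Tendsto (fun n => N j (m n)) atTop (𝓝 0)) ∧
      (∀ i c, Tendsto (fun n => ‖c * y i (m n) - y i (m n) * c‖) atTop (𝓝 0)) ∧
      ∀ i j q, Tendsto (fun n => ‖y i (m n) * y j (m (n + (q + 1)))
          - y j (m (n + (q + 1))) * y i (m n)‖) atTop (𝓝 0) ∧
        Tendsto (fun n => ‖star (y i (m n)) * y j (m (n + (q + 1)))
          - y j (m (n + (q + 1))) * star (y i (m n))‖) atTop (𝓝 0) := by
  let u := TopologicalSpace.denseSeq A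
  have hu : DenseRange u := TopologicalSpace.denseRange_denseSeq A
  let ε : ℕ → ℝ := fun n => 1 / ((n : ℝ) + 1)
  have hε : ∀ n, 0 < ε n := fun n => Nat.one_div_pos_of_nat
  have hε' : Tendsto ε atTop (𝓝 0) := tendsto_one_div_add_atTop_nhds_zero_nat
  have ev : ∀ n i c, ∀ᶠ m in ω, ‖c * y i m - y i m * c‖ < ε n := fun n i c =>
    (hy i c).eventually (gt_mem_nhds (hε n))
  have key : ∀ n b : ℕ, ∃ m, b < m ∧ (∀ j, |N j m| < ε n) ∧
      (∀ i, ∀ l ∈ Set.Iic n, ‖u l * y i m - y i m * u l‖ < ε n) ∧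
      ∀ i j, ∀ l ∈ Set.Iic b, ‖y i l * y j m - y j m * y i l‖ < ε n ∧
        ‖star (y i l) * y j m - y j m * star (y i l)‖ < ε n := by
    intro n b
    refine Filter.Eventually.exists (f := (ω : Filter ℕ)) (Filter.Eventually.and ?_
      (Filter.Eventually.and ?_ (Filter.Eventually.and ?_ ?_)))
    · apply hω
      rw [Nat.cofinite_eq_atTop]
      exact eventually_gt_atTop b
    · rw [eventually_all]
      intro j
      simpa [Real.dist_eq] using Metric.tendsto_nhds.1 (hN j) _ (hε n)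
    · rw [eventually_all]
      intro i
      rw [eventually_all_finite (Set.finite_Iic n)]
      exact fun l _ => ev _ _ _
    · rw [eventually_all]
      intro i
      rw [eventually_all]
      intro j
      rw [eventually_all_finite (Set.finite_Iic b)]
      exact fun l _ => (ev _ _ _).and (ev _ _ _)
  choose g g1 g2 g3 g4 using key
  let m : ℕ → ℕ := fun n => Nat.rec (g 0 0) (fun n r => g (n + 1) r) n
  have hm : ∀ n, ∃ b, m n = g n b := fun n => by cases n <;> exact ⟨_, rfl⟩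
  have mono : StrictMono m := strictMono_nat_of_lt_succ fun n => g1 _ _
  have anti : ∀ n q, ε (n + q) ≤ ε n := fun n q => Nat.one_div_le_one_div (Nat.le_add_right _ _)
  refine ⟨m, fun j => ?_, fun i c => ?_, fun i j q => ⟨?_, ?_⟩⟩
  · refine squeeze_zero_norm (fun n => ?_) hε'
    obtain ⟨b, hb⟩ := hm n
    rw [hb]
    exact (g2 n b j).le
  · rw [Metric.tendsto_nhds]
    intro δ hδ
    obtain ⟨l, hl⟩ := hu.exists_dist_lt c (show 0 < δ / (4 * (‖y i‖ + 1)) by positivity)
    filter_upwards [eventually_ge_atTop l, hε'.eventually (gt_mem_nhds (half_pos hδ))] with n h1 h2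
    obtain ⟨b, hb⟩ := hm n
    have h3 := g3 n b i l h1
    rw [← hb] at h3
    rw [Real.dist_eq, sub_zero, abs_norm]
    rw [dist_eq_norm, lt_div_iff₀ (by positivity)] at hl
    have h4 : c * y i (m n) - y i (m n) * c = (u l * y i (m n) - y i (m n) * u l)
        + ((c - u l) * y i (m n) - y i (m n) * (c - u l)) := by noncomm_ring
    have h5 := (y i).norm_coe_le_norm (m n)
    have h6 : ‖(c - u l) * y i (m n)‖ ≤ ‖c - u l‖ * ‖y i‖ :=
      (norm_mul_le _ _).trans (by gcongr)
    have h7 : ‖y i (m n) * (c - u l)‖ ≤ ‖y i‖ * ‖c - u l‖ :=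
      (norm_mul_le _ _).trans (by gcongr)
    have h8 := norm_sub_le ((c - u l) * y i (m n)) (y i (m n) * (c - u l))
    have h9 := norm_nonneg (c - u l)
    rw [h4]
    refine (norm_add_le _ _).trans_lt ?_
    nlinarith
  · refine squeeze_zero (fun _ => norm_nonneg _) (fun n => ?_) hε'
    exact (g4 (n + q + 1) (m (n + q)) i j (m n) (mono.monotone (Nat.le_add_right _ _))).1.le.trans
      (anti n (q + 1))
  · refine squeeze_zero (fun _ => norm_nonneg _) (fun n => ?_) hε'
    exact (g4 (n + q + 1) (m (n + q)) i j (m n) (mono.monotone (Nat.le_add_right _ _))).2.le.trans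
      (anti n (q + 1))

theorem central_drop [TopologicalSpace.SeparableSpace A] (hω : (ω : Filter ℕ) ≤ cofinite)
    (h : IsEmpty (CentralSeq A ω →⋆ₐ[ℂ] ℂ)) (k : ℕ) :
    Nonempty (DimDrop (k + 1) (k + 2) →⋆ₐ[ℂ] CentralSeq A ω) := by
  obtain ⟨n, a, s, b, hs, hsum⟩ := (full_sq_zero h).exists_fin
  let z : Fin n ⊕ Fin n ⊕ Fin n → CentralSeq A ω := Sum.elim a (Sum.elim s b)
  choose y hy using fun i => Ideal.Quotient.mk_surjective (z i : Ultrapower A ω)
  have hω' : (ω : Filter ℕ) ≤ atTop := Nat.cofinite_eq_atTop ▸ hω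
  let d : Option (Fin n) → ℕ →ᵇ A := fun j => j.elim
    (∑ i, y (.inl i) * y (.inr (.inl i)) * y (.inr (.inr i)) - 1)
    fun i => y (.inr (.inl i)) * y (.inr (.inl i))
  have hd : ∀ j, d j ∈ nullIdeal A ω := by
    rintro (_ | i)
    · change _ - _ ∈ _
      rw [← Ideal.Quotient.eq, map_sum, map_one]
      simp only [map_mul, hy]
      have := congrArg Subtype.val hsum
      simp only [AddSubmonoidClass.coe_finset_sum, MulMemClass.coe_mul] at this
      exact this
    · change _ * _ ∈ _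
      rw [← Ideal.Quotient.eq_zero_iff_mem, map_mul, hy]
      exact congrArg Subtype.val (hs i)
  obtain ⟨m, m1, m2, m3⟩ := exists_reindex hω y (fun i => mk_mem_central.1 (hy i ▸ (z i).2))
    (fun j n => ‖d j n‖) hd
  let ρ : ℕ → (ℕ →ᵇ A) →⋆ₐ[ℂ] Ultrapower A ω := fun p =>
    (mkS (nullIdeal A ω)).comp (reidx A fun n => m (n + p))
  have sh : ∀ {f : ℕ → ℝ} (p : ℕ), Tendsto f atTop (𝓝 0) → Tendsto (fun n => f (n + p)) ω (𝓝 0) :=
    fun p hf => (hf.comp (tendsto_add_atTop_nat p)).mono_left hω'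
  have hρ : ∀ j p, ρ p (d j) = 0 := fun j p =>
    Ideal.Quotient.eq_zero_iff_mem.2 (sh p (m1 j))
  refine seq_drop (fun i p => ⟨ρ p (y i), mk_mem_central.2 fun c => sh p (m2 i c)⟩)
    (fun i => ‖y i‖) (fun i p => NonUnitalStarAlgHom.norm_apply_le (ρ p) (y i))
    (fun i j p q => Subtype.ext ?_) (fun i j p q => Subtype.ext ?_) .inl
    (fun i => .inr (.inl i)) (fun i => .inr (.inr i)) (fun i p => Subtype.ext ?_)
    (fun p => Subtype.ext ?_) k
  · refine (commute_mk (a := reidx A (fun n => m (n + p)) (y i))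
      (b := reidx A (fun n => m (n + (p + (q + 1)))) (y j))).2 ?_
    simpa only [add_assoc, reidx_apply, BoundedContinuousFunction.star_apply] using sh p (m3 i j q).1
  · refine (commute_mk (a := star (reidx A (fun n => m (n + p)) (y i)))
      (b := reidx A (fun n => m (n + (p + (q + 1)))) (y j))).2 ?_
    simpa only [add_assoc, reidx_apply, BoundedContinuousFunction.star_apply] using sh p (m3 i j q).2
  · exact (map_mul (ρ p) _ _).symm.trans (hρ (some i) p)
  · have := hρ none p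
    change ρ p (_ - _) = 0 at this
    rw [map_sub, map_one, sub_eq_zero, map_sum] at this
    simp only [map_mul] at this
    simp only [AddSubmonoidClass.coe_finset_sum, MulMemClass.coe_mul]
    exact this

end Vale.Agent.P101
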