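import Vale.Agent.P101.ZDefs
import Vale.Agent.P101.Ultra

/-! Extension by density and the intertwining argument. -/

set_option linter.unusedSectionVars false
set_option linter.unusedSimpArgs false

namespace Vale.Agent.P101

open Filter Topology
open scoped BoundedContinuousFunction CStarAlgebra

variable {A C : Type*} [CStarAlgebra A] [CStarAlgebra C]

theorem bij_of_dense {G : Type*} [CStarAlgebra G] (φ : G →⋆ₐ[ℂ] A) (h : Function.Injective φ)
    (hd : DenseRange φ) : Function.Bijective φ := by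
  refine ⟨h, ?_⟩
  rw [← Set.range_eq_univ, ← (NonUnitalStarAlgHom.isometry φ h).isClosedEmbedding.isClosed_range.closure_eq]
  exact hd.closure_range

theorem graph_fst (Γ : StarSubalgebra ℂ (A × C)) (hn : ∀ z ∈ Γ, ‖z.2‖ ≤ ‖z.1‖)
    (hd : Dense (Prod.fst '' (Γ : Set (A × C)))) :
    Function.Bijective ((StarAlgHom.fst ℂ A C).comp Γ.topologicalClosure.subtype) := by
  have hc : IsClosed (Γ.topologicalClosure : Set (A × C)) := isClosed_closure
  refine bij_of_dense _ ((injective_iff_map_eq_zero _).2 fun z hz => ?_) (hd.mono ?_)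
  · have h1 : z.1 ∈ {z : A × C | ‖z.2‖ ≤ ‖z.1‖} :=
      closure_minimal hn (isClosed_le continuous_snd.norm continuous_fst.norm) z.2
    have h2 : z.1.1 = 0 := hz
    rw [Set.mem_setOf_eq, h2, norm_zero, norm_le_zero_iff] at h1
    exact Subtype.ext (Prod.ext h2 h1)
  · rintro _ ⟨z, hz, rfl⟩
    exact ⟨⟨z, subset_closure hz⟩, rfl⟩

theorem graph_snd (Γ : StarSubalgebra ℂ (A × C)) (hn : ∀ z ∈ Γ, ‖z.1‖ ≤ ‖z.2‖)
    (hd : Dense (Prod.snd '' (Γ : Set (A × C)))) :
    Function.Bijective ((StarAlgHom.snd ℂ A C).comp Γ.topologicalClosure.subtype) := by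
  have hc : IsClosed (Γ.topologicalClosure : Set (A × C)) := isClosed_closure
  refine bij_of_dense _ ((injective_iff_map_eq_zero _).2 fun z hz => ?_) (hd.mono ?_)
  · have h1 : z.1 ∈ {z : A × C | ‖z.1‖ ≤ ‖z.2‖} :=
      closure_minimal hn (isClosed_le continuous_fst.norm continuous_snd.norm) z.2
    have h2 : z.1.2 = 0 := hz
    rw [Set.mem_setOf_eq, h2, norm_zero, norm_le_zero_iff] at h1
    exact Subtype.ext (Prod.ext h1 h2)
  · rintro _ ⟨z, hz, rfl⟩
    exact ⟨⟨z, subset_closure hz⟩, rfl⟩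

theorem graph_ext (Γ : StarSubalgebra ℂ (A × C)) (hn : ∀ z ∈ Γ, ‖z.2‖ ≤ ‖z.1‖)
    (hd : Dense (Prod.fst '' (Γ : Set (A × C)))) : ∃ Θ : A →⋆ₐ[ℂ] C, ∀ z ∈ Γ, Θ z.1 = z.2 := by
  let e := StarAlgEquiv.ofBijective _ (graph_fst Γ hn hd)
  refine ⟨((StarAlgHom.snd ℂ A C).comp Γ.topologicalClosure.subtype).comp (e.symm : A →⋆ₐ[ℂ] _),
    fun z hz => ?_⟩
  have : e.symm z.1 = ⟨z, subset_closure hz⟩ := e.symm_apply_eq.2 rfl
  change (e.symm z.1).1.2 = z.2
  rw [this]

theorem graph_iso (Γ : StarSubalgebra ℂ (A × C)) (hn : ∀ z ∈ Γ, ‖z.2‖ = ‖z.1‖)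
    (hd : Dense (Prod.fst '' (Γ : Set (A × C)))) (hd' : Dense (Prod.snd '' (Γ : Set (A × C)))) :
    Nonempty (A ≃⋆ₐ[ℂ] C) :=
  ⟨(StarAlgEquiv.ofBijective _ (graph_fst Γ (fun z hz => (hn z hz).le) hd)).symm.trans
    (StarAlgEquiv.ofBijective _ (graph_snd Γ (fun z hz => (hn z hz).ge) hd'))⟩

theorem norm_conj (u : unitary C) (x : C) : ‖(u : C) * x * star (u : C)‖ = ‖x‖ := by
  rw [← Unitary.coe_star, CStarRing.norm_mul_coe_unitary, CStarRing.norm_coe_unitary_mul]

theorem norm_conj' (u : unitary C) (x : C) : ‖star (u : C) * x * (u : C)‖ = ‖x‖ := by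
  simpa using norm_conj (star u) x

/-- Almost central unitaries that conjugate finite sets almost into `B`. -/
def Good {A C C' : Type*} [CStarAlgebra C'] (n : A → C') (y : C → C') (B : Set C') : Prop :=
  ∀ (s : Finset A) (t : Finset C) (ε : ℝ), 0 < ε → ∃ u : unitary C',
    (∀ a ∈ s, ‖(u : C') * n a - n a * u‖ < ε) ∧
      ∀ c ∈ t, ∃ b ∈ B, ‖star (u : C') * y c * u - b‖ < ε

theorem intertwine [TopologicalSpace.SeparableSpace A] [TopologicalSpace.SeparableSpace C]
    (i : A →⋆ₐ[ℂ] C) (hi : Function.Injective i) (h : Good i id (Set.range i)) :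
    Nonempty (A ≃⋆ₐ[ℂ] C) := by
  classical
  let a := TopologicalSpace.denseSeq A
  let c := TopologicalSpace.denseSeq C
  let ε : ℕ → ℝ := fun n => 1 / 2 ^ n
  have hε : ∀ n, 0 < ε n := fun n => by positivity
  have step : ∀ (n : ℕ) (p : unitary C × Finset A), ∃ q : unitary C × Finset A,
      p.2 ⊆ q.2 ∧ a n ∈ q.2 ∧
      (∀ x ∈ p.2, ‖(q.1 : C) * i x * star (q.1 : C) - (p.1 : C) * i x * star (p.1 : C)‖ ≤ ε n) ∧
      ∀ j ≤ n, ∃ x ∈ q.2, ‖c j - (q.1 : C) * i x * star (q.1 : C)‖ ≤ ε n := by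
    rintro n ⟨V, s⟩
    obtain ⟨u, h1, h2⟩ := h s ((Finset.range (n + 1)).image fun j => star (V : C) * c j * V)
      (ε n) (hε n)
    choose b hb hb' using fun j : Finset.range (n + 1) =>
      h2 _ (Finset.mem_image_of_mem _ j.2)
    choose x hx using hb
    refine ⟨(V * u, insert (a n) (s ∪ Finset.univ.image x)), ?_, ?_, fun z hz => ?_,
      fun j hj => ⟨x ⟨j, Finset.mem_range.2 (by omega)⟩, by simp, ?_⟩⟩
    · exact fun z hz => by simp [hz]
    · simp
    · have e : ((V * u : unitary C) : C) * i z * star ((V * u : unitary C) : C)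
          - (V : C) * i z * star (V : C)
          = V * (((u : C) * i z - i z * u) * star (u : C)) * star (V : C) := by
        simp only [Submonoid.coe_mul, star_mul, sub_mul, mul_sub, mul_assoc,
          Unitary.mul_star_self_of_mem u.2, mul_one]
      rw [e, norm_conj, ← Unitary.coe_star, CStarRing.norm_mul_coe_unitary]
      exact (h1 z hz).le
    · have := hb' ⟨j, Finset.mem_range.2 (by omega)⟩
      rw [← hx, ← norm_conj (V * u)] at this
      refine le_of_eq_of_le (congrArg norm ?_) this.le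
      simp only [Submonoid.coe_mul, star_mul, sub_mul, mul_sub, mul_assoc, id]
      simp only [← mul_assoc (u : C) (star (u : C)), ← mul_assoc (V : C) (star (V : C)),
        Unitary.mul_star_self_of_mem u.2, Unitary.mul_star_self_of_mem V.2, mul_one, one_mul]
  choose g g1 g2 g3 g4 using step
  let p : ℕ → unitary C × Finset A := fun n => Nat.rec (1, ∅) (fun n r => g n r) n
  have mono : Monotone fun n => (p n).2 := monotone_nat_of_le_succ fun n => g1 n (p n)
  let f : A → ℕ → C := fun x n => ((p n).1 : C) * i x * star ((p n).1 : C)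
  have lim : ∀ m, ∀ x ∈ (p m).2, ∃ l, Tendsto (f x) atTop (𝓝 l) ∧ ‖f x m - l‖ ≤ 2 * ε m := by
    intro m x hx
    have hd : ∀ n, dist (f x (n + m)) (f x (n + 1 + m)) ≤ (2 * ε m) / 2 / 2 ^ n := by
      intro n
      rw [dist_comm, dist_eq_norm, add_right_comm]
      refine (g3 (n + m) (p (n + m)) x (mono (Nat.le_add_left _ _) hx)).trans (le_of_eq ?_)
      simp only [ε]
      field_simp
      ring
    obtain ⟨l, hl⟩ := cauchySeq_tendsto_of_complete (cauchySeq_of_le_geometric_two hd)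
    refine ⟨l, (tendsto_add_atTop_iff_nat m).1 hl, ?_⟩
    have := dist_le_of_le_geometric_two_of_tendsto₀ hd hl
    rwa [zero_add, dist_eq_norm] at this
  let Γ : StarSubalgebra ℂ (A × C) :=
    { carrier := {z | Tendsto (f z.1) atTop (𝓝 z.2)}
      mul_mem' := fun {z w} hz hw => by
        refine (Tendsto.mul hz hw).congr fun n => ?_
        simp only [f, Prod.fst_mul, map_mul, mul_assoc]
        rw [← mul_assoc (star _), Unitary.star_mul_self_of_mem (p n).1.2, one_mul]
      add_mem' := fun {z w} hz hw => by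
        refine (Tendsto.add hz hw).congr fun n => ?_
        simp only [f, Prod.fst_add, map_add, mul_add, add_mul]
      algebraMap_mem' := fun r => by
        refine tendsto_const_nhds.congr fun n => ?_
        simp [f, Algebra.algebraMap_eq_smul_one, Unitary.mul_star_self_of_mem (p n).1.2]
      star_mem' := fun {z} hz => by
        refine (Tendsto.star hz).congr fun n => ?_
        simp [f, map_star, mul_assoc] }
  refine graph_iso Γ (fun z hz => ?_) ?_ ?_
  · have h1 := Tendsto.norm hz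
    simp only [f, norm_conj, NonUnitalStarAlgHom.norm_map i hi] at h1
    exact tendsto_nhds_unique h1 tendsto_const_nhds
  · refine (TopologicalSpace.denseRange_denseSeq A).mono ?_
    rintro _ ⟨n, rfl⟩
    obtain ⟨l, hl, -⟩ := lim (n + 1) _ (g2 n (p n))
    exact ⟨(_, l), hl, rfl⟩
  · refine Dense.of_closure ((TopologicalSpace.denseRange_denseSeq C).mono ?_)
    rintro _ ⟨j, rfl⟩
    rw [Metric.mem_closure_iff]
    intro δ hδ
    have hε' : Tendsto ε atTop (𝓝 0) := by
      simp only [ε, one_div]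
      exact tendsto_inv_atTop_zero.comp (tendsto_pow_atTop_atTop_of_one_lt one_lt_two)
    obtain ⟨n, hn, hn'⟩ := ((eventually_ge_atTop j).and
      (hε'.eventually (gt_mem_nhds (half_pos hδ)))).exists
    obtain ⟨x, hx, hx'⟩ := g4 n (p n) j hn
    obtain ⟨l, hl, hl'⟩ := lim (n + 1) x hx
    refine ⟨l, ⟨(x, l), hl, rfl⟩, ?_⟩
    have e : 2 * ε (n + 1) = ε n := by simp only [ε]; field_simp; ring
    rw [dist_eq_norm]
    have := norm_add_le (c j - f x (n + 1)) (f x (n + 1) - l)
    rw [sub_add_sub_cancel] at this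
    change ‖c j - f x (n + 1)‖ ≤ _ at hx'
    change ‖c j - l‖ < δ
    linarith

end Vale.Agent.P101
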