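import Vale.Agent.P101.Vec

/-! Order zero systems and their join. -/

set_option linter.unusedSectionVars false
set_option linter.unusedSimpArgs false

namespace Vale.Agent.P101

/-- An order zero system of matrix units with support element `r`. -/
structure OZ {E ι : Type*} [Ring E] [StarRing E] [Fintype ι] [DecidableEq ι] (R : ι → ι → E)
    (r : E) : Prop where
  adj : ∀ i j, star (R i j) = R j i
  mul : ∀ i j l n, R i j * R l n = if j = l then r * R i n else 0
  sum : ∑ i, R i i = r

section Alg
variable {E ι : Type*} [Ring E] [StarRing E] [Fintype ι] [DecidableEq ι]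

theorem OZ.comm {R : ι → ι → E} {r : E} (h : OZ R r) (i j : ι) : Commute r (R i j) := by
  change r * R i j = R i j * r
  nth_rewrite 2 [← h.sum]
  simp [Finset.mul_sum, h.mul]

theorem OZ.sa {R : ι → ι → E} {r : E} (h : OZ R r) : IsSelfAdjoint r := by
  rw [← h.sum, IsSelfAdjoint, star_sum]
  simp [h.adj]

theorem Vec.oz {x : ι → E} {y : E} (h : Vec x y) :
    OZ (fun i j => x i * star (x j)) (∑ a, x a * star (x a)) where
  adj i j := by simp
  mul i j l n := by
    have h1 : (∑ a, x a * star (x a)) * (x i * star (x n)) = x i * (y * star (x n)) := by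
      rw [Finset.sum_mul, Finset.sum_eq_single i]
      · rw [mul_assoc, ← mul_assoc (star _), h, if_pos rfl]
      · intro a _ ha
        rw [mul_assoc, ← mul_assoc (star _), h, if_neg ha, zero_mul, mul_zero]
      · simp
    rw [h1, mul_assoc, ← mul_assoc (star _), h]
    split_ifs <;> simp
  sum := rfl

variable [Algebra ℂ E] [StarModule ℂ E]

/-- The join of two commuting order zero systems. -/
noncomputable def ozJoin (R R' : ι → ι → E) (r r' m : E) (i j : ι) : E :=
  r * R i j + m * (m * (r' * R' i j))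
    + Complex.I • (m * (∑ a, R a j * R' i a - ∑ b, R i b * R' b j))

theorem OZ.join {R R' : ι → ι → E} {r r' m : E} (h : OZ R r) (h' : OZ R' r')
    (c : ∀ i j l n, Commute (R i j) (R' l n)) (cm : ∀ i j, Commute m (R i j))
    (cm' : ∀ i j, Commute m (R' i j)) (sm : IsSelfAdjoint m) :
    OZ (ozJoin R R' r r' m) (r * r + m * (m * (r' * r'))) := by
  have c1 : ∀ i j, Commute r (R' i j) := fun i j => by
    rw [← h.sum]; exact Commute.sum_left _ _ _ fun a _ => c _ _ _ _
  have c2 : ∀ i j, Commute r' (R i j) := fun i j => by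
    rw [← h'.sum]; exact Commute.sum_left _ _ _ fun a _ => (c _ _ _ _).symm
  have c3 : Commute r r' := by
    rw [← h'.sum]; exact Commute.sum_right _ _ _ fun a _ => c1 _ _
  have c4 : Commute m r := by
    rw [← h.sum]; exact Commute.sum_right _ _ _ fun a _ => cm _ _
  have c5 : Commute m r' := by
    rw [← h'.sum]; exact Commute.sum_right _ _ _ fun a _ => cm' _ _
  let P : ι → ι → E := fun i j => ∑ a, R a j * R' i a
  let Q : ι → ι → E := fun i j => ∑ b, R i b * R' b j
  have cP : ∀ z, (∀ i j, Commute z (R i j)) → (∀ i j, Commute z (R' i j)) →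
      ∀ i j, Commute z (P i j) := fun z a1 a2 i j =>
    Commute.sum_right _ _ _ fun a _ => (a1 _ _).mul_right (a2 _ _)
  have cQ : ∀ z, (∀ i j, Commute z (R i j)) → (∀ i j, Commute z (R' i j)) →
      ∀ i j, Commute z (Q i j) := fun z a1 a2 i j =>
    Commute.sum_right _ _ _ fun a _ => (a1 _ _).mul_right (a2 _ _)
  have m1 : ∀ i j l n x, R i j * (R l n * x) = if j = l then r * (R i n * x) else 0 := by
    intro i j l n x
    rw [← mul_assoc, h.mul]; split_ifs <;> simp [mul_assoc]
  have RP : ∀ i j l n, R i j * P l n = r * (R i n * R' l j) := by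
    intro i j l n
    simp [P, Finset.mul_sum, m1]
  have RQ : ∀ i j l n, R i j * Q l n = if j = l then r * Q i n else 0 := by
    intro i j l n
    simp only [Q, Finset.mul_sum, m1]
    split_ifs <;> simp
  have PR : ∀ i j l n, P i j * R l n = if j = l then r * P i n else 0 := by
    intro i j l n
    simp only [P, Finset.mul_sum, Finset.sum_mul, mul_assoc, ← (c _ _ _ _).eq, m1]
    split_ifs <;> simp
  have QR : ∀ i j l n, Q i j * R l n = r * (R i n * R' l j) := by
    intro i j l n
    simp [Q, Finset.sum_mul, mul_assoc, ← (c _ _ _ _).eq, m1]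
  have R'P : ∀ i j l n, R' i j * P l n = if j = l then r' * P i n else 0 := by
    intro i j l n
    simp only [P, Finset.mul_sum, ← (c _ _ _ _).left_comm, h'.mul]
    split_ifs <;> simp [(c2 _ _).left_comm]
  have R'Q : ∀ i j l n, R' i j * Q l n = r' * (R l j * R' i n) := by
    intro i j l n
    simp [Q, Finset.mul_sum, ← (c _ _ _ _).left_comm, h'.mul, (c2 _ _).left_comm]
  have PR' : ∀ i j l n, P i j * R' l n = r' * (R l j * R' i n) := by
    intro i j l n
    simp [P, Finset.sum_mul, mul_assoc, h'.mul, (c2 _ _).left_comm]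
  have QR' : ∀ i j l n, Q i j * R' l n = if j = l then r' * Q i n else 0 := by
    intro i j l n
    simp only [Q, Finset.mul_sum, Finset.sum_mul, mul_assoc, h'.mul]
    split_ifs <;> simp [(c2 _ _).left_comm]
  have PP : ∀ i j l n, P i j * P l n = r * (r' * (R l n * R' i j)) := by
    intro i j l n
    have : P i j * P l n = ∑ b, P i j * R b n * R' l b := by
      simp only [P, Finset.mul_sum (f := fun b => R b n * R' l b), mul_assoc]
    simp [this, PR, mul_assoc, PR']
  have QQ : ∀ i j l n, Q i j * Q l n = r * (r' * (R i j * R' l n)) := by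
    intro i j l n
    have : Q i j * Q l n = ∑ b, Q i j * R l b * R' b n := by
      simp only [Q, Finset.mul_sum (f := fun b => R l b * R' b n), mul_assoc]
    simp [this, QR, mul_assoc, h'.mul, (c2 _ _).left_comm]
  have PQ : ∀ i j l n, P i j * Q l n = if j = l then r * (r * (r' * R' i n)) else 0 := by
    intro i j l n
    have : P i j * Q l n = ∑ b, P i j * R l b * R' b n := by
      simp only [Q, Finset.mul_sum (f := fun b => R l b * R' b n), mul_assoc]
    simp only [this, PR]
    split_ifs
    · simp only [mul_assoc, PR', ← Finset.mul_sum, ← Finset.sum_mul, h.sum, c3.left_comm]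
    · simp
  have QP : ∀ i j l n, Q i j * P l n = if j = l then r * (r' * (r' * R i n)) else 0 := by
    intro i j l n
    have : Q i j * P l n = ∑ b, Q i j * R b n * R' l b := by
      simp only [P, Finset.mul_sum (f := fun b => R b n * R' l b), mul_assoc]
    simp only [this, QR, mul_assoc, h'.mul]
    split_ifs
    · simp only [← Finset.mul_sum, h'.sum, ← (c2 _ _).eq, ← (c2 _ _).left_comm]
    · simp
  refine ⟨fun i j => ?_, fun i j l n => ?_, ?_⟩
  · have s1 : star (P i j) = Q j i := by
      simp only [P, Q, star_sum, star_mul, h.adj, h'.adj, (c _ _ _ _).eq]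
    have s2 : star (Q i j) = P j i := by
      simp only [P, Q, star_sum, star_mul, h.adj, h'.adj, (c _ _ _ _).eq]
    change star (r * R i j + m * (m * (r' * R' i j)) + Complex.I • (m * (P i j - Q i j)))
      = r * R j i + m * (m * (r' * R' j i)) + Complex.I • (m * (P j i - Q j i))
    have s3 : star (m * (m * (r' * R' i j))) = m * (m * (r' * R' j i)) := by
      simp only [star_mul, h'.adj, h'.sa.star_eq, sm.star_eq]
      rw [← (h'.comm _ _).eq, ← (c5.mul_right (cm' _ _)).eq,
        ← ((Commute.refl m).mul_right (c5.mul_right (cm' _ _))).eq]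
    rw [star_add, star_add, s3]
    simp only [star_smul, star_mul, star_sub, s1, s2, h.adj, h.sa.star_eq,
      sm.star_eq, sub_mul, mul_sub, ← (h.comm _ _).eq, ← (cP m cm cm' _ _).eq,
      ← (cQ m cm cm' _ _).eq, Complex.star_def, Complex.conj_I]
    module
  · change (r * R i j + m * (m * (r' * R' i j)) + Complex.I • (m * (P i j - Q i j)))
      * (r * R l n + m * (m * (r' * R' l n)) + Complex.I • (m * (P l n - Q l n)))
      = if j = l then (r * r + m * (m * (r' * r')))
        * (r * R i n + m * (m * (r' * R' i n)) + Complex.I • (m * (P i n - Q i n))) else 0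
    simp only [mul_add, add_mul, mul_sub, sub_mul, mul_smul_comm, smul_mul_assoc, mul_assoc,
      smul_sub, smul_add, smul_smul, Complex.I_mul_I,
      ← (h.comm _ _).left_comm, ← (h'.comm _ _).left_comm, ← (c1 _ _).left_comm,
      ← (c2 _ _).left_comm, ← (cm _ _).left_comm, ← (cm' _ _).left_comm,
      ← (cP m cm cm' _ _).left_comm, ← (cQ m cm cm' _ _).left_comm,
      ← (cP r h.comm c1 _ _).left_comm, ← (cQ r h.comm c1 _ _).left_comm,
      ← (cP r' c2 h'.comm _ _).left_comm, ← (cQ r' c2 h'.comm _ _).left_comm,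
      ← (c _ _ _ _).eq, h.mul, h'.mul, RP, RQ, PR, QR, R'P, R'Q, PR', QR', PP, QQ, PQ, QP]
    split_ifs
    · simp only [← c3.left_comm, c4.left_comm, c5.left_comm]
      module
    · simp only [← c3.left_comm, c4.left_comm, c5.left_comm, mul_zero]
      module
  · simp only [ozJoin, Finset.sum_add_distrib, ← Finset.mul_sum, ← Finset.smul_sum, h.sum, h'.sum,
      Finset.sum_sub_distrib]
    rw [Finset.sum_comm, sub_self, mul_zero, smul_zero, add_zero]

theorem OZ.map {F : Type*} [Ring F] [StarRing F] [Algebra ℂ F] {R : ι → ι → E} {r : E} (h : OZ R r)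
    (φ : E →⋆ₐ[ℂ] F) : OZ (fun i j => φ (R i j)) (φ r) where
  adj i j := by rw [← map_star, h.adj]
  mul i j l n := by rw [← map_mul, h.mul]; split_ifs <;> simp
  sum := by rw [← map_sum, h.sum]

end Alg

variable {G : Type*} [CStarAlgebra G] [PartialOrder G] [StarOrderedRing G]

/-- The product of the first `n` shifts. -/
def tpow (S : G →⋆ₐ[ℂ] G) (c : G) : ℕ → G
  | 0 => 1
  | n + 1 => c * S (tpow S c n)

theorem map_nonneg' (S : G →⋆ₐ[ℂ] G) {a : G} (ha : 0 ≤ a) : 0 ≤ S a := by
  obtain ⟨b, rfl⟩ := CStarAlgebra.nonneg_iff_eq_star_mul_self.1 ha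
  rw [map_mul, map_star]
  exact star_mul_self_nonneg _

theorem map_le' (S : G →⋆ₐ[ℂ] G) {a b : G} (h : a ≤ b) : S a ≤ S b := by
  rw [← sub_nonneg, ← map_sub]
  exact map_nonneg' S (sub_nonneg.2 h)

theorem tpow_nonneg (S : G →⋆ₐ[ℂ] G) {c : G} (hc : 0 ≤ c) (cc : ∀ b, Commute c (S b)) (n : ℕ) :
    0 ≤ tpow S c n := by
  induction n with
  | zero => exact zero_le_one
  | succ n ih => exact Commute.mul_nonneg hc (map_nonneg' S ih) (cc _)

theorem map_rsmul (S : G →⋆ₐ[ℂ] G) (t : ℝ) (a : G) : S (t • a) = t • S a := by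
  rw [← Complex.coe_smul, map_smul, Complex.coe_smul]

theorem iter_join {ι : Type*} [Fintype ι] [DecidableEq ι] (S : G →⋆ₐ[ℂ] G) {R : ι → ι → G} {r : G}
    (h : OZ R r) (r0 : 0 ≤ r) (r1 : r ≤ 1) (cR : ∀ i j b, Commute (R i j) (S b)) (i₀ : ι) (n : ℕ) :
    ∃ (E : ι → ι → G) (e : G), OZ E e ∧ 0 ≤ e ∧ e ≤ 1 ∧
      1 - e ≤ (4 : ℝ) ^ n • tpow S (1 - r) (n + 1) ∧ ∀ W, R i₀ i₀ * W = W → E i₀ i₀ * W = W := by
  have cr : ∀ b, Commute r (S b) := fun b => by
    rw [← h.sum]; exact Commute.sum_left _ _ _ fun a _ => cR _ _ _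
  have sq : ∀ {e : G}, 0 ≤ e → e ≤ 1 → 0 ≤ 1 - e * e ∧ 1 - e * e ≤ (2 : ℝ) • (1 - e) := by
    intro e e0 e1
    constructor
    · have := Commute.mul_nonneg (sub_nonneg.2 e1) (add_nonneg zero_le_one e0)
        ((Commute.one_left _).sub_left ((Commute.one_right _).add_right (Commute.refl e)))
      convert this using 1
      noncomm_ring
    · have := star_mul_self_nonneg (1 - e)
      rw [star_sub, star_one, e0.isSelfAdjoint.star_eq] at this
      rw [← sub_nonneg]
      convert this using 1
      simp only [mul_sub, sub_mul, mul_one, one_mul]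
      module
  have sr := h.sa
  set m := cfc (fun t : ℝ => √t) (1 - r * r) with hm
  have sm : IsSelfAdjoint m := cfc_predicate _ _
  have mm : m * m = 1 - r * r := by
    have := (sq r0 r1).1
    rw [hm, ← cfc_mul _ _ (1 - r * r)]
    nth_rewrite 2 [← cfc_id' ℝ (1 - r * r)]
    exact cfc_congr fun t ht => Real.mul_self_sqrt (spectrum_nonneg_of_nonneg this ht)
  have cm : ∀ z, Commute r z → Commute m z := fun z hz =>
    Commute.cfc_real ((Commute.one_left _).sub_left (hz.mul_left hz)) _
  induction n with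
  | zero => exact ⟨R, r, h, r0, r1, by simp [tpow], fun W hW => hW⟩
  | succ n ih =>
    obtain ⟨E, e, hE, e0, e1, hle, -⟩ := ih
    have hJ := h.join (hE.map S) (fun i j l n => cR _ _ _) (fun i j => cm _ (h.comm i j))
      (fun i j => cm _ (cr _)) sm
    have q0 := map_nonneg' S e0
    have q1 : S e ≤ 1 := by simpa using map_le' S e1
    have id1 : 1 - (r * r + m * (m * (S e * S e))) = (1 - r * r) * (1 - S e * S e) := by
      rw [← mul_assoc, mm]; noncomm_ring
    have cc : ∀ b, Commute (1 - r * r) (S b) := fun b =>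
      (Commute.one_left _).sub_left ((cr b).mul_left (cr b))
    have cc' : ∀ b, Commute (1 - r) (S b) := fun b => (Commute.one_left _).sub_left (cr b)
    have id2 : 1 - S e * S e = S (1 - e * e) := by simp
    refine ⟨_, _, hJ, add_nonneg (Commute.mul_nonneg r0 r0 (Commute.refl _)) ?_, ?_, ?_, ?_⟩
    · have := star_mul_self_nonneg (S e * m)
      rwa [star_mul, sm.star_eq, q0.isSelfAdjoint.star_eq, mul_assoc, ← mul_assoc (S e), ← map_mul,
        ← (cm _ (cr _)).eq, map_mul] at this
    · rw [← sub_nonneg, id1, id2]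
      exact Commute.mul_nonneg (sq r0 r1).1 (map_nonneg' S (sq e0 e1).1) (cc _)
    · rw [id1, id2]
      have a1 := Commute.mul_nonneg (sub_nonneg.2 (sq r0 r1).2) (map_nonneg' S (sq e0 e1).1)
        (((cc' _).smul_left _).sub_left (cc _))
      have a2 := Commute.mul_nonneg (sub_nonneg.2 r1) (map_nonneg' S (add_nonneg
        (sub_nonneg.2 (sq e0 e1).2) (smul_nonneg (zero_le_two (α := ℝ)) (sub_nonneg.2 hle))))
        (cc' _)
      have a3 := add_nonneg a1 (smul_nonneg (zero_le_two (α := ℝ)) a2)
      rw [← sub_nonneg]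
      convert a3 using 1
      rw [tpow]
      simp only [map_add, map_sub (S), map_rsmul, mul_add, mul_sub, sub_mul, mul_smul_comm,
        smul_mul_assoc, smul_sub, smul_add, pow_succ]
      module
    · intro W hW
      have w1 : r * W = W := by
        have := congrArg (R i₀ i₀ * ·) hW
        simp only [← mul_assoc, h.mul, if_true] at this
        rwa [mul_assoc, hW] at this
      have w2 : m * W = 0 := by
        rw [← CStarRing.star_mul_self_eq_zero_iff, star_mul, sm.star_eq, mul_assoc, ← mul_assoc m,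
          mm, sub_mul, mul_assoc, w1, w1, one_mul, sub_self, mul_zero]
      have w3 : ∀ z, Commute m z → m * z * W = 0 := fun z hz => by
        rw [hz.eq, mul_assoc, w2, mul_zero]
      rw [ozJoin, add_mul, add_mul, smul_mul_assoc, mul_assoc r, hW, w1, w3, w3]
      · simp
      · exact (Commute.sum_right _ _ _ fun a _ =>
          (cm _ (h.comm _ _)).mul_right (cm _ (cr _))).sub_right
          (Commute.sum_right _ _ _ fun a _ => (cm _ (h.comm _ _)).mul_right (cm _ (cr _)))
      · exact (Commute.refl m).mul_right ((cm _ (cr _)).mul_right (cm _ (cr _)))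

end Vale.Agent.P101
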