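import Vale.Agent.P101.Defs

/-! Quotients of C*-algebras by closed two-sided ideals, and simple quotients. -/

set_option linter.unusedSectionVars false

namespace Vale.Agent.P101

open Filter Topology

universe u

section Approx
variable {E : Type u} [CStarAlgebra E]

theorem abs_le_of_abs_le {a b : ℝ} (h : a * a ≤ b * b) (hb : 0 ≤ b) : a ≤ b := by
  nlinarith

/-- An approximate unit element for one element of a left ideal. -/
theorem exists_approx (I : Ideal E) [I.IsTwoSided] {y : E} (hy : y ∈ I) {ε : ℝ} (hε : 0 < ε) :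
    ∃ e ∈ I, IsSelfAdjoint e ∧ ‖1 - e‖ ≤ 1 ∧ ‖y * (1 - e)‖ ≤ ε := by
  let _ := CStarAlgebra.spectralOrder E
  have := CStarAlgebra.spectralOrderedRing E
  set a := star y * y with ha
  have ha0 : 0 ≤ a := star_mul_self_nonneg y
  have hsa : IsSelfAdjoint a := ha0.isSelfAdjoint
  have hδ : 0 < ε ^ 2 := by positivity
  have hc : ContinuousOn (fun t : ℝ => (ε ^ 2 + t)⁻¹) (spectrum ℝ a) := by
    refine ContinuousOn.inv₀ (by fun_prop) fun t ht => ?_
    have := spectrum_nonneg_of_nonneg ha0 ht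
    positivity
  have h1 : (1 : E) - cfc (fun t : ℝ => (ε ^ 2 + t)⁻¹) a * a
      = cfc (fun t : ℝ => ε ^ 2 * (ε ^ 2 + t)⁻¹) a := by
    have : cfc (fun t : ℝ => ε ^ 2 * (ε ^ 2 + t)⁻¹) a
        = cfc (fun t : ℝ => 1 - (ε ^ 2 + t)⁻¹ * t) a := by
      refine cfc_congr fun t ht => ?_
      have := spectrum_nonneg_of_nonneg ha0 ht
      field_simp
      ring
    rw [this, cfc_sub (fun _ => 1) (fun t : ℝ => (ε ^ 2 + t)⁻¹ * t) a (by fun_prop)
      (hc.mul continuousOn_id), cfc_const_one ℝ a,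
      cfc_mul _ (fun t => t) a hc continuousOn_id, cfc_id' ℝ a]
  refine ⟨cfc (fun t : ℝ => (ε ^ 2 + t)⁻¹) a * a, I.mul_mem_left _ (I.mul_mem_left _ hy), ?_, ?_, ?_⟩
  · have : cfc (fun t : ℝ => (ε ^ 2 + t)⁻¹) a * a = cfc (fun t : ℝ => (ε ^ 2 + t)⁻¹ * t) a := by
      rw [cfc_mul _ (fun t => t) a hc continuousOn_id, cfc_id' ℝ a]
    rw [this]
    exact cfc_predicate _ _
  · rw [h1]
    refine norm_cfc_le zero_le_one fun t ht => ?_
    have := spectrum_nonneg_of_nonneg ha0 ht
    rw [Real.norm_of_nonneg (by positivity), ← div_eq_mul_inv, div_le_one (by positivity)]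
    linarith
  · rw [h1]
    set g := cfc (fun t : ℝ => ε ^ 2 * (ε ^ 2 + t)⁻¹) a with hg
    have hgs : IsSelfAdjoint g := cfc_predicate _ _
    have hc2 : ContinuousOn (fun t : ℝ => ε ^ 2 * (ε ^ 2 + t)⁻¹) (spectrum ℝ a) :=
      continuousOn_const.mul hc
    have h2 : star (y * g) * (y * g)
        = cfc (fun t : ℝ => (ε ^ 2 * (ε ^ 2 + t)⁻¹) * t * (ε ^ 2 * (ε ^ 2 + t)⁻¹)) a := by
      rw [cfc_mul (fun t : ℝ => (ε ^ 2 * (ε ^ 2 + t)⁻¹) * t) _ a (hc2.mul continuousOn_id) hc2,
        cfc_mul _ (fun t => t) a hc2 continuousOn_id,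
        cfc_id' ℝ a, star_mul, hgs.star_eq, ← hg, ha]
      simp only [mul_assoc]
    have h3 : ‖y * g‖ * ‖y * g‖ ≤ ε * ε := by
      rw [← CStarRing.norm_star_mul_self, h2]
      refine norm_cfc_le (by positivity) fun t ht => ?_
      have := spectrum_nonneg_of_nonneg ha0 ht
      rw [Real.norm_of_nonneg (by positivity)]
      have h4 : ε ^ 2 * (ε ^ 2 + t)⁻¹ ≤ 1 := by
        rw [← div_eq_mul_inv, div_le_one (by positivity)]; linarith
      have h5 : (ε ^ 2 + t)⁻¹ * t ≤ 1 := by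
        rw [inv_mul_le_iff₀ (by positivity)]; linarith
      calc ε ^ 2 * (ε ^ 2 + t)⁻¹ * t * (ε ^ 2 * (ε ^ 2 + t)⁻¹)
          = ε ^ 2 * ((ε ^ 2 + t)⁻¹ * t) * (ε ^ 2 * (ε ^ 2 + t)⁻¹) := by ring
        _ ≤ ε ^ 2 * 1 * 1 := by gcongr
        _ = ε * ε := by ring
    exact abs_le_of_abs_le h3 hε.le

theorem starIdeal_of_closed (I : Ideal E) [h2 : I.IsTwoSided] (hI : IsClosed (I : Set E)) :
    StarIdeal I where
  toIsTwoSided := h2
  star_mem y hy := by
    refine hI.closure_subset (Metric.mem_closure_iff.2 fun ε hε => ?_)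
    obtain ⟨e, he, hs, -, h⟩ := exists_approx I hy (half_pos hε)
    refine ⟨e * star y, I.mul_mem_right _ he, ?_⟩
    rw [dist_eq_norm, ← norm_star]
    have : star (star y - e * star y) = y * (1 - e) := by
      simp [hs.star_eq, mul_sub]
    rw [this]
    linarith

variable (I : Ideal E) [StarIdeal I] [hI : IsClosed (I : Set E)]

theorem q_norm_mk_le (a : E) : ‖Ideal.Quotient.mk I a‖ ≤ ‖a‖ :=
  Submodule.Quotient.norm_mk_le I a

theorem q_norm_mk_lt (x : E ⧸ I) {ε : ℝ} (hε : 0 < ε) :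
    ∃ r : E, Ideal.Quotient.mk I r = x ∧ ‖r‖ < ‖x‖ + ε :=
  Submodule.Quotient.norm_mk_lt x hε

noncomputable instance quotNormedRing : NormedRing (E ⧸ I) :=
  { Ideal.Quotient.ring I, Submodule.Quotient.normedAddCommGroup I with
    norm_mul_le := fun x y => le_of_forall_pos_le_add fun ε hε => by
      have := ((Metric.nhds_basis_ball.prod_nhds Metric.nhds_basis_ball).tendsto_iff
        Metric.nhds_basis_ball).mp (continuous_mul.tendsto (‖x‖, ‖y‖)) ε hε
      simp only [Set.mem_prod, Metric.mem_ball, and_imp, Prod.forall, Prod.exists] at this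
      rcases this with ⟨ε₁, ε₂, ⟨h₁, h₂⟩, h⟩
      obtain ⟨⟨a, rfl, ha⟩, ⟨b, rfl, hb⟩⟩ := q_norm_mk_lt I x h₁, q_norm_mk_lt I y h₂
      simp only [dist, abs_sub_lt_iff] at h
      specialize h ‖a‖ ‖b‖ ⟨by linarith, by linarith [q_norm_mk_le I a]⟩
        ⟨by linarith, by linarith [q_norm_mk_le I b]⟩
      calc
        _ ≤ ‖a‖ * ‖b‖ := (q_norm_mk_le I (a * b)).trans (norm_mul_le a b)
        _ ≤ _ := (sub_lt_iff_lt_add'.mp h.1).le }

noncomputable instance quotNormedAlgebra : NormedAlgebra ℂ (E ⧸ I) :=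
  { Submodule.Quotient.normedSpace I ℂ, Ideal.Quotient.algebra ℂ with }

instance quotCStarRing : CStarRing (E ⧸ I) where
  norm_mul_self_le x := by
    refine le_of_forall_pos_le_add fun ε hε => ?_
    obtain ⟨a, rfl⟩ := Ideal.Quotient.mk_surjective x
    obtain ⟨r, hr, hr'⟩ := q_norm_mk_lt I
      (star (Ideal.Quotient.mk I a) * Ideal.Quotient.mk I a) (half_pos hε)
    have hy : star a * a - r ∈ I := by
      rw [← Ideal.Quotient.eq, hr, map_mul, star_mk]
    obtain ⟨e, he, hs, h1, h2⟩ := exists_approx I hy (half_pos hε)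
    have h3 : Ideal.Quotient.mk I a = Ideal.Quotient.mk I (a * (1 - e)) := by
      rw [Ideal.Quotient.eq]
      have : a - a * (1 - e) = a * e := by noncomm_ring
      rw [this]
      exact I.mul_mem_left _ he
    have h4 : ‖Ideal.Quotient.mk I a‖ ≤ ‖a * (1 - e)‖ := h3 ▸ q_norm_mk_le I _
    have h5 : star (a * (1 - e)) * (a * (1 - e))
        = (1 - e) * (r * (1 - e)) + (1 - e) * ((star a * a - r) * (1 - e)) := by
      simp only [star_mul, star_sub, star_one, hs.star_eq]
      noncomm_ring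
    have h6 : ‖a * (1 - e)‖ * ‖a * (1 - e)‖ ≤ ‖r‖ + ε / 2 := by
      rw [← CStarRing.norm_star_mul_self, h5]
      refine (norm_add_le _ _).trans (add_le_add ?_ ?_)
      · calc _ ≤ ‖1 - e‖ * (‖r‖ * ‖1 - e‖) :=
            (norm_mul_le _ _).trans (by gcongr; exact norm_mul_le _ _)
          _ ≤ 1 * (‖r‖ * 1) := by gcongr
          _ = _ := by ring
      · calc _ ≤ ‖1 - e‖ * ‖(star a * a - r) * (1 - e)‖ := norm_mul_le _ _
          _ ≤ 1 * (ε / 2) := by gcongr
          _ = _ := by ring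
    calc _ ≤ ‖a * (1 - e)‖ * ‖a * (1 - e)‖ := by gcongr
      _ ≤ _ := by linarith

noncomputable instance quotCStarAlgebra : CStarAlgebra (E ⧸ I) where

/-- The quotient map as a star algebra homomorphism. -/
noncomputable def mkS : E →⋆ₐ[ℂ] E ⧸ I :=
  { Ideal.Quotient.mkₐ ℂ I with map_star' := fun _ => rfl }

theorem mkS_apply (a : E) : mkS I a = Ideal.Quotient.mk I a := rfl

end Approx

/-- `1` lies in the two-sided ideal generated by `S`. -/
def Full {E : Type*} [Ring E] (S : Set E) : Prop :=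
  (1 : E) ∈ AddSubmonoid.closure {z | ∃ a, ∃ s ∈ S, ∃ b, z = a * s * b}

/-- The two-sided ideal generated by a set. -/
def genIdeal {E : Type*} [Ring E] (S : Set E) : Ideal E where
  toAddSubmonoid := AddSubmonoid.closure {z | ∃ a, ∃ s ∈ S, ∃ b, z = a * s * b}
  smul_mem' c x hx := by
    induction hx using AddSubmonoid.closure_induction with
    | mem z hz =>
      obtain ⟨a, s, hs, b, rfl⟩ := hz
      exact AddSubmonoid.subset_closure ⟨c * a, s, hs, b, by simp [mul_assoc]⟩
    | zero => simp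
    | add x y _ _ hx hy => simpa [mul_add] using add_mem hx hy

instance {E : Type*} [Ring E] (S : Set E) : (genIdeal S).IsTwoSided where
  mul_mem_of_left {x} c hx := by
    induction hx using AddSubmonoid.closure_induction with
    | mem z hz =>
      obtain ⟨a, s, hs, b, rfl⟩ := hz
      exact AddSubmonoid.subset_closure ⟨a, s, hs, b * c, by simp [mul_assoc]⟩
    | zero => simp
    | add x y _ _ hx hy => simpa [add_mul] using add_mem hx hy

theorem subset_genIdeal {E : Type*} [Ring E] {S : Set E} {s : E} (hs : s ∈ S) : s ∈ genIdeal S :=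
  AddSubmonoid.subset_closure ⟨1, s, hs, 1, by simp⟩

theorem genIdeal_le {E : Type*} [Ring E] {S : Set E} {I : Ideal E} [I.IsTwoSided]
    (h : ∀ s ∈ S, s ∈ I) : genIdeal S ≤ I := by
  intro x hx
  induction hx using AddSubmonoid.closure_induction with
  | mem z hz =>
    obtain ⟨a, s, hs, b, rfl⟩ := hz
    exact I.mul_mem_right _ (I.mul_mem_left _ (h s hs))
  | zero => simp
  | add x y _ _ hx hy => exact add_mem hx hy

theorem Full.map {E B : Type*} [Ring E] [Ring B] {S : Set E} (h : Full S) (π : E →+* B)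
    (hπ : ∀ s ∈ S, π s = 0) : (1 : B) = 0 := by
  have : genIdeal S ≤ RingHom.ker π := genIdeal_le hπ
  simpa using this h

theorem Full.mono {E : Type*} [Ring E] {S S' : Set E} (h : Full S)
    (hS : ∀ s ∈ S, s ∈ genIdeal S') : Full S' :=
  genIdeal_le hS h

/-- A set that is not full vanishes in a prime quotient. -/
theorem exists_prime_quot {E : Type u} [CStarAlgebra E] {S : Set E} (hS : ¬ Full S) :
    ∃ (B : Type u) (_ : CStarAlgebra B) (_ : Nontrivial B) (π : E →⋆ₐ[ℂ] B),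
      Function.Surjective π ∧ (∀ s ∈ S, π s = 0) ∧
      ∀ y y' : B, (∀ b, y * b * y' = 0) → y = 0 ∨ y' = 0 := by
  obtain ⟨M, hM0, hM⟩ := zorn_le_nonempty₀ {I : Ideal E | I.IsTwoSided ∧ (1 : E) ∉ I}
    (fun c hc hch I hI => ⟨sSup c, ⟨⟨fun {a} b ha => by
        obtain ⟨J, hJ, hJa⟩ := (Submodule.mem_sSup_of_directed ⟨I, hI⟩ hch.directedOn).1 ha
        have := (hc hJ).1
        exact (le_sSup hJ : J ≤ sSup c) (Ideal.mul_mem_right b J hJa)⟩, fun h1 => by
        obtain ⟨J, hJ, hJa⟩ := (Submodule.mem_sSup_of_directed ⟨I, hI⟩ hch.directedOn).1 h1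
        exact (hc hJ).2 hJa⟩, fun _ hz => le_sSup hz⟩) (genIdeal S) ⟨inferInstance, hS⟩
  have hM2 := hM.prop.1
  have hcl : M.closure = M := by
    refine le_antisymm (hM.le_of_ge ⟨⟨fun {a} b ha => ?_⟩, fun h1 => ?_⟩ subset_closure)
      subset_closure
    · exact map_mem_closure (f := fun x => x * b) (by fun_prop) ha
        fun x hx => M.mul_mem_right b hx
    · obtain ⟨x, hx, hx1⟩ := Metric.mem_closure_iff.1 h1 1 one_pos
      rw [dist_eq_norm] at hx1
      have hu : IsUnit (1 - (1 - x)) := (Units.oneSub _ hx1).isUnit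
      rw [sub_sub_cancel] at hu
      exact hM.prop.2 ((M.eq_top_iff_one).1 (M.eq_top_of_isUnit_mem hx hu))
  have hclosed : IsClosed (M : Set E) := by
    rw [← hcl]; exact isClosed_closure
  have hst := starIdeal_of_closed M hclosed
  have hnt : Nontrivial (E ⧸ M) :=
    ⟨⟨1, 0, fun h => hM.prop.2 (Ideal.Quotient.eq_zero_iff_mem.1 h)⟩⟩
  have key : ∀ y : E, y ∉ M → Full {Ideal.Quotient.mk M y} := by
    intro y hy
    by_contra hf
    have h2 : (Ideal.comap (Ideal.Quotient.mk M) (genIdeal {Ideal.Quotient.mk M y})) ≤ M := by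
      refine hM.le_of_ge ⟨inferInstance, fun h1 => hf ?_⟩ fun x hx => ?_
      · rw [Ideal.mem_comap, map_one] at h1
        exact h1
      · simp [Ideal.mem_comap, Ideal.Quotient.eq_zero_iff_mem.2 hx]
    exact hy (h2 (subset_genIdeal rfl))
  refine ⟨E ⧸ M, inferInstance, hnt, mkS M, Ideal.Quotient.mk_surjective,
    fun s hs => Ideal.Quotient.eq_zero_iff_mem.2 (hM0 (subset_genIdeal hs)), fun y y' h => ?_⟩
  obtain ⟨a, rfl⟩ := Ideal.Quotient.mk_surjective y
  obtain ⟨a', rfl⟩ := Ideal.Quotient.mk_surjective y'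
  by_contra hne
  rw [not_or, Ideal.Quotient.eq_zero_iff_mem, Ideal.Quotient.eq_zero_iff_mem] at hne
  have h1 := key a hne.1
  have h2 := key a' hne.2
  have h3 : ∀ z ∈ genIdeal {Ideal.Quotient.mk M a}, z * Ideal.Quotient.mk M a' = 0 := by
    intro z hz
    induction hz using AddSubmonoid.closure_induction with
    | mem z hz =>
      obtain ⟨c, s, rfl, b, rfl⟩ := hz
      rw [mul_assoc c, mul_assoc c, h, mul_zero]
    | zero => simp
    | add x y _ _ hx hy => rw [add_mul, hx, hy, add_zero]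
  have h4 := h3 1 h1
  rw [one_mul] at h4
  exact hne.2 (Ideal.Quotient.eq_zero_iff_mem.1 h4)

end Vale.Agent.P101
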