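import Vale.Agent.P101.Glue

/-! From the order zero relations to the dimension drop algebra. -/

set_option linter.unusedSectionVars false
set_option linter.unusedSimpArgs false

namespace Vale.Agent.P101

open scoped Kronecker

/-- A continuous real function as a complex valued one. -/
noncomputable def rf (f : ℝ → ℝ) (hf : Continuous f) : C(ℝ, ℂ) :=
  ⟨fun t => (f t : ℂ), Complex.continuous_ofReal.comp hf⟩

@[simp] theorem rf_apply (f : ℝ → ℝ) (hf : Continuous f) (t : ℝ) : rf f hf t = (f t : ℂ) := rfl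

theorem star_rf (f : ℝ → ℝ) (hf : Continuous f) : star (rf f hf) = rf f hf := by
  ext t; simp

theorem exists_fns : ∃ l₀ l₁ μ φ₀ φ₁ ψ : C(ℝ, ℂ), let τ := rf id continuous_id
    star l₀ = l₀ ∧ star l₁ = l₁ ∧ star μ = μ ∧
    l₀ * (1 - τ) + l₁ * τ + μ * (τ * (1 - τ)) = 1 ∧ φ₀ * l₁ = 0 ∧ φ₀ * μ = 0 ∧ φ₁ * l₀ = 0 ∧
    φ₁ * μ = 0 ∧ ψ * ((τ * (1 - τ)) ^ 2 + (φ₀ * (1 - τ)) ^ 2 + (φ₁ * τ) ^ 2) = 1 ∧
    (∀ t, 1 / 3 < t → l₀ t = 0) ∧ ∀ t, t < 2 / 3 → l₁ t = 0 := by
  let g₀ : ℝ → ℝ := fun t => max 0 (min 1 (2 - 6 * t))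
  let g₁ : ℝ → ℝ := fun t => max 0 (min 1 (6 * t - 4))
  let p₀ : ℝ → ℝ := fun t => max 0 (1 - 6 * t)
  let p₁ : ℝ → ℝ := fun t => max 0 (6 * t - 5)
  have z0 : ∀ t, 1 / 3 ≤ t → g₀ t = 0 := fun t ht =>
    max_eq_left (min_le_of_right_le (by linarith))
  have z1 : ∀ t, t ≤ 2 / 3 → g₁ t = 0 := fun t ht =>
    max_eq_left (min_le_of_right_le (by linarith))
  have o0 : ∀ t, t ≤ 1 / 6 → g₀ t = 1 := fun t ht => by
    simp only [g₀]; rw [min_eq_left (by linarith), max_eq_right zero_le_one]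
  have o1 : ∀ t, 5 / 6 ≤ t → g₁ t = 1 := fun t ht => by
    simp only [g₁]; rw [min_eq_left (by linarith), max_eq_right zero_le_one]
  have q0 : ∀ t, 1 / 6 ≤ t → p₀ t = 0 := fun t ht => max_eq_left (by linarith)
  have q1 : ∀ t, t ≤ 5 / 6 → p₁ t = 0 := fun t ht => max_eq_left (by linarith)
  have pos : ∀ t : ℝ, 0 < (t * (1 - t)) ^ 2 + (p₀ t * (1 - t)) ^ 2 + (p₁ t * t) ^ 2 := by
    intro t
    rcases eq_or_ne t 0 with rfl | h0
    · norm_num [p₀]
    rcases eq_or_ne t 1 with rfl | h1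
    · norm_num [p₀, p₁]
    have : t * (1 - t) ≠ 0 := mul_ne_zero h0 (sub_ne_zero.2 h1.symm)
    positivity
  have m0 : ∀ t : ℝ, 0 < max (1 - t) (2 / 3) := fun t => lt_max_of_lt_right (by norm_num)
  have m1 : ∀ t : ℝ, 0 < max t (2 / 3) := fun t => lt_max_of_lt_right (by norm_num)
  have m2 : ∀ t : ℝ, 0 < max (t * (1 - t)) (5 / 36) := fun t => lt_max_of_lt_right (by norm_num)
  refine ⟨rf (fun t => g₀ t / max (1 - t) (2 / 3))
      (Continuous.div (by fun_prop) (by fun_prop) fun t => (m0 t).ne'),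
    rf (fun t => g₁ t / max t (2 / 3))
      (Continuous.div (by fun_prop) (by fun_prop) fun t => (m1 t).ne'),
    rf (fun t => (1 - g₀ t - g₁ t) / max (t * (1 - t)) (5 / 36))
      (Continuous.div (by fun_prop) (by fun_prop) fun t => (m2 t).ne'),
    rf p₀ (by fun_prop), rf p₁ (by fun_prop),
    rf (fun t => ((t * (1 - t)) ^ 2 + (p₀ t * (1 - t)) ^ 2 + (p₁ t * t) ^ 2)⁻¹)
      (Continuous.inv₀ (by fun_prop) fun t => (pos t).ne'),
    star_rf _ _, star_rf _ _, star_rf _ _, ?_, ?_, ?_, ?_, ?_, ?_, ?_, ?_⟩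
  · ext t
    simp only [ContinuousMap.add_apply, ContinuousMap.mul_apply, ContinuousMap.sub_apply,
      ContinuousMap.one_apply, rf_apply, id]
    norm_cast
    have e0 : g₀ t / max (1 - t) (2 / 3) * (1 - t) = g₀ t := by
      rcases le_total t (1 / 3) with h | h
      · rw [max_eq_left (by linarith), div_mul_cancel₀ _ (by linarith)]
      · simp [z0 t h]
    have e1 : g₁ t / max t (2 / 3) * t = g₁ t := by
      rcases le_total t (2 / 3) with h | h
      · simp [z1 t h]
      · rw [max_eq_left h, div_mul_cancel₀ _ (by linarith)]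
    have e2 : (1 - g₀ t - g₁ t) / max (t * (1 - t)) (5 / 36) * (t * (1 - t))
        = 1 - g₀ t - g₁ t := by
      rcases le_total t (1 / 6) with h | h
      · simp [o0 t h, z1 t (by linarith)]
      rcases le_total t (5 / 6) with h' | h'
      · have : 5 / 36 ≤ t * (1 - t) := by nlinarith
        rw [max_eq_left this, div_mul_cancel₀ _ (by linarith)]
      · simp [o1 t h', z0 t (by linarith)]
    rw [e0, e1, e2]
    ring
  · ext t
    rcases le_total t (1 / 6) with h | h
    · simp [z1 t (by linarith)]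
    · simp [q0 t h]
  · ext t
    rcases le_total t (1 / 6) with h | h
    · simp [z1 t (by linarith), o0 t h]
    · simp [q0 t h]
  · ext t
    rcases le_total t (5 / 6) with h | h
    · simp [q1 t h]
    · simp [z0 t (by linarith)]
  · ext t
    rcases le_total t (5 / 6) with h | h
    · simp [q1 t h]
    · simp [z0 t (by linarith), o1 t h]
  · ext t
    simp only [ContinuousMap.add_apply, ContinuousMap.mul_apply, ContinuousMap.sub_apply,
      ContinuousMap.one_apply, ContinuousMap.pow_apply, rf_apply, id]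
    norm_cast
    exact inv_mul_cancel₀ (pos t).ne'
  · intro t ht
    simp [z0 t ht.le]
  · intro t ht
    simp [z1 t ht.le]

/-- The flip on the lower block. -/
def flip {k : ℕ} (x : Fin k × Fin (k + 1)) : Fin k × Fin (k + 1) :=
  Fin.cases (x.1, 0) (fun j => (j, x.1.succ)) x.2

theorem flip_flip {k : ℕ} (x : Fin k × Fin (k + 1)) : flip (flip x) = x := by
  obtain ⟨a, p⟩ := x
  refine Fin.cases ?_ (fun j => ?_) p <;> simp [flip]

/-- The reparametrization of the interval. -/
noncomputable def rho (t : ℝ) : unitInterval := Set.projIcc 0 1 zero_le_one (3 * t - 1)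

theorem continuous_rho : Continuous rho := continuous_projIcc.comp (by fun_prop)

theorem rho_zero {t : ℝ} (h : t ≤ 1 / 3) : rho t = 0 := Set.projIcc_of_le_left _ (by linarith)

theorem rho_one {t : ℝ} (h : 2 / 3 ≤ t) : rho t = 1 := Set.projIcc_of_right_le _ (by linarith)

/-- The left end of an element of the dimension drop algebra. -/
noncomputable def endL (p q : ℕ) : DimDrop p (q + 1) →⋆ₐ[ℂ] Matrix (Fin p) (Fin p) ℂ where
  toFun f := (f.1 0).submatrix (·, 0) (·, 0)
  map_one' := by ext i j; simp [Matrix.one_apply]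
  map_mul' f g := by
    obtain ⟨a, ha⟩ := f.2.1
    obtain ⟨b, hb⟩ := g.2.1
    ext i j
    simp [ha, hb, ← Matrix.mul_kronecker_mul, Matrix.mul_apply]
  map_zero' := rfl
  map_add' f g := rfl
  commutes' c := by ext i j; simp [Algebra.algebraMap_eq_smul_one, Matrix.one_apply]
  map_star' f := rfl

theorem endL_spec (p q : ℕ) (f : DimDrop p (q + 1)) :
    f.1 0 = endL p q f ⊗ₖ (1 : Matrix (Fin (q + 1)) (Fin (q + 1)) ℂ) := by
  obtain ⟨a, ha⟩ := f.2.1
  have : endL p q f = a := by
    ext i j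
    change f.1 0 (i, 0) (j, 0) = _
    simp [ha]
  rw [this, ha]

/-- The right end of an element of the dimension drop algebra. -/
noncomputable def endR (p q : ℕ) : DimDrop (p + 1) q →⋆ₐ[ℂ] Matrix (Fin q) (Fin q) ℂ where
  toFun f := (f.1 1).submatrix (0, ·) (0, ·)
  map_one' := by ext i j; simp [Matrix.one_apply]
  map_mul' f g := by
    obtain ⟨a, ha⟩ := f.2.2
    obtain ⟨b, hb⟩ := g.2.2
    ext i j
    simp [ha, hb, ← Matrix.mul_kronecker_mul, Matrix.mul_apply]
  map_zero' := rfl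
  map_add' f g := rfl
  commutes' c := by ext i j; simp [Algebra.algebraMap_eq_smul_one, Matrix.one_apply]
  map_star' f := rfl

theorem endR_spec (p q : ℕ) (f : DimDrop (p + 1) q) :
    f.1 1 = (1 : Matrix (Fin (p + 1)) (Fin (p + 1)) ℂ) ⊗ₖ endR p q f := by
  obtain ⟨a, ha⟩ := f.2.2
  have : endR p q f = a := by
    ext i j
    change f.1 1 (0, i) (0, j) = _
    simp [ha]
  rw [this, ha]

/-- The entries along the reparametrization. -/
noncomputable def hat (p q : ℕ) :
    DimDrop p q →⋆ₐ[ℂ] Matrix (Fin p × Fin q) (Fin p × Fin q) C(ℝ, ℂ) where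
  toFun f := Matrix.of fun I J => ⟨fun t => f.1 (rho t) I J,
    (f.1.continuous.comp continuous_rho).matrix_elem I J⟩
  map_one' := by
    ext I J t
    simp only [Matrix.of_apply, Matrix.one_apply]
    split_ifs with h <;> simp [h]
  map_mul' f g := by
    ext I J t
    simp [Matrix.mul_apply]
  map_zero' := rfl
  map_add' f g := rfl
  commutes' c := by
    ext I J t
    simp only [Matrix.of_apply, Algebra.algebraMap_eq_smul_one, Matrix.smul_apply, Matrix.one_apply]
    split_ifs with h <;> simp [h]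
  map_star' f := rfl

theorem hat_apply (p q : ℕ) (f : DimDrop p q) (I J) (t : ℝ) :
    hat p q f I J t = f.1 (rho t) I J := rfl

theorem exists_conj {Z ι : Type*} [CommRing Z] [StarRing Z] [Algebra ℂ Z] [StarModule ℂ Z]
    [Fintype ι] [DecidableEq ι] (σ : ι → ι) (hσ : ∀ x, σ (σ x) = x) {c s : Z} (sc : star c = c)
    (ss : star s = s) (cs : c * c + s * s = 1) : ∃ Φ : Matrix ι ι Z →⋆ₐ[ℂ] Matrix ι ι Z,
      ∀ X I J, Φ X I J = c * c * X I J + s * s * X (σ I) (σ J)
        + Complex.I • (c * s * (X (σ I) J - X I (σ J))) := by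
  let P : Matrix ι ι Z := Matrix.of fun I J => if σ I = J then 1 else 0
  have fl : ∀ I J : ι, σ I = J ↔ I = σ J := fun I J =>
    ⟨fun h => by rw [← h, hσ], fun h => by rw [h, hσ]⟩
  have Pl : ∀ X : Matrix ι ι Z, ∀ I J,
      (P * X) I J = X (σ I) J := fun X I J => by simp [P, Matrix.mul_apply]
  have Pr : ∀ X : Matrix ι ι Z, ∀ I J,
      (X * P) I J = X I (σ J) := fun X I J => by simp [P, Matrix.mul_apply, fl]
  have PP : P * P = 1 := by
    ext1 I J
    rw [Pl]
    simp [P, hσ, Matrix.one_apply]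
  have Ps : star P = P := by
    ext1 I J
    simp only [P, Matrix.star_apply, Matrix.of_apply, fl J I, eq_comm (a := J)]
    split_ifs <;> simp
  let i : Z := algebraMap ℂ Z Complex.I
  have ii : i * i = -1 := by rw [← map_mul, Complex.I_mul_I, map_neg, map_one]
  have si : star i = -i := by
    rw [← algebraMap_star_comm, Complex.star_def, Complex.conj_I, map_neg]
  let U := c • (1 : Matrix ι ι Z) + (i * s) • P
  have Us : star U = c • (1 : Matrix ι ι Z) - (i * s) • P := by
    ext1 I J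
    have h1 : star (P J I) = P I J := congrFun (congrFun Ps I) J
    have h2 : star ((1 : Matrix ι ι Z) J I) = (1 : Matrix ι ι Z) I J :=
      congrFun (congrFun (star_one (Matrix ι ι Z)) I) J
    simp only [U, Matrix.star_apply, Matrix.add_apply, Matrix.sub_apply, Matrix.smul_apply,
      smul_eq_mul, star_add, star_mul', h1, h2, sc, ss, si]
    ring
  have hU : U ∈ unitary _ := by
    rw [Unitary.mem_iff, Us]
    constructor <;>
    · simp only [U, mul_add, add_mul, mul_sub, sub_mul, smul_mul_assoc, mul_smul_comm, one_mul,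
        mul_one, PP]
      match_scalars
      · linear_combination cs - s * s * ii
      · ring
  refine ⟨((Unitary.conjStarAlgAut ℂ _ ⟨U, hU⟩ : _ ≃⋆ₐ[ℂ] _) : _ →⋆ₐ[ℂ] _), fun X I J => ?_⟩
  change (U * X * star U) I J = _
  rw [Us]
  simp only [U, mul_add, add_mul, mul_sub, sub_mul, smul_mul_assoc, mul_smul_comm, one_mul,
    mul_one, Matrix.add_apply, Matrix.sub_apply, Matrix.smul_apply, Pl, Pr, smul_eq_mul,
    Algebra.smul_def Complex.I]
  linear_combination (-s * s * X (σ I) (σ J)) * ii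

theorem exists_twist (k : ℕ) : ∃ F : DimDrop k (k + 1) →⋆ₐ[ℂ]
    Matrix (Fin k × Fin (k + 1)) (Fin k × Fin (k + 1)) C(ℝ, ℂ),
    (∀ f I J t, t ≤ 1 / 3 → F f I J t = f.1 0 (flip I) (flip J)) ∧
      ∀ f I J t, 2 / 3 ≤ t → F f I J t = f.1 1 I J := by
  let c : C(ℝ, ℂ) := rf (fun t => √(rho t)) (Real.continuous_sqrt.comp
    (continuous_subtype_val.comp continuous_rho))
  let s : C(ℝ, ℂ) := rf (fun t => √(1 - rho t)) (Real.continuous_sqrt.comp
    (continuous_const.sub (continuous_subtype_val.comp continuous_rho)))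
  have cs : c * c + s * s = 1 := by
    ext t
    simp only [c, s, ContinuousMap.add_apply, ContinuousMap.mul_apply, rf_apply,
      ContinuousMap.one_apply]
    norm_cast
    rw [Real.mul_self_sqrt (rho t).2.1, Real.mul_self_sqrt (sub_nonneg.2 (rho t).2.2)]
    ring
  obtain ⟨Φ, hΦ⟩ := exists_conj (flip (k := k)) flip_flip (c := c) (s := s) (star_rf _ _)
    (star_rf _ _) cs
  refine ⟨Φ.comp (hat k (k + 1)), fun f I J t ht => ?_, fun f I J t ht => ?_⟩
  · rw [StarAlgHom.comp_apply, hΦ]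
    simp [c, s, rho_zero ht, hat_apply]
  · rw [StarAlgHom.comp_apply, hΦ]
    simp [c, s, rho_one ht, hat_apply]

end Vale.Agent.P101
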