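import Vale.Agent.P101.Sign

/-! Shift systems: reduction of finitely many square-zero elements to one full one. -/

set_option linter.unusedSectionVars false
set_option linter.unusedSimpArgs false

namespace Vale.Agent.P101

open scoped CStarAlgebra

universe u

/-- Without characters the square-zero elements are jointly full. -/
theorem full_sq_zero {E : Type u} [CStarAlgebra E] (h : IsEmpty (E →⋆ₐ[ℂ] ℂ)) :
    Full {v : E | v * v = 0} := by
  by_contra hf
  obtain ⟨B, _, _, π, hπ, h0, hpr⟩ := exists_prime_quot hf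
  let _ := CStarAlgebra.spectralOrder B
  have := CStarAlgebra.spectralOrderedRing B
  have sa : ∀ x : E, IsSelfAdjoint x → 0 ≤ π x ∨ 0 ≤ -π x := by
    intro x hx
    set e₁ := cfc (fun t : ℝ => √t) x
    set e₂ := cfc (fun t : ℝ => √(-t)) x
    have s1 : IsSelfAdjoint e₁ := cfc_predicate _ _
    have s2 : IsSelfAdjoint e₂ := cfc_predicate _ _
    have h21 : e₂ * e₁ = 0 := by
      rw [← cfc_mul _ _ x, ← cfc_const_zero ℝ x]
      refine cfc_congr fun t _ => ?_
      rcases le_total t 0 with ht | ht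
      · simp [Real.sqrt_eq_zero_of_nonpos ht]
      · simp [Real.sqrt_eq_zero_of_nonpos (neg_nonpos.2 ht)]
    have hx' : x = star e₁ * e₁ - star e₂ * e₂ := by
      rw [s1.star_eq, s2.star_eq, ← cfc_mul _ _ x, ← cfc_mul _ _ x, ← cfc_sub _ _ x]
      nth_rewrite 1 [← cfc_id' ℝ x]
      refine cfc_congr fun t _ => ?_
      rcases le_total t 0 with ht | ht
      · simp [Real.sqrt_eq_zero_of_nonpos ht, Real.mul_self_sqrt (neg_nonneg.2 ht)]
      · simp [Real.sqrt_eq_zero_of_nonpos (neg_nonpos.2 ht), Real.mul_self_sqrt ht]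
    rcases hpr (π e₁) (π e₂) (fun b => by
      obtain ⟨z, rfl⟩ := hπ b
      rw [← map_mul, ← map_mul]
      refine h0 _ ?_
      change e₁ * z * e₂ * (e₁ * z * e₂) = 0
      simp only [mul_assoc]
      rw [← mul_assoc e₂ e₁, h21]
      simp) with h1 | h1
    · right
      rw [hx']
      simp [map_star, h1]
    · left
      rw [hx']
      simp [map_star, h1]
  have sc : ∀ x : E, IsSelfAdjoint x → ∃ c : ℂ, algebraMap ℂ B c = π x := by
    intro x hx
    have hs : IsSelfAdjoint (π x) := hx.map π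
    obtain ⟨l, hl⟩ := CFC.spectrum_nonempty ℝ (π x) hs
    have key : ∀ m ∈ spectrum ℝ (π x), ∀ m' ∈ spectrum ℝ (π x), ¬ m < m' := by
      intro m hm m' hm' hlt
      have hsa : IsSelfAdjoint (x - ((m + m') / 2 : ℝ) • (1 : E)) :=
        hx.sub ((IsSelfAdjoint.all _).smul (IsSelfAdjoint.one E))
      have he : π (x - ((m + m') / 2 : ℝ) • (1 : E)) = π x - algebraMap ℝ B ((m + m') / 2) := by
        rw [map_sub, ← Complex.coe_smul, map_smul, map_one, Complex.coe_smul,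
          Algebra.algebraMap_eq_smul_one]
      rcases sa _ hsa with h1 | h1
      · rw [he, sub_nonneg, algebraMap_le_iff_le_spectrum hs] at h1
        linarith [h1 m hm]
      · rw [he, neg_sub, sub_nonneg, le_algebraMap_iff_spectrum_le hs] at h1
        linarith [h1 m' hm']
    refine ⟨l, ?_⟩
    have h2 : cfc (fun t : ℝ => t) (π x) = cfc (fun _ : ℝ => l) (π x) :=
      cfc_congr fun t ht => le_antisymm (not_lt.1 (key _ hl _ ht)) (not_lt.1 (key _ ht _ hl))
    rw [cfc_id' ℝ (π x), cfc_const l (π x)] at h2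
    rw [h2, Algebra.algebraMap_eq_smul_one, Algebra.algebraMap_eq_smul_one, Complex.coe_smul]
  have hb : Function.Bijective (StarAlgHom.ofId ℂ B) := by
    refine ⟨(algebraMap ℂ B).injective, fun b => ?_⟩
    obtain ⟨x, rfl⟩ := hπ b
    obtain ⟨c, hc⟩ := sc _ (realPart x).2
    obtain ⟨d, hd⟩ := sc _ (imaginaryPart x).2
    refine ⟨c + Complex.I * d, ?_⟩
    change algebraMap ℂ B _ = _
    rw [← realPart_add_I_smul_imaginaryPart x, map_add, map_add, map_smul, ← hc, ← hd, map_mul,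
      Algebra.smul_def]
  exact h.false (((StarAlgEquiv.ofBijective _ hb).symm : B →⋆ₐ[ℂ] ℂ).comp π)

theorem Full.exists_fin {E : Type*} [Ring E] {S : Set E} (h : Full S) :
    ∃ (n : ℕ) (a s b : Fin n → E), (∀ i, s i ∈ S) ∧ ∑ i, a i * s i * b i = 1 := by
  obtain ⟨l, hl, hs⟩ := AddSubmonoid.exists_list_of_mem_closure h
  choose a s hs' b hb using fun i : Fin l.length => hl (l.get i) (List.get_mem l i)
  refine ⟨l.length, a, s, b, hs', ?_⟩
  rw [← hs, ← List.sum_ofFn]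
  congr 1
  conv_rhs => rw [← List.ofFn_get l]
  congr 1
  exact funext fun i => (hb i).symm

/-- The join of two doubly commuting square-zero elements. -/
def sqJoin {E : Type*} [Ring E] [StarRing E] (v w : E) : E :=
  v * star v * v + w * star w * w - v * (w * star w - star w * w) - w * (v * star v - star v * v)

theorem map_sqJoin {E B : Type*} [CStarAlgebra E] [CStarAlgebra B] (π : E →⋆ₐ[ℂ] B) (v w : E) :
    π (sqJoin v w) = sqJoin (π v) (π w) := by
  simp [sqJoin, map_star]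

theorem sqJoin_comm {E : Type*} [Ring E] [StarRing E] (v w : E) : sqJoin v w = sqJoin w v := by
  simp only [sqJoin]; abel

theorem sqJoin_sq {E : Type*} [Ring E] [StarRing E] {v w : E} (hv : v * v = 0) (hw : w * w = 0)
    (c1 : Commute v w) (c2 : Commute v (star w)) : sqJoin v w * sqJoin v w = 0 := by
  have hv' : star v * star v = 0 := by rw [← star_mul, hv, star_zero]
  have hw' : star w * star w = 0 := by rw [← star_mul, hw, star_zero]
  have c3 : Commute (star v) (star w) := c1.star_star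
  have c4 : Commute (star v) w := by simpa using c2.star_star
  have a1 : ∀ x, v * (v * x) = 0 := fun x => by rw [← mul_assoc, hv, zero_mul]
  have a2 : ∀ x, star v * (star v * x) = 0 := fun x => by rw [← mul_assoc, hv', zero_mul]
  have a3 : ∀ x, w * (w * x) = 0 := fun x => by rw [← mul_assoc, hw, zero_mul]
  have a4 : ∀ x, star w * (star w * x) = 0 := fun x => by rw [← mul_assoc, hw', zero_mul]
  simp only [sqJoin, mul_add, add_mul, mul_sub, sub_mul, mul_assoc, c1.symm.eq, c2.symm.eq,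
    c3.symm.eq, c4.symm.eq, c1.symm.left_comm, c2.symm.left_comm, c3.symm.left_comm,
    c4.symm.left_comm, a1, a2, a3, a4, hv, hv', hw, hw', mul_zero]
  abel

theorem sqJoin_eq_zero {B : Type*} [CStarAlgebra B] {v w : B} (hv : v * v = 0) (hw : w * w = 0)
    (c1 : Commute v w) (c2 : Commute v (star w)) (h : sqJoin v w = 0) : v = 0 := by
  let _ := CStarAlgebra.spectralOrder B
  have := CStarAlgebra.spectralOrderedRing B
  have hv' : star v * star v = 0 := by rw [← star_mul, hv, star_zero]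
  have hw' : star w * star w = 0 := by rw [← star_mul, hw, star_zero]
  have c3 : Commute (star v) (star w) := c1.star_star
  have c4 : Commute (star v) w := by simpa using c2.star_star
  have a1 : ∀ x, v * (v * x) = 0 := fun x => by rw [← mul_assoc, hv, zero_mul]
  have a2 : ∀ x, star v * (star v * x) = 0 := fun x => by rw [← mul_assoc, hv', zero_mul]
  have a3 : ∀ x, w * (w * x) = 0 := fun x => by rw [← mul_assoc, hw, zero_mul]
  have a4 : ∀ x, star w * (star w * x) = 0 := fun x => by rw [← mul_assoc, hw', zero_mul]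
  set b := star v * v with hb
  set b' := star w * w with hb'
  have h1 : star v * sqJoin v w * b = b * b * b - b * b * (w * star w) + b * b * b' := by
    simp only [hb, hb', sqJoin, mul_add, add_mul, mul_sub, sub_mul, mul_assoc, c1.symm.eq,
      c2.symm.eq, c3.symm.eq, c4.symm.eq, c1.symm.left_comm, c2.symm.left_comm,
      c3.symm.left_comm, c4.symm.left_comm, a1, a2, a3, a4, hv, hv', hw, hw', mul_zero,
      zero_mul]
    abel
  rw [h, mul_zero, zero_mul] at h1
  have cb : Commute b b' :=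
    (c3.mul_right c4).mul_left (c2.mul_right c1)
  have cw : Commute b w := c4.mul_left c1
  have b0 : 0 ≤ b := star_mul_self_nonneg v
  have b0' : 0 ≤ b' := star_mul_self_nonneg w
  have h2 : b * b' * b + star (b' * b) * (b' * b) = 0 → b' * b = 0 := by
    intro h3
    have p1 : 0 ≤ b * b' * b := by
      simpa [b0.isSelfAdjoint.star_eq] using star_left_conjugate_nonneg b0' b
    have p2 := star_mul_self_nonneg (b' * b)
    exact (CStarRing.star_mul_self_eq_zero_iff _).1 ((add_eq_zero_iff_of_nonneg p1 p2).1 h3).2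
  have h4 : b * (b * b' * b) + star (b' * b) * (b' * b) = 0 := by
    have := congrArg (· * b') h1
    simp only [zero_mul, add_mul, sub_mul] at this
    have e1 : b * b * (w * star w) * b' = 0 := by
      simp only [hb', mul_assoc, a4, mul_zero]
    rw [e1, sub_zero] at this
    rw [this, star_mul, b0.isSelfAdjoint.star_eq, b0'.isSelfAdjoint.star_eq]
    simp only [mul_assoc, cb.symm.eq, cb.symm.left_comm]
  have h5 : b' * b = 0 := by
    have p0 : 0 ≤ b * b' := Commute.mul_nonneg b0 b0' cb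
    have p1 : 0 ≤ b * (b * b' * b) := by
      simpa [b0.isSelfAdjoint.star_eq, mul_assoc] using star_left_conjugate_nonneg p0 b
    have p2 := star_mul_self_nonneg (b' * b)
    exact (CStarRing.star_mul_self_eq_zero_iff _).1 ((add_eq_zero_iff_of_nonneg p1 p2).1 h4).2
  have h6 : w * b = 0 := by
    rw [← CStarRing.star_mul_self_eq_zero_iff, star_mul, mul_assoc, ← mul_assoc (star w), ← hb',
      h5, mul_zero]
  rw [mul_assoc b b (w * _), ← mul_assoc b w, cw.eq, h6, mul_assoc b b b', cb.eq, h5] at h1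
  simp only [zero_mul, mul_zero, sub_zero, add_zero] at h1
  exact (CStarRing.star_mul_self_eq_zero_iff _).1 (eq_zero_of_pow3 b0.isSelfAdjoint h1.symm)

variable {G : Type u} [CStarAlgebra G]

/-- The elements that commute with the range of the `K`-th power of the shift. -/
def Loc (T : G →⋆ₐ[ℂ] G) (K : ℕ) : StarSubalgebra ℂ G :=
  StarSubalgebra.centralizer ℂ (Set.range (T ^ K : G →⋆ₐ[ℂ] G))

theorem mem_Loc {T : G →⋆ₐ[ℂ] G} {K : ℕ} {a : G} : a ∈ Loc T K ↔ ∀ b, Commute a ((T ^ K) b) := by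
  rw [Loc, StarSubalgebra.mem_centralizer_iff]
  constructor
  · exact fun h b => (h _ ⟨b, rfl⟩).1.symm
  · rintro h _ ⟨b, rfl⟩
    exact ⟨(h b).symm, by rw [← map_star]; exact (h _).symm⟩

theorem isClosed_centr {B : Type*} [CStarAlgebra B] (s : Set B) :
    IsClosed (StarSubalgebra.centralizer ℂ s : Set B) := Set.isClosed_centralizer _

instance (T : G →⋆ₐ[ℂ] G) (K : ℕ) : IsClosed (Loc T K : Set G) := isClosed_centr _

theorem pow_add_app (T : G →⋆ₐ[ℂ] G) (i j : ℕ) (a : G) :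
    (T ^ (i + j)) a = (T ^ i) ((T ^ j) a) := by rw [pow_add]; rfl

theorem Loc_mono {T : G →⋆ₐ[ℂ] G} {K K' : ℕ} (h : K ≤ K') {a : G} (ha : a ∈ Loc T K) :
    a ∈ Loc T K' := by
  obtain ⟨j, rfl⟩ := Nat.exists_eq_add_of_le h
  rw [mem_Loc] at ha ⊢
  intro b
  rw [pow_add_app]
  exact ha _

theorem Loc_shift {T : G →⋆ₐ[ℂ] G} {K : ℕ} (j : ℕ) {a : G} (ha : a ∈ Loc T K) :
    (T ^ j) a ∈ Loc T (j + K) := by
  rw [mem_Loc] at ha ⊢
  intro b
  rw [pow_add_app]
  exact (ha b).map _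

/-- The algebra is generated by the shifts of the local elements. -/
def Gen (T : G →⋆ₐ[ℂ] G) : Prop :=
  ∀ H : StarSubalgebra ℂ G, IsClosed (H : Set G) → (∀ n, ∀ a ∈ Loc T 1, (T ^ n) a ∈ H) →
    ∀ g, g ∈ H

theorem indep_aux {T : G →⋆ₐ[ℂ] G} (hT : Gen T) {B : Type*} [CStarAlgebra B] (π : G →⋆ₐ[ℂ] B)
    (hπ : Function.Surjective π) (hpr : ∀ y y' : B, (∀ b, y * b * y' = 0) → y = 0 ∨ y' = 0)
    {P Q : Set G} (hPQ : ∀ p ∈ P, ∀ q ∈ Q, Commute p q)
    (hcov : ∀ n, ∀ a ∈ Loc T 1, (T ^ n) a ∈ P ∨ (T ^ n) a ∈ Q) {y y' : B}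
    (hy : ∀ p ∈ P, Commute y (π p)) (hy' : ∀ q ∈ Q, Commute y' (π q)) (h : y * y' = 0) :
    y = 0 ∨ y' = 0 := by
  let N : Set B := {b | ∀ y y' : B, (∀ p ∈ P, Commute y (π p)) → (∀ q ∈ Q, Commute y' (π q)) →
    y * y' = 0 → y * b * y' = 0}
  let H : StarSubalgebra ℂ G :=
    { carrier := {g | (∀ b ∈ N, π g * b ∈ N) ∧ ∀ b ∈ N, π (star g) * b ∈ N}
      mul_mem' := fun {g g'} hg hg' => ⟨fun b hb => by
          rw [map_mul, mul_assoc]; exact hg.1 _ (hg'.1 _ hb), fun b hb => by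
          rw [star_mul, map_mul, mul_assoc]; exact hg'.2 _ (hg.2 _ hb)⟩
      add_mem' := fun {g g'} hg hg' => ⟨fun b hb y y' h1 h2 h3 => by
          rw [map_add, add_mul, mul_add, add_mul, hg.1 b hb y y' h1 h2 h3,
            hg'.1 b hb y y' h1 h2 h3, add_zero], fun b hb y y' h1 h2 h3 => by
          rw [star_add, map_add, add_mul, mul_add, add_mul, hg.2 b hb y y' h1 h2 h3,
            hg'.2 b hb y y' h1 h2 h3, add_zero]⟩
      algebraMap_mem' := fun c => ⟨fun b hb y y' h1 h2 h3 => by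
          simp [Algebra.algebraMap_eq_smul_one, hb y y' h1 h2 h3],
        fun b hb y y' h1 h2 h3 => by
          simp [Algebra.algebraMap_eq_smul_one, hb y y' h1 h2 h3]⟩
      star_mem' := fun {g} hg => ⟨hg.2, by rw [star_star]; exact hg.1⟩ }
  have hc : Continuous π := map_continuous π
  have hH : IsClosed (H : Set G) := by
    change IsClosed {g | (∀ b ∈ N, π g * b ∈ N) ∧ ∀ b ∈ N, π (star g) * b ∈ N}
    have hN : IsClosed N := by
      simp only [N, Set.setOf_forall]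
      exact isClosed_iInter fun y =>
        isClosed_iInter fun y' => isClosed_iInter fun _ => isClosed_iInter fun _ =>
        isClosed_iInter fun _ => isClosed_eq (by fun_prop) continuous_const
    simp only [Set.setOf_and, Set.setOf_forall]
    refine IsClosed.inter ?_ ?_
    · exact isClosed_iInter fun b => isClosed_iInter fun _ =>
        hN.preimage (f := fun g => π g * b) (by fun_prop)
    · exact isClosed_iInter fun b => isClosed_iInter fun _ =>
        hN.preimage (f := fun g => π (star g) * b) (by fun_prop)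
  have hgen : ∀ g, g ∈ P ∨ g ∈ Q → ∀ b ∈ N, π g * b ∈ N := by
    rintro g (hg | hg) b hb y y' h1 h2 h3
    · rw [← mul_assoc, (h1 g hg).eq, mul_assoc, mul_assoc, ← mul_assoc y, hb y y' h1 h2 h3,
        mul_zero]
    · rw [← mul_assoc]
      refine hb _ y' (fun p hp => (h1 p hp).mul_left ((hPQ p hp g hg).symm.map π)) h2 ?_
      rw [mul_assoc, ← (h2 g hg).eq, ← mul_assoc, h3, zero_mul]
  refine hpr y y' fun b => ?_
  obtain ⟨g, rfl⟩ := hπ b
  have := (hT H hH (fun n a ha => ⟨hgen _ (hcov n a ha), by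
    rw [← map_star]; exact hgen _ (hcov n _ (star_mem ha))⟩) g).1 1
      (fun y y' _ _ h3 => by rw [mul_one, h3]) y y' hy hy' h
  rwa [mul_one] at this

theorem gen_cases {T : G →⋆ₐ[ℂ] G} (K n : ℕ) {a : G} (ha : a ∈ Loc T 1) :
    (T ^ n) a ∈ Loc T K ∨ (T ^ n) a ∈ Set.range (T ^ K : G →⋆ₐ[ℂ] G) := by
  rcases lt_or_ge n K with h | h
  · exact Or.inl (Loc_mono (by omega) (Loc_shift n ha))
  · obtain ⟨j, rfl⟩ := Nat.exists_eq_add_of_le h
    exact Or.inr ⟨_, (pow_add_app T K j a).symm⟩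

theorem exists_pm {E : Type*} [CStarAlgebra E] {x : E} (hx : IsSelfAdjoint x) :
    let e₁ := cfc (fun t : ℝ => √t) x
    let e₂ := cfc (fun t : ℝ => √(-t)) x
    IsSelfAdjoint e₁ ∧ IsSelfAdjoint e₂ ∧ e₁ * e₂ = 0 ∧ e₂ * e₁ = 0 ∧ x = e₁ * e₁ - e₂ * e₂ := by
  intro e₁ e₂
  have h21 : e₂ * e₁ = 0 := by
    rw [← cfc_mul _ _ x, ← cfc_const_zero ℝ x]
    refine cfc_congr fun t _ => ?_
    rcases le_total t 0 with ht | ht
    · simp [Real.sqrt_eq_zero_of_nonpos ht]
    · simp [Real.sqrt_eq_zero_of_nonpos (neg_nonpos.2 ht)]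
  refine ⟨cfc_predicate _ _, cfc_predicate _ _, by rw [cfc_commute_cfc, h21], h21, ?_⟩
  rw [← cfc_mul _ _ x, ← cfc_mul _ _ x, ← cfc_sub _ _ x]
  nth_rewrite 1 [← cfc_id' ℝ x]
  refine cfc_congr fun t _ => ?_
  rcases le_total t 0 with ht | ht
  · simp [Real.sqrt_eq_zero_of_nonpos ht, Real.mul_self_sqrt (neg_nonneg.2 ht)]
  · simp [Real.sqrt_eq_zero_of_nonpos (neg_nonpos.2 ht), Real.mul_self_sqrt ht]

/-- Two square-zero elements are replaced by one. -/
theorem merge_two {T : G →⋆ₐ[ℂ] G} (hT : Gen T) {K : ℕ} {v₀ v₁ : G} (h₀ : v₀ ∈ Loc T K)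
    (h₁ : v₁ ∈ Loc T K) (s₀ : v₀ * v₀ = 0) (s₁ : v₁ * v₁ = 0) :
    ∃ w ∈ Loc T (3 * K), w * w = 0 ∧ ∀ (B : Type u) [CStarAlgebra B] [Nontrivial B]
      (π : G →⋆ₐ[ℂ] B), Function.Surjective π →
      (∀ y y' : B, (∀ b, y * b * y' = 0) → y = 0 ∨ y' = 0) → π w = 0 →
      (π v₀ = 0 ∧ π v₁ = 0) ∨ (π ((T ^ K) v₀) = 0 ∧ π ((T ^ K) v₁) = 0) ∨
        (π ((T ^ K) ((T ^ K) v₀)) = 0 ∧ π ((T ^ K) ((T ^ K) v₁)) = 0) := by
  set S := T ^ K with hS
  set p₀ := v₀ + star v₀ with hp₀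
  set p₁ := v₁ + star v₁ with hp₁
  have m₀ : p₀ ∈ Loc T K := add_mem h₀ (star_mem h₀)
  have m₁ : p₁ ∈ Loc T K := add_mem h₁ (star_mem h₁)
  have sp₀ : IsSelfAdjoint p₀ := IsSelfAdjoint.add_star_self _
  have sp₁ : IsSelfAdjoint p₁ := IsSelfAdjoint.add_star_self _
  set h := p₀ + S p₁ + p₁ * S p₀ with hh
  have hs : IsSelfAdjoint h := (sp₀.add (sp₁.map S)).add
    ((sp₁.commute_iff (sp₀.map S)).1 (mem_Loc.1 m₁ _))
  have hm : h ∈ Loc T (K + K) :=
    add_mem (add_mem (Loc_mono (by omega) m₀) (Loc_shift K m₁))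
      (mul_mem (Loc_mono (by omega) m₁) (Loc_shift K m₀))
  obtain ⟨t₁, t₂, z₁, z₂, hpm⟩ := exists_pm hs
  set e₁ := cfc (fun t : ℝ => √t) h
  set e₂ := cfc (fun t : ℝ => √(-t)) h
  have n₁ : e₁ ∈ Loc T (K + K) := cfc_mem (𝕜' := ℂ) _ hm
  have n₂ : e₂ ∈ Loc T (K + K) := cfc_mem (𝕜' := ℂ) _ hm
  have c₀ : ∀ b, Commute v₀ (S b) := mem_Loc.1 h₀
  have c₁ : ∀ b, Commute v₁ (S b) := mem_Loc.1 h₁
  refine ⟨v₀ * S e₁ + v₁ * S e₂, add_mem
    (mul_mem (Loc_mono (by omega) h₀) (Loc_mono (by omega) (Loc_shift K n₁)))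
    (mul_mem (Loc_mono (by omega) h₁) (Loc_mono (by omega) (Loc_shift K n₂))), ?_, ?_⟩
  · rw [add_mul, mul_add, mul_add, (c₀ _).symm.mul_mul_mul_comm, (c₁ _).symm.mul_mul_mul_comm,
      (c₀ _).symm.mul_mul_mul_comm, (c₁ _).symm.mul_mul_mul_comm, s₀, s₁, ← map_mul S e₁ e₂,
      ← map_mul S e₂ e₁, z₁, z₂]
    simp
  intro B _ _ π hπ hpr hw
  let _ := CStarAlgebra.spectralOrder B
  have := CStarAlgebra.spectralOrderedRing B
  by_contra hne
  simp only [not_or, not_and_or] at hne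
  obtain ⟨a1, a2, a3⟩ := hne
  let P : Set G := (Loc T K : Set G) ∪ Set.range (T ^ (K + K) : G →⋆ₐ[ℂ] G)
  let Q : Set G := S '' (Loc T K : Set G)
  have hPQ : ∀ p ∈ P, ∀ q ∈ Q, Commute p q := by
    rintro p (hp | ⟨p, rfl⟩) _ ⟨q, hq, rfl⟩
    · exact mem_Loc.1 hp _
    · exact (mem_Loc.1 (Loc_shift K hq) _).symm
  have hcov : ∀ n, ∀ a ∈ Loc T 1, (T ^ n) a ∈ P ∨ (T ^ n) a ∈ Q := by
    intro n a ha
    rcases lt_or_ge n K with h | h
    · exact Or.inl (Or.inl (Loc_mono (by omega) (Loc_shift n ha)))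
    · obtain ⟨j, rfl⟩ := Nat.exists_eq_add_of_le h
      rcases gen_cases K j ha with h' | ⟨b, h'⟩
      · exact Or.inr ⟨_, h', (pow_add_app T K j a).symm⟩
      · exact Or.inl (Or.inr ⟨b, by rw [pow_add_app, pow_add_app, h']⟩)
  let X := StarSubalgebra.centralizer ℂ (π '' P)
  let Y := StarSubalgebra.centralizer ℂ (X : Set B)
  have hQX : ∀ q ∈ Loc T K, π (S q) ∈ X := by
    intro q hq
    rw [StarSubalgebra.mem_centralizer_iff]
    rintro _ ⟨p, hp, rfl⟩
    refine ⟨(hPQ p hp _ ⟨q, hq, rfl⟩).map π, ?_⟩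
    have := ((hPQ p hp _ ⟨star q, star_mem hq, rfl⟩).map π).star_star
    simpa [map_star] using this.eq
  have hPY : ∀ b, π (S (S b)) ∈ Y := by
    intro b
    rw [StarSubalgebra.mem_centralizer_iff]
    intro x hx
    have hb : π (S (S b)) ∈ π '' P := ⟨_, Or.inr ⟨b, pow_add_app T K K b⟩, rfl⟩
    exact ⟨((StarSubalgebra.mem_centralizer_iff ℂ).1 hx _ hb).1.symm,
      ((StarSubalgebra.mem_centralizer_iff ℂ).1 (star_mem (s := X) hx) _ hb).1.symm⟩
  have hI : Indep X Y := ⟨isClosed_centr _, isClosed_centr _,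
    fun x hx y hy => ((StarSubalgebra.mem_centralizer_iff ℂ).1 hy x hx).1,
    fun x hx y hy h0 => indep_aux hT π hπ hpr hPQ hcov
      (fun p hp => ((StarSubalgebra.mem_centralizer_iff ℂ).1 hx _ ⟨p, hp, rfl⟩).1.symm)
      (by
        rintro _ ⟨q, hq, rfl⟩
        exact ((StarSubalgebra.mem_centralizer_iff ℂ).1 hy _ (hQX q hq)).1.symm) h0⟩
  have sy : ∀ (φ : G →⋆ₐ[ℂ] B) (v : G), v * v = 0 → Sym (φ (v + star v)) ∧
      (φ v ≠ 0 → φ (v + star v) ≠ 0) := by
    intro φ v hv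
    have h1 : φ v * φ v = 0 := by rw [← map_mul, hv, map_zero]
    rw [map_add, map_star]
    refine ⟨sym_of_sq h1, fun h2 h3 => h2 ?_⟩
    have h4 : star (φ v) * φ v = 0 := by
      have := congrArg (· * φ v) h3
      simpa [add_mul, h1] using this
    exact (CStarRing.star_mul_self_eq_zero_iff _).1 h4
  have y0 := sy (π.comp S) v₀ s₀
  have y1 := sy (π.comp S) v₁ s₁
  have y2 := sy ((π.comp S).comp S) v₀ s₀
  have y3 := sy ((π.comp S).comp S) v₁ s₁
  have k1 := hI.not_nonneg (hQX _ m₀) (hQX _ m₁) (hPY p₀) (hPY p₁) y0.1 y1.1 y2.1 y3.1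
    (a2.imp y0.2 y1.2) (a3.imp y2.2 y3.2)
  have k2 := hI.not_nonpos (hQX _ m₀) (hQX _ m₁) (hPY p₀) (hPY p₁) y0.1 y1.1 y2.1 y3.1
    (a2.imp y0.2 y1.2) (a3.imp y2.2 y3.2)
  have k3 : π (S p₀) + π (S (S p₁)) + π (S p₁) * π (S (S p₀))
      = star (π (S e₁)) * π (S e₁) - star (π (S e₂)) * π (S e₂) := by
    rw [← map_star, ← map_star, ← map_star, ← map_star, t₁.star_eq, t₂.star_eq]
    simp only [← map_mul, ← map_add, ← map_sub]
    rw [← hh, ← hpm]
  rw [k3] at k1 k2
  have f₁ : π (S e₁) ≠ 0 := fun h0 => k2 (by simp [h0])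
  have f₂ : π (S e₂) ≠ 0 := fun h0 => k1 (by simp [h0])
  have ia : ∀ v ∈ Loc T K, ∀ e, IsSelfAdjoint e → π (S e) ≠ 0 → π v * π (S (e * e)) = 0 →
      π v = 0 := by
    intro v hv e he h1 h2
    refine (indep_aux hT π hπ hpr (P := Set.range S) (Q := Loc T K) ?_
      (fun n a ha => (gen_cases K n ha).symm) ?_ ?_ h2).resolve_right fun h3 => h1 ?_
    · rintro _ ⟨b, rfl⟩ q hq
      exact (mem_Loc.1 hq b).symm
    · rintro _ ⟨b, rfl⟩
      exact (mem_Loc.1 hv b).map π
    · exact fun q hq => ((mem_Loc.1 hq _).map π).symm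
    · rw [← CStarRing.star_mul_self_eq_zero_iff, ← map_star, ← map_star, he.star_eq, ← map_mul,
        ← map_mul, h3]
  rcases a1 with a1 | a1
  · refine a1 (ia _ h₀ _ t₁ f₁ ?_)
    have := congrArg (· * π (S e₁)) hw
    simp only [zero_mul, ← map_mul, add_mul, mul_assoc, z₂, map_zero, mul_zero, add_zero] at this
    rwa [map_mul] at this
  · refine a1 (ia _ h₁ _ t₂ f₂ ?_)
    have := congrArg (· * π (S e₂)) hw
    simp only [zero_mul, ← map_mul, add_mul, mul_assoc, z₁, map_zero, mul_zero, zero_add] at this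
    rwa [map_mul] at this

theorem join_three {T : G →⋆ₐ[ℂ] G} {K : ℕ} {v : G} (hv : v ∈ Loc T K) (s : v * v = 0) :
    ∃ w ∈ Loc T (3 * K), w * w = 0 ∧ ∀ (B : Type u) [CStarAlgebra B] (π : G →⋆ₐ[ℂ] B), π w = 0 →
      π v = 0 ∧ π ((T ^ K) v) = 0 ∧ π ((T ^ K) ((T ^ K) v)) = 0 := by
  have two : ∀ (K' : ℕ) (w : G), w ∈ Loc T K' → w * w = 0 → ∃ u ∈ Loc T (K + K'), u * u = 0 ∧
      ∀ (B : Type u) [CStarAlgebra B] (π : G →⋆ₐ[ℂ] B), π u = 0 →
        π v = 0 ∧ π ((T ^ K) w) = 0 := by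
    intro K' w hw sw
    have h1 : v ∈ Loc T (K + K') := Loc_mono (by omega) hv
    have h2 := Loc_shift K hw
    have s2 : (T ^ K) w * (T ^ K) w = 0 := by rw [← map_mul, sw, map_zero]
    have c1 := mem_Loc.1 hv w
    have c2 : Commute v (star ((T ^ K) w)) := by rw [← map_star]; exact mem_Loc.1 hv _
    refine ⟨sqJoin v ((T ^ K) w), ?_, sqJoin_sq s s2 c1 c2, fun B _ π h => ?_⟩
    · unfold sqJoin
      have h3 := star_mem h1
      have h4 := star_mem h2
      exact sub_mem (sub_mem (add_mem (mul_mem (mul_mem h1 h3) h1) (mul_mem (mul_mem h2 h4) h2))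
        (mul_mem h1 (sub_mem (mul_mem h2 h4) (mul_mem h4 h2))))
        (mul_mem h2 (sub_mem (mul_mem h1 h3) (mul_mem h3 h1)))
    · rw [map_sqJoin] at h
      have t1 : π v * π v = 0 := by rw [← map_mul, s, map_zero]
      have t2 : π ((T ^ K) w) * π ((T ^ K) w) = 0 := by rw [← map_mul, s2, map_zero]
      have d1 := c1.map π
      have d2 : Commute (π v) (star (π ((T ^ K) w))) := by rw [← map_star]; exact c2.map π
      refine ⟨sqJoin_eq_zero t1 t2 d1 d2 h, sqJoin_eq_zero t2 t1 d1.symm ?_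
        (by rw [sqJoin_comm]; exact h)⟩
      simpa using d2.symm.star_star
  obtain ⟨u, hu, su, fu⟩ := two K v hv s
  obtain ⟨w, hw, sw, fw⟩ := two _ u hu su
  refine ⟨w, Loc_mono (by omega) hw, sw, fun B _ π h => ?_⟩
  exact ⟨(fw B π h).1, fu B (π.comp (T ^ K)) (fw B π h).2⟩

theorem exists_full_sq_zero {T : G →⋆ₐ[ℂ] G} (hT : Gen T) (n : ℕ) : ∀ (K : ℕ) (v : Fin (n + 1) → G),
    (∀ i, v i ∈ Loc T K) → (∀ i, v i * v i = 0) → Full (Set.range v) →
    ∃ K w, w ∈ Loc T K ∧ w * w = 0 ∧ Full {w} := by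
  induction n with
  | zero =>
    intro K v h1 h2 h3
    refine ⟨K, v 0, h1 0, h2 0, h3.mono ?_⟩
    rintro _ ⟨i, rfl⟩
    exact subset_genIdeal (by simp [Fin.fin_one_eq_zero i])
  | succ n ih =>
    intro K v h1 h2 h3
    obtain ⟨w, hw, sw, fw⟩ := merge_two hT (h1 0) (h1 1) (h2 0) (h2 1)
    choose u hu su fu using fun i : Fin n => join_three (h1 i.succ.succ) (h2 i.succ.succ)
    refine ih (3 * K) (Fin.cons w u) (Fin.cases hw hu) (Fin.cases sw su) ?_
    by_contra hf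
    obtain ⟨B, _, _, π, hπ, h0, hpr⟩ := exists_prime_quot hf
    have g := fun i => fu i B π (h0 _ ⟨i.succ, rfl⟩)
    have key : ∀ φ : G →⋆ₐ[ℂ] B, φ (v 0) = 0 ∧ φ (v 1) = 0 → (∀ i : Fin n, φ (v i.succ.succ) = 0) →
        False := by
      intro φ a1 a2
      refine one_ne_zero (h3.map (φ : G →+* B) ?_)
      rintro _ ⟨i, rfl⟩
      exact Fin.cases a1.1 (Fin.cases a1.2 a2) i
    rcases fw B π hπ hpr (h0 _ ⟨0, rfl⟩) with h | h | h
    · exact key π h fun i => (g i).1
    · exact key (π.comp (T ^ K)) h fun i => (g i).2.1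
    · exact key ((π.comp (T ^ K)).comp (T ^ K)) h fun i => (g i).2.2

end Vale.Agent.P101
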