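import Vale.Agent.P101.Quot

/-! A self-adjoint element built in two independent commuting algebras takes both signs. -/

set_option linter.unusedSectionVars false

namespace Vale.Agent.P101

variable {B : Type*} [CStarAlgebra B] [PartialOrder B] [StarOrderedRing B]

/-- Self-adjoint with both `‖p‖` and `-‖p‖` in the spectrum. -/
def Sym {B : Type*} [CStarAlgebra B] (p : B) : Prop :=
  IsSelfAdjoint p ∧ ‖p‖ ∈ spectrum ℝ p ∧ -‖p‖ ∈ spectrum ℝ p

theorem Sym.neg {B : Type*} [CStarAlgebra B] {p : B} (h : Sym p) : Sym (-p) := by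
  refine ⟨h.1.neg, ?_, ?_⟩
  · rw [← spectrum.neg_eq, norm_neg, Set.mem_neg]; exact h.2.2
  · rw [← spectrum.neg_eq, norm_neg, Set.mem_neg, neg_neg]; exact h.2.1

theorem sym_of_sq {B : Type*} [CStarAlgebra B] [Nontrivial B] {v : B} (hv : v * v = 0) :
    Sym (v + star v) := by
  have hs : IsSelfAdjoint (v + star v) := IsSelfAdjoint.add_star_self v
  have hv' : star v * star v = 0 := by rw [← star_mul, hv, star_zero]
  have a1 : ∀ x, v * (v * x) = 0 := fun x => by rw [← mul_assoc, hv, zero_mul]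
  have a2 : ∀ x, star v * (star v * x) = 0 := fun x => by rw [← mul_assoc, hv', zero_mul]
  have key : ∀ l : ℝ, l ∈ spectrum ℝ (v + star v) → -l ∈ spectrum ℝ (v + star v) := by
    intro l hl
    rcases eq_or_ne l 0 with rfl | h0
    · simpa using hl
    rw [spectrum.mem_iff] at hl ⊢
    rintro ⟨u, hu⟩
    apply hl
    set p := v + star v with hp
    set z := v * star v - star v * v with hz
    rw [Algebra.algebraMap_eq_smul_one] at hu ⊢
    have h1 : (l • (1 : B) - p) * z = -(z * u) := by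
      rw [hu, hp, hz]
      simp only [mul_add, add_mul, mul_sub, sub_mul, smul_mul_assoc, mul_smul_comm, one_mul,
        mul_one, mul_assoc, a1, a2, hv, hv', mul_zero]
      module
    have h2 : z * z = p * p * p * p := by
      rw [hp, hz]
      simp only [mul_add, add_mul, mul_sub, sub_mul, mul_assoc, a1, a2, hv, hv', mul_zero,
        zero_mul]
      abel
    have h3 : (l • (1 : B) - p) * ((l ^ 4)⁻¹ • (l ^ 3 • 1 + l ^ 2 • p + l • (p * p) + p * p * p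
        - z * ↑u⁻¹ * z)) = 1 := by
      have h4 : (l • (1 : B) - p) * (z * ↑u⁻¹ * z) = -(p * p * p * p) := by
        rw [← mul_assoc, ← mul_assoc, h1, ← h2]
        simp
      rw [mul_smul_comm, mul_sub, h4]
      have h5 : (l • (1 : B) - p) * (l ^ 3 • 1 + l ^ 2 • p + l • (p * p) + p * p * p)
          - -(p * p * p * p) = l ^ 4 • 1 := by
        simp only [mul_add, sub_mul, smul_mul_assoc, mul_smul_comm, one_mul, mul_one, mul_assoc]
        module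
      rw [h5, smul_smul, inv_mul_cancel₀ (pow_ne_zero 4 h0), one_smul]
    have h6 : IsSelfAdjoint (l • (1 : B) - p) :=
      ((IsSelfAdjoint.all l).smul (IsSelfAdjoint.one B)).sub hs
    have h7 := congrArg star h3
    rw [star_mul, h6.star_eq, star_one] at h7
    exact ⟨⟨_, _, h3, by rw [← left_inv_eq_right_inv h7 h3]; exact h7⟩, rfl⟩
  rcases CStarAlgebra.norm_or_neg_norm_mem_spectrum hs with h | h
  · exact ⟨hs, h, key _ h⟩
  · exact ⟨hs, by simpa using key _ h, h⟩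

theorem exists_eig {B : Type*} [CStarAlgebra B] {X : StarSubalgebra ℂ B}
    (hX : IsClosed (X : Set B)) {p : B} (hp : p ∈ X) (hs : IsSelfAdjoint p) {l : ℝ}
    (hl : l ∈ spectrum ℝ p) {ε : ℝ} (hε : 0 < ε) :
    ∃ e ∈ X, ∃ k ∈ X, e ≠ 0 ∧ IsSelfAdjoint e ∧ IsSelfAdjoint k ∧ ‖k‖ ≤ ε ∧
      p * e = (l • 1 + k) * e := by
  refine ⟨cfc (fun t : ℝ => max 0 (ε - |t - l|)) p, cfc_mem (𝕜' := ℂ) _ hp,
    cfc (fun t : ℝ => max (-ε) (min ε (t - l))) p, cfc_mem (𝕜' := ℂ) _ hp, fun h => ?_,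
    cfc_predicate _ _, cfc_predicate _ _, norm_cfc_le hε.le fun t _ => ?_, ?_⟩
  · have h1 : cfc (fun t : ℝ => max 0 (ε - |t - l|)) p = cfc (fun _ : ℝ => (0 : ℝ)) p := by
      rw [h, cfc_const_zero]
    have h2 := eqOn_of_cfc_eq_cfc h1 (by fun_prop) (by fun_prop) hs hl
    simp [hε.le] at h2
    linarith
  · rw [Real.norm_eq_abs, abs_le]
    exact ⟨le_max_left _ _, max_le (by linarith) (min_le_left _ _)⟩
  · have h1 : (l • (1 : B) + cfc (fun t : ℝ => max (-ε) (min ε (t - l))) p)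
        = cfc (fun t : ℝ => l + max (-ε) (min ε (t - l))) p := by
      rw [cfc_add _ (fun _ => l) _, cfc_const l p, Algebra.algebraMap_eq_smul_one]
    rw [h1, ← cfc_mul _ _ p]
    nth_rewrite 1 [← cfc_id' ℝ p]
    rw [← cfc_mul _ _ p]
    refine cfc_congr fun t _ => ?_
    rcases le_total ε |t - l| with h | h
    · simp [max_eq_left (sub_nonpos.2 h)]
    · rw [abs_le] at h
      simp [min_eq_right h.2, max_eq_right h.1]

theorem le_of_norm_le {k : B} (hk : IsSelfAdjoint k) {c : ℝ} (h : ‖k‖ ≤ c) :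
    0 ≤ c • (1 : B) - k := by
  have a1 := hk.le_algebraMap_norm_self
  rw [Algebra.algebraMap_eq_smul_one] at a1
  have b : (0 : B) ≤ (c - ‖k‖) • 1 := smul_nonneg (by linarith) zero_le_one
  have c := add_nonneg b (sub_nonneg.2 a1)
  convert c using 1
  module

theorem eq_zero_of_pow3 {n : B} (hn : IsSelfAdjoint n) (h : n * n * n = 0) : n = 0 := by
  have h1 : star (n * n) * (n * n) = 0 := by
    rw [star_mul, hn.star_eq, ← mul_assoc, h, zero_mul]
  rw [CStarRing.star_mul_self_eq_zero_iff] at h1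
  rwa [← CStarRing.star_mul_self_eq_zero_iff, hn.star_eq]

theorem coef_nonneg {z : B} (hz : z ≠ 0) {c : ℝ} (h : 0 ≤ c • (star z * z)) : 0 ≤ c := by
  by_contra hc
  push Not at hc
  have h1 : 0 ≤ (-c) • (star z * z) := smul_nonneg (by linarith) (star_mul_self_nonneg z)
  rw [neg_smul, neg_nonneg] at h1
  have h2 := le_antisymm h1 h
  rw [smul_eq_zero, CStarRing.star_mul_self_eq_zero_iff] at h2
  rcases h2 with h2 | h2
  · exact hc.ne h2
  · exact hz h2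

/-- Two closed, commuting, independent star subalgebras. -/
structure Indep {B : Type*} [CStarAlgebra B] (X Y : StarSubalgebra ℂ B) : Prop where
  cX : IsClosed (X : Set B)
  cY : IsClosed (Y : Set B)
  comm : ∀ x ∈ X, ∀ y ∈ Y, Commute x y
  ind : ∀ x ∈ X, ∀ y ∈ Y, x * y = 0 → x = 0 ∨ y = 0

theorem Indep.symm {B : Type*} [CStarAlgebra B] {X Y : StarSubalgebra ℂ B} (h : Indep X Y) :
    Indep Y X :=
  ⟨h.cY, h.cX, fun y hy x hx => (h.comm x hx y hy).symm,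
    fun y hy x hx h0 => (h.ind x hx y hy (by rw [h.comm x hx y hy, h0])).symm⟩

variable {X Y : StarSubalgebra ℂ B}

theorem Indep.cancel (h : Indep X Y) {x f : B} (hx : x ∈ X) (hs : IsSelfAdjoint x) (hf : f ∈ Y)
    (hf0 : f ≠ 0) (h0 : 0 ≤ star f * x * f) : 0 ≤ x := by
  have hX := h.cX
  have hn : x⁻ ∈ X := cfcₙ_mem (𝕜' := ℂ) _ hx
  have hn0 : 0 ≤ x⁻ := CFC.negPart_nonneg x
  have h1 : x⁻ * x * x⁻ = -(x⁻ * x⁻ * x⁻) := by
    nth_rewrite 2 [← CFC.posPart_sub_negPart x hs]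
    rw [mul_sub, sub_mul, CFC.negPart_mul_posPart]
    simp
  have h2 := star_left_conjugate_nonneg h0 x⁻
  have c1 := h.comm _ hn _ hf
  have c2 := h.comm _ hn _ (star_mem hf)
  have h3 : star x⁻ * (star f * x * f) * x⁻ = -(star f * (x⁻ * x⁻ * x⁻) * f) := by
    rw [hn0.isSelfAdjoint.star_eq, ← neg_mul, ← mul_neg, ← h1]
    simp only [← mul_assoc]
    rw [c2.eq, mul_assoc _ f, ← c1.eq]
    simp only [← mul_assoc]
  have h4 : 0 ≤ x⁻ * x⁻ * x⁻ := by
    simpa [hn0.isSelfAdjoint.star_eq] using star_left_conjugate_nonneg hn0 x⁻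
  have h5 := star_left_conjugate_nonneg h4 f
  rw [h3, neg_nonneg] at h2
  have h6 := le_antisymm h2 h5
  have hn3 : x⁻ * x⁻ * x⁻ ∈ X := mul_mem (mul_mem hn hn) hn
  rw [← (h.comm _ hn3 _ (star_mem hf)).eq, mul_assoc] at h6
  rcases h.ind _ hn3 _ (mul_mem (star_mem hf) hf) h6 with h7 | h7
  · have := eq_zero_of_pow3 hn0.isSelfAdjoint h7
    rw [← CFC.posPart_sub_negPart x hs, this, sub_zero]
    exact CFC.posPart_nonneg x
  · exact absurd (CStarRing.star_mul_self_eq_zero_iff _ |>.1 h7) hf0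

theorem Indep.step1 (h : Indep X Y) {p₁ p₂ q₁ q₂ : B} (hp₂ : p₂ ∈ X)
    (hq₁ : q₁ ∈ Y) (sp₂ : IsSelfAdjoint p₂) (sq₁ : IsSelfAdjoint q₁)
    (sq₂ : IsSelfAdjoint q₂) (h0 : 0 ≤ p₁ + q₂ + p₂ * q₁) {e k : B} (he : e ∈ X)
    (sk : IsSelfAdjoint k) {ε a : ℝ} (hε : 0 < ε) (hk : ‖k‖ ≤ ε) (hpe : p₁ * e = ((-a) • 1 + k) * e)
    (hab : ‖q₂‖ ≤ a) {l : ℝ} (hl : l ∈ spectrum ℝ q₁) :
    0 ≤ star e * ((ε + ε * ‖p₂‖) • 1 + l • p₂) * e := by
  obtain ⟨f, hf, k', hk', hf0, -, sk', nk', hqf⟩ := exists_eig h.cY hq₁ sq₁ hl hε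
  have c1 := h.comm _ hp₂ _ hk'
  have n1 : ‖p₂ * k'‖ ≤ ε * ‖p₂‖ := (norm_mul_le _ _).trans (by rw [mul_comm]; gcongr)
  have s1 : IsSelfAdjoint (p₂ * k') := (sp₂.commute_iff sk').1 c1
  have hM := add_nonneg (add_nonneg (le_of_norm_le sk hk) (le_of_norm_le sq₂ hab))
    (le_of_norm_le s1 n1)
  have h1 := add_nonneg (star_left_conjugate_nonneg h0 (e * f))
    (star_left_conjugate_nonneg hM (e * f))
  have h2 : (p₁ + q₂ + p₂ * q₁) * (e * f)
      = ((-a) • 1 + k + q₂ + p₂ * (l • 1 + k')) * (e * f) := by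
    have c2 := h.comm _ he _ hq₁
    have c3 := h.comm _ he _ (add_mem (s := Y) (SMulMemClass.smul_mem (l : ℂ) (one_mem _)) hk')
    rw [Complex.coe_smul] at c3
    rw [add_mul, add_mul, add_mul _ (p₂ * _), add_mul _ q₂, ← mul_assoc p₁, hpe, mul_assoc p₂,
      ← mul_assoc q₁, ← c2.eq, mul_assoc e, hqf, ← mul_assoc e, c3.eq]
    simp only [mul_assoc]
  refine h.cancel (f := f) ?_ ?_ hf hf0 ?_
  · exact mul_mem (mul_mem (star_mem he) (add_mem
      (by rw [← Complex.coe_smul]; exact SMulMemClass.smul_mem _ (one_mem _))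
      (by rw [← Complex.coe_smul]; exact SMulMemClass.smul_mem _ hp₂))) he
  · exact IsSelfAdjoint.conjugate' (((IsSelfAdjoint.all _).smul (IsSelfAdjoint.one B)).add
      ((IsSelfAdjoint.all _).smul sp₂)) e
  · convert h1 using 1
    rw [mul_assoc (star (e * f)), h2, mul_assoc (star (e * f)), ← mul_add, ← add_mul, star_mul]
    simp only [mul_assoc]
    congr 3
    simp only [mul_add, mul_smul_comm, mul_one]
    module

theorem Indep.half (h : Indep X Y) {p₁ p₂ q₁ q₂ : B} (hp₁ : p₁ ∈ X) (hp₂ : p₂ ∈ X)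
    (hq₁ : q₁ ∈ Y) (hq₂ : q₂ ∈ Y) (sp₁ : Sym p₁) (sp₂ : Sym p₂) (sq₁ : Sym q₁) (sq₂ : Sym q₂)
    (h0 : 0 ≤ p₁ + q₂ + p₂ * q₁) (hab : ‖q₂‖ ≤ ‖p₁‖) :
    p₁ = 0 ∧ q₂ = 0 ∧ (p₂ = 0 ∨ q₁ = 0) := by
  have key : ∀ ε : ℝ, 0 < ε → ‖p₁‖ + ‖q₂‖ ≤ ε * (3 + ‖p₂‖) := by
    intro ε hε
    obtain ⟨e, he, k, hk, he0, -, sk, nk, hpe⟩ := exists_eig h.cX hp₁ sp₁.1 sp₁.2.2 hε
    obtain ⟨f, hf, k', hk', hf0, -, sk', nk', hqf⟩ := exists_eig h.cY hq₂ sq₂.1 sq₂.2.2 hε
    have a1 := h.step1 hp₂ hq₁ sp₂.1 sq₁.1 sq₂.1 h0 he sk hε nk hpe hab sq₁.2.1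
    have a2 := h.step1 hp₂ hq₁ sp₂.1 sq₁.1 sq₂.1 h0 he sk hε nk hpe hab sq₁.2.2
    set γ := ε + ε * ‖p₂‖ with hγ
    have hmem : ∀ l : ℝ, star e * (γ • 1 + l • p₂) * e ∈ X := fun l =>
      mul_mem (mul_mem (star_mem he) (add_mem
      (by rw [← Complex.coe_smul]; exact SMulMemClass.smul_mem _ (one_mem _))
      (by rw [← Complex.coe_smul]; exact SMulMemClass.smul_mem _ hp₂))) he
    have hone : ∀ l : ℝ, l • (1 : B) ∈ Y := fun l => by
      rw [← Complex.coe_smul]; exact SMulMemClass.smul_mem _ (one_mem _)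
    have b1 := le_of_norm_le sq₁.1 le_rfl
    have b2 := le_of_norm_le sq₁.1.neg (norm_neg q₁).le
    have a3 := add_nonneg (Commute.mul_nonneg a1 b1 (h.comm _ (hmem _) _ (sub_mem (hone _) hq₁)))
      (Commute.mul_nonneg a2 b2 (h.comm _ (hmem _) _ (sub_mem (hone _) (neg_mem hq₁))))
    have a4 : 0 ≤ γ • (star e * e) - star e * p₂ * e * q₁ := by
      rcases eq_or_lt_of_le (norm_nonneg q₁) with hb | hb
      · rw [norm_eq_zero.1 hb.symm, mul_zero, sub_zero]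
        exact smul_nonneg (by positivity) (star_mul_self_nonneg e)
      · have := smul_nonneg (show (0 : ℝ) ≤ (2 * ‖q₁‖)⁻¹ by positivity) a3
        convert this using 1
        simp only [mul_add, add_mul, mul_sub, mul_smul_comm, smul_mul_assoc, mul_one, mul_neg]
        have hb' := hb.ne'
        match_scalars <;> field_simp <;> ring
    have a5 := add_nonneg (add_nonneg (star_left_conjugate_nonneg h0 (e * f))
      (star_left_conjugate_nonneg (add_nonneg (le_of_norm_le sk nk) (le_of_norm_le sk' nk'))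
        (e * f))) (star_left_conjugate_nonneg a4 f)
    have hef : e * f ≠ 0 := fun h' => (h.ind _ he _ hf h').elim he0 hf0
    have a6 : 0 ≤ (2 * ε + γ - ‖p₁‖ - ‖q₂‖) • (star (e * f) * (e * f)) := by
      convert a5 using 1
      have c1 := h.comm _ he _ hq₁
      have c2 := h.comm _ he _ hq₂
      have c3 := h.comm _ he _ hk'
      have e1 : p₁ * (e * f) = (-‖p₁‖) • (e * f) + k * (e * f) := by
        rw [← mul_assoc, hpe]; simp only [add_mul, smul_mul_assoc, one_mul, mul_assoc]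
      have e2 : q₂ * (e * f) = (-‖q₂‖) • (e * f) + k' * (e * f) := by
        rw [← mul_assoc, ← c2.eq, mul_assoc, hqf, ← mul_assoc k', ← c3.eq]
        simp only [add_mul, mul_add, smul_mul_assoc, mul_smul_comm, one_mul, mul_assoc]
      have e3 : q₁ * (e * f) = e * (q₁ * f) := by rw [← mul_assoc, ← c1.eq, mul_assoc]
      simp only [star_mul, mul_add, add_mul, mul_sub, sub_mul, mul_smul_comm, smul_mul_assoc,
        mul_assoc, e1, e2, e3, one_mul]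
      module
    have := coef_nonneg hef a6
    rw [hγ] at this
    linarith
  have hz : ‖p₁‖ + ‖q₂‖ ≤ 0 := by
    refine le_of_forall_pos_le_add fun δ hδ => ?_
    have := key (δ / (3 + ‖p₂‖)) (by positivity)
    rwa [div_mul_cancel₀ _ (by positivity), ← zero_add δ] at this
  have z1 : p₁ = 0 := norm_le_zero_iff.1 (by linarith [norm_nonneg q₂])
  have z2 : q₂ = 0 := norm_le_zero_iff.1 (by linarith [norm_nonneg p₁])
  refine ⟨z1, z2, ?_⟩
  have key2 : ∀ ε : ℝ, 0 < ε → ‖q₁‖ * ‖p₂‖ ≤ ε * (1 + ‖p₂‖) := by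
    intro ε hε
    have a2 := h.step1 (a := 0) hp₂ hq₁ sp₂.1 sq₁.1 sq₂.1 h0 (one_mem X) (IsSelfAdjoint.zero B) hε
      (by simpa using hε.le) (by simp [z1]) (by simp [z2]) sq₁.2.2
    rw [star_one, one_mul, mul_one] at a2
    have a3 := spectrum_nonneg_of_nonneg (𝕜 := ℝ) a2 (x := ε + ε * ‖p₂‖ + (-‖q₁‖) * ‖p₂‖) (by
      rw [← Algebra.algebraMap_eq_smul_one, ← spectrum.singleton_add_eq]
      refine Set.add_mem_add rfl ?_
      have := cfc_map_spectrum (fun t : ℝ => -‖q₁‖ * t) p₂ sp₂.1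
      rw [cfc_const_mul_id _ p₂ sp₂.1] at this
      rw [this]
      exact ⟨_, sp₂.2.1, rfl⟩)
    linarith
  have hz2 : ‖q₁‖ * ‖p₂‖ ≤ 0 := by
    refine le_of_forall_pos_le_add fun δ hδ => ?_
    have := key2 (δ / (1 + ‖p₂‖)) (by positivity)
    rwa [div_mul_cancel₀ _ (by positivity), ← zero_add δ] at this
  have := le_antisymm hz2 (by positivity)
  rcases mul_eq_zero.1 this with h' | h'
  · exact Or.inr (norm_eq_zero.1 h')
  · exact Or.inl (norm_eq_zero.1 h')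

theorem Indep.not_nonneg (h : Indep X Y) {p₁ p₂ q₁ q₂ : B} (hp₁ : p₁ ∈ X) (hp₂ : p₂ ∈ X)
    (hq₁ : q₁ ∈ Y) (hq₂ : q₂ ∈ Y) (sp₁ : Sym p₁) (sp₂ : Sym p₂) (sq₁ : Sym q₁) (sq₂ : Sym q₂)
    (hp : p₁ ≠ 0 ∨ p₂ ≠ 0) (hq : q₁ ≠ 0 ∨ q₂ ≠ 0) : ¬ 0 ≤ p₁ + q₂ + p₂ * q₁ := by
  intro h0
  rcases le_total ‖q₂‖ ‖p₁‖ with hab | hab
  · have := h.half hp₁ hp₂ hq₁ hq₂ sp₁ sp₂ sq₁ sq₂ h0 hab
    tauto
  · have := h.symm.half hq₂ hq₁ hp₂ hp₁ sq₂ sq₁ sp₂ sp₁
      (by rw [add_comm q₂, ← (h.comm _ hp₂ _ hq₁).eq]; exact h0) hab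
    tauto

theorem Indep.not_nonpos (h : Indep X Y) {p₁ p₂ q₁ q₂ : B} (hp₁ : p₁ ∈ X) (hp₂ : p₂ ∈ X)
    (hq₁ : q₁ ∈ Y) (hq₂ : q₂ ∈ Y) (sp₁ : Sym p₁) (sp₂ : Sym p₂) (sq₁ : Sym q₁) (sq₂ : Sym q₂)
    (hp : p₁ ≠ 0 ∨ p₂ ≠ 0) (hq : q₁ ≠ 0 ∨ q₂ ≠ 0) : ¬ 0 ≤ -(p₁ + q₂ + p₂ * q₁) := by
  have := h.not_nonneg (neg_mem hp₁) (neg_mem hp₂) hq₁ (neg_mem hq₂) sp₁.neg sp₂.neg sq₁ sq₂.neg
    (by simpa using hp) (by simpa using hq)
  convert this using 2
  simp only [neg_mul]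
  abel

end Vale.Agent.P101
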