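import Vale.Agent.P101.Shift

/-! Full families of mutually orthogonal equivalent vectors, and the cut-down. -/

set_option linter.unusedSectionVars false
set_option linter.unusedSimpArgs false

namespace Vale.Agent.P101

open scoped CStarAlgebra

universe u

/-- `x i* x j = δ y`. -/
def Vec {E ι : Type*} [Ring E] [StarRing E] [DecidableEq ι] (x : ι → E) (y : E) : Prop :=
  ∀ i j, star (x i) * x j = if i = j then y else 0

variable {G : Type u} [CStarAlgebra G]

theorem full_mul_shift {S : G →⋆ₐ[ℂ] G} {y z : G} (hy : ∀ b, Commute y (S b)) (fy : Full {y})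
    (fz : Full {z}) : Full {y * S z} := by
  have key : ∀ u ∈ genIdeal {z}, y * S u ∈ genIdeal {y * S z} := by
    intro u hu
    induction hu using AddSubmonoid.closure_induction with
    | mem u hu =>
      obtain ⟨a, s, rfl, b, rfl⟩ := hu
      have : y * S (a * s * b) = S a * (y * S s) * S b := by
        rw [map_mul, map_mul, ← mul_assoc, ← mul_assoc, (hy a).eq]
        simp only [mul_assoc]
      rw [this]
      exact Ideal.mul_mem_right _ _ (Ideal.mul_mem_left _ _ (subset_genIdeal rfl))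
    | zero => simp
    | add x y _ _ hx hy => rw [map_add, mul_add]; exact add_mem hx hy
  refine fy.mono ?_
  rintro _ rfl
  simpa using key 1 fz

theorem exists_vec {T : G →⋆ₐ[ℂ] G} {K₀ : ℕ} {w : G} (hw : w ∈ Loc T K₀) (sw : w * w = 0)
    (fw : Full {w}) (k : ℕ) :
    ∃ (K : ℕ) (x : Fin (k + 1) → G) (y : G), (∀ i, x i ∈ Loc T K) ∧ Vec x y ∧ Full {y} := by
  let _ := CStarAlgebra.spectralOrder G
  have := CStarAlgebra.spectralOrderedRing G
  have z0 : 0 ≤ star w * w := star_mul_self_nonneg w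
  set b := cfc (fun t : ℝ => √t) (star w * w) with hb
  have sb : IsSelfAdjoint b := cfc_predicate _ _
  have mb : b ∈ Loc T K₀ := cfc_mem (𝕜' := ℂ) _ (mul_mem (star_mem hw) hw)
  have bb : b * b = star w * w := by
    rw [hb, ← cfc_mul _ _ (star w * w)]
    nth_rewrite 2 [← cfc_id' ℝ (star w * w)]
    exact cfc_congr fun t ht => Real.mul_self_sqrt (spectrum_nonneg_of_nonneg z0 ht)
  have bw : b * w = 0 := by
    rw [← CStarRing.star_mul_self_eq_zero_iff, star_mul, sb.star_eq, mul_assoc, ← mul_assoc b, bb,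
      mul_assoc, sw]
    simp
  have wb : star w * b = 0 := by rw [← sb.star_eq, ← star_mul, bw, star_zero]
  have fz : Full {star w * w} := by
    by_contra hf
    obtain ⟨B, _, _, π, -, h0, -⟩ := exists_prime_quot hf
    refine one_ne_zero (fw.map (π : G →+* B) ?_)
    rintro _ rfl
    have := h0 _ rfl
    rw [map_mul, map_star, CStarRing.star_mul_self_eq_zero_iff] at this
    exact this
  induction k with
  | zero =>
    exact ⟨0, fun _ => 1, 1, fun _ => one_mem _, fun i j => by simp [Fin.fin_one_eq_zero i,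
      Fin.fin_one_eq_zero j], subset_genIdeal rfl⟩
  | succ k ih =>
    obtain ⟨K, x, y, hx, hv, fy⟩ := ih
    have my : y ∈ Loc T K := by
      have := hv 0 0
      rw [if_pos rfl] at this
      rw [← this]
      exact mul_mem (star_mem (hx 0)) (hx 0)
    have key : ∀ i j p q, star (x i * (T ^ K) p) * (x j * (T ^ K) q)
        = (if i = j then y else 0) * (T ^ K) (star p * q) := by
      intro i j p q
      rw [← hv, star_mul, ← map_star, ← (mem_Loc.1 (star_mem (hx i)) _).eq,
        (mem_Loc.1 (hx j) _).symm.mul_mul_mul_comm, map_mul]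
    refine ⟨K + K₀, Fin.cons (x 0 * (T ^ K) b) fun i => x i * (T ^ K) w,
      y * (T ^ K) (star w * w), fun i => ?_, ?_,
      full_mul_shift (mem_Loc.1 my) fy fz⟩
    · refine Fin.cases ?_ (fun i => ?_) i
      · exact mul_mem (Loc_mono (by omega) (hx 0)) (Loc_shift K mb)
      · exact mul_mem (Loc_mono (by omega) (hx i)) (Loc_shift K hw)
    · intro i j
      refine Fin.cases ?_ (fun i => ?_) i <;> refine Fin.cases ?_ (fun j => ?_) j
      · simp only [Fin.cons_zero, key, sb.star_eq, bb, if_true]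
      · simp only [Fin.cons_zero, Fin.cons_succ, key, sb.star_eq, bw]
        simp [(Fin.succ_ne_zero j).symm]
      · simp only [Fin.cons_zero, Fin.cons_succ, key, wb]
        simp
      · simp only [Fin.cons_succ, key, Fin.succ_inj]
        split_ifs <;> simp

theorem dense_loc {T : G →⋆ₐ[ℂ] G} (hT : Gen T) : Dense {a : G | ∃ K, a ∈ Loc T K} := by
  let H : StarSubalgebra ℂ G :=
    { carrier := {a : G | ∃ K, a ∈ Loc T K}
      mul_mem' := by
        rintro a b ⟨K, ha⟩ ⟨K', hb⟩
        exact ⟨K + K', mul_mem (Loc_mono (by omega) ha) (Loc_mono (by omega) hb)⟩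
      add_mem' := by
        rintro a b ⟨K, ha⟩ ⟨K', hb⟩
        exact ⟨K + K', add_mem (Loc_mono (by omega) ha) (Loc_mono (by omega) hb)⟩
      algebraMap_mem' := fun c => ⟨0, algebraMap_mem _ c⟩
      star_mem' := by
        rintro a ⟨K, ha⟩
        exact ⟨K, star_mem ha⟩ }
  exact hT H.topologicalClosure isClosed_closure fun n a ha =>
    subset_closure ⟨_, Loc_shift n ha⟩

variable [PartialOrder G] [StarOrderedRing G]

theorem sum_star_le {ι : Type*} (s : Finset ι) (a z : ι → G) :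
    ∃ C : ℝ, 0 ≤ C ∧ star (∑ i ∈ s, a i * z i) * (∑ i ∈ s, a i * z i)
      ≤ C • ∑ i ∈ s, star (z i) * z i := by
  classical
  induction s using Finset.induction_on with
  | empty => exact ⟨0, le_rfl, by simp⟩
  | insert i s hi ih =>
    obtain ⟨C, hC, h⟩ := ih
    rw [Finset.sum_insert hi, Finset.sum_insert hi]
    set p := a i * z i with hp
    set q := ∑ j ∈ s, a j * z j
    have h1 : star p * p ≤ ‖star (a i) * a i‖ • (star (z i) * z i) := by
      have := CStarAlgebra.star_left_conjugate_le_norm_smul (a := z i) (b := star (a i) * a i)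
        (IsSelfAdjoint.star_mul_self _)
      simpa [hp, mul_assoc] using this
    have h2 : 0 ≤ ∑ j ∈ s, star (z j) * z j := Finset.sum_nonneg fun j _ => star_mul_self_nonneg _
    refine ⟨2 * ‖star (a i) * a i‖ + 2 * C, by positivity, ?_⟩
    have h3 := add_nonneg (add_nonneg (add_nonneg (add_nonneg (star_mul_self_nonneg (p - q))
      (smul_nonneg (zero_le_two (α := ℝ)) (sub_nonneg.2 h1)))
      (smul_nonneg (zero_le_two (α := ℝ)) (sub_nonneg.2 h)))
      (smul_nonneg (show (0 : ℝ) ≤ 2 * C by positivity) (star_mul_self_nonneg (z i))))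
      (smul_nonneg (show (0 : ℝ) ≤ 2 * ‖star (a i) * a i‖ by positivity) h2)
    rw [← sub_nonneg]
    convert h3 using 1
    simp only [star_add, star_sub, mul_add, add_mul, mul_sub, sub_mul]
    module

theorem exists_inv_sqrt (X : StarSubalgebra ℂ G) [IsClosed (X : Set G)] {D : G} (mD : D ∈ X)
    (D0 : 0 ≤ D) (uD : IsUnit D) : ∃ e ∈ X, IsSelfAdjoint e ∧ e * D * e = 1 := by
  have sD : IsSelfAdjoint D := D0.isSelfAdjoint
  have Dpos : ∀ t ∈ spectrum ℝ D, 0 < t := fun t ht =>
    lt_of_le_of_ne (spectrum_nonneg_of_nonneg D0 ht) (by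
      rintro rfl
      exact spectrum.zero_notMem ℝ uD ht)
  have hc : ContinuousOn (fun t : ℝ => (√t)⁻¹) (spectrum ℝ D) :=
    ContinuousOn.inv₀ (by fun_prop) fun t ht => (Real.sqrt_pos.2 (Dpos t ht)).ne'
  refine ⟨cfc (fun t : ℝ => (√t)⁻¹) D, cfc_mem (𝕜' := ℂ) _ mD, cfc_predicate _ _, ?_⟩
  nth_rewrite 2 [← cfc_id' ℝ D]
  rw [← cfc_mul _ (fun t => t) D hc continuousOn_id,
    ← cfc_mul (fun t : ℝ => (√t)⁻¹ * t) _ D (hc.mul continuousOn_id) hc, ← cfc_const_one ℝ D]
  refine cfc_congr fun t ht => ?_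
  have := Dpos t ht
  have h2 := Real.sqrt_pos.2 this
  field_simp
  rw [Real.sq_sqrt this.le]

theorem exists_cut (X : StarSubalgebra ℂ G) [IsClosed (X : Set G)] {y : G} (my : y ∈ X)
    (y0 : 0 ≤ y) {δ : ℝ} (hδ : 0 < δ) : ∃ g ∈ X, ∃ y', IsSelfAdjoint g ∧ g * y * g = y' ∧
      y' * cfc (fun t : ℝ => max (t - δ) 0) y = cfc (fun t : ℝ => max (t - δ) 0) y ∧ y' ≤ 1 := by
  have sy : IsSelfAdjoint y := y0.isSelfAdjoint
  have hm : ∀ t : ℝ, 0 < max t δ := fun t => lt_max_of_lt_right hδ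
  have hcg : Continuous fun t : ℝ => (√(max t δ))⁻¹ :=
    Continuous.inv₀ (by fun_prop) fun t => (Real.sqrt_pos.2 (hm t)).ne'
  have hcy : Continuous fun t : ℝ => t * (max t δ)⁻¹ :=
    continuous_id.mul (Continuous.inv₀ (by fun_prop) fun t => (hm t).ne')
  refine ⟨cfc (fun t : ℝ => (√(max t δ))⁻¹) y, cfc_mem (𝕜' := ℂ) _ my,
    cfc (fun t : ℝ => t * (max t δ)⁻¹) y, cfc_predicate _ _, ?_, ?_, ?_⟩
  · nth_rewrite 2 [← cfc_id' ℝ y]
    rw [← cfc_mul _ (fun t => t) y hcg.continuousOn continuousOn_id,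
      ← cfc_mul (fun t : ℝ => (√(max t δ))⁻¹ * t) _ y (hcg.mul continuous_id).continuousOn
        hcg.continuousOn]
    refine cfc_congr fun t _ => ?_
    have := hm t
    have h2 := Real.sqrt_pos.2 this
    field_simp
    rw [Real.sq_sqrt this.le, mul_comm]
  · rw [← cfc_mul _ _ y hcy.continuousOn (by fun_prop)]
    refine cfc_congr fun t _ => ?_
    rcases le_total t δ with h | h
    · simp [max_eq_right (sub_nonpos.2 h)]
    · simp [max_eq_left h, mul_inv_cancel₀ (hδ.trans_le h).ne']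
  · refine cfc_le_one _ _ fun t _ => ?_
    rw [← div_eq_mul_inv, div_le_one (hm t)]
    exact le_max_left _ _

/-- The data that enter the covering argument. -/
structure Pre (S : G →⋆ₐ[ℂ] G) {k N : ℕ} (x : Fin (k + 1) → G) (y ξ : G) (d : Fin N → G) :
    Prop where
  cx : ∀ i b, Commute (x i) (S b)
  cξ : ∀ b, Commute ξ (S b)
  cd : ∀ a b, Commute (d a) (S b)
  vec : Vec x y
  le : y ≤ 1
  fix : x 0 * star (x 0) * ξ = ξ
  sum : ∑ a, star (d a) * (star ξ * ξ) * d a = 1

theorem exists_pre {T : G →⋆ₐ[ℂ] G} (hT : Gen T) {K k : ℕ} {x : Fin (k + 1) → G} {y : G}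
    (hx : ∀ i, x i ∈ Loc T K) (hv : Vec x y) (fy : Full {y}) :
    ∃ (S : G →⋆ₐ[ℂ] G) (N : ℕ) (x : Fin (k + 1) → G) (y ξ : G) (d : Fin N → G),
      Pre S x y ξ d := by
  have hy : star (x 0) * x 0 = y := by simpa using hv 0 0
  have y0 : 0 ≤ y := hy ▸ star_mul_self_nonneg _
  have my : y ∈ Loc T K := hy ▸ mul_mem (star_mem (hx 0)) (hx 0)
  obtain ⟨N, a, s, b, hs, hsum⟩ := fy.exists_fin
  simp only [Set.mem_singleton_iff] at hs
  simp only [hs] at hsum
  let f : ℝ → G := fun δ => cfc (fun t : ℝ => max (t - δ) 0) y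
  have hU : IsOpen {p : G × (Fin N → G) | IsUnit (∑ i, a i * (p.1 * p.2 i))} :=
    Units.isOpen.preimage (f := fun p : G × (Fin N → G) => ∑ i, a i * (p.1 * p.2 i)) (by fun_prop)
  have hcl : (y, b) ∈ closure ((f '' Set.Ioi 0) ×ˢ
      (Set.univ.pi fun _ : Fin N => {a : G | ∃ K, a ∈ Loc T K})) := by
    rw [closure_prod_eq, closure_pi_set]
    refine ⟨Metric.mem_closure_iff.2 fun ε hε => ⟨f (ε / 2), ⟨_, half_pos hε, rfl⟩, ?_⟩,
      fun i _ => dense_loc hT _⟩
    rw [dist_eq_norm]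
    refine lt_of_le_of_lt ?_ (half_lt_self hε)
    change ‖y - cfc (fun t : ℝ => max (t - ε / 2) 0) y‖ ≤ _
    nth_rewrite 1 [← cfc_id' ℝ y]
    rw [← cfc_sub _ _ y]
    refine norm_cfc_le (by positivity) fun t ht => ?_
    have := spectrum_nonneg_of_nonneg y0 ht
    rw [Real.norm_eq_abs, abs_le]
    constructor
    · have : max (t - ε / 2) 0 ≤ t := max_le (by linarith) this
      linarith
    · linarith [le_max_left (t - ε / 2) 0]
  obtain ⟨⟨_, b'⟩, hu, ⟨δ, hδ, rfl⟩, hb'⟩ := mem_closure_iff.1 hcl _ hU (by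
    simp only [Set.mem_setOf_eq, ← mul_assoc, hsum, isUnit_one])
  replace hδ : 0 < δ := hδ
  choose K' hK' using fun i => hb' i (Set.mem_univ i)
  set L := K + ∑ i, K' i with hL
  have mb : ∀ i, b' i ∈ Loc T L := fun i => Loc_mono (by
    have := Finset.single_le_sum (f := K') (fun _ _ => Nat.zero_le _) (Finset.mem_univ i)
    omega) (hK' i)
  have mx : ∀ i, x i ∈ Loc T L := fun i => Loc_mono (by omega) (hx i)
  have my' : y ∈ Loc T L := Loc_mono (by omega) my
  have mf : f δ ∈ Loc T L := cfc_mem (𝕜' := ℂ) _ my'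
  have sf : IsSelfAdjoint (f δ) := cfc_predicate _ _
  set D := ∑ i, star (f δ * b' i) * (f δ * b' i) with hD
  have D0 : 0 ≤ D := Finset.sum_nonneg fun j _ => star_mul_self_nonneg _
  have mD : D ∈ Loc T L := sum_mem fun i _ =>
    mul_mem (star_mem (mul_mem mf (mb i))) (mul_mem mf (mb i))
  have uD : IsUnit D := by
    obtain ⟨C, hC, h⟩ := sum_star_le Finset.univ a fun i => f δ * b' i
    have h1 : IsUnit (C • D) := CStarAlgebra.isUnit_of_le _ h
      ⟨star_mul_self_nonneg _, (IsUnit.star hu).mul hu⟩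
    rw [Algebra.smul_def, Algebra.commutes] at h1
    have h2 : Commute D (algebraMap ℝ G C) := (Algebra.commutes _ _).symm
    exact (h2.isUnit_mul_iff.1 h1).1
  obtain ⟨e, me, se, eDe⟩ := exists_inv_sqrt (Loc T L) mD D0 uD
  obtain ⟨g, mg, y', sg, gyg, yf, yle⟩ := exists_cut (Loc T L) my' y0 hδ
  replace yf : y' * f δ = f δ := yf
  have hv' : Vec (fun i => x i * g) y' := fun i j => by
    rw [star_mul, sg.star_eq, mul_assoc, ← mul_assoc (star (x i)), hv i j]
    split_ifs
    · rw [← mul_assoc, gyg]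
    · simp
  have h00 : star (x 0 * g) * (x 0 * g) = y' := by simpa using hv' 0 0
  refine ⟨T ^ L, N, fun i => x i * g, y', x 0 * g * f δ, fun i => b' i * e,
    fun i => mem_Loc.1 (mul_mem (mx i) mg), mem_Loc.1 (mul_mem (mul_mem (mx 0) mg) mf),
    fun i => mem_Loc.1 (mul_mem (mb i) me), hv', yle, ?_, ?_⟩
  · rw [mul_assoc (x 0 * g), ← mul_assoc (star _), h00, yf]
  · have h1 : star (x 0 * g * f δ) * (x 0 * g * f δ) = f δ * f δ := by
      rw [star_mul, sf.star_eq, mul_assoc, ← mul_assoc (star _), h00, yf]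
    rw [h1, ← eDe, hD, Finset.mul_sum, Finset.sum_mul]
    refine Finset.sum_congr rfl fun i _ => ?_
    simp only [star_mul, se.star_eq, sf.star_eq, mul_assoc]

end Vale.Agent.P101
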