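import Vale.Agent.P101.Defs

/-! C*-tensor products, strong self-absorption and the Jiang-Su algebra. -/

namespace Vale.Agent.P101

open Filter Topology
open scoped TensorProduct

universe u

/-- The linear map `A ⊙ B → C` with `a ⊗ b ↦ i a * j b`. -/
noncomputable def tmulMap {A B C : Type u} [CStarAlgebra A] [CStarAlgebra B] [CStarAlgebra C]
    (i : A →⋆ₐ[ℂ] C) (j : B →⋆ₐ[ℂ] C) : A ⊗[ℂ] B →ₗ[ℂ] C :=
  (LinearMap.mul' ℂ C).comp
    (TensorProduct.map i.toAlgHom.toLinearMap j.toAlgHom.toLinearMap)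

/-- The two homomorphisms have commuting ranges. -/
def CommRanges {A B C : Type u} [CStarAlgebra A] [CStarAlgebra B] [CStarAlgebra C]
    (i : A →⋆ₐ[ℂ] C) (j : B →⋆ₐ[ℂ] C) : Prop :=
  ∀ a b, Commute (i a) (j b)

/-- The seminorm on `A ⊙ B` given by `(i, j)` dominates the one given by `(α, β)`. -/
def Dominates {A B C E : Type u} [CStarAlgebra A] [CStarAlgebra B] [CStarAlgebra C]
    [CStarAlgebra E] (i : A →⋆ₐ[ℂ] C) (j : B →⋆ₐ[ℂ] C) (α : A →⋆ₐ[ℂ] E) (β : B →⋆ₐ[ℂ] E) : Prop :=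
  ∀ x, ‖tmulMap α β x‖ ≤ ‖tmulMap i j x‖

/-- `C` with the factor maps `i`, `j` is the completion of the algebraic tensor product `A ⊙ B`
in a C*-norm. -/
structure IsCTensor {A B C : Type u} [CStarAlgebra A] [CStarAlgebra B] [CStarAlgebra C]
    (i : A →⋆ₐ[ℂ] C) (j : B →⋆ₐ[ℂ] C) : Prop where
  comm : CommRanges i j
  inj : Function.Injective (tmulMap i j)
  dense : DenseRange (tmulMap i j)

/-- Nuclearity: every C*-norm on `D ⊙ B` is the maximal one, that is, it dominates the seminorm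
of every pair of unital homomorphisms with commuting ranges. -/
def IsNuclear (D : Type u) [CStarAlgebra D] : Prop :=
  ∀ (B C E : Type u) [CStarAlgebra B] [CStarAlgebra C] [CStarAlgebra E]
    (i : D →⋆ₐ[ℂ] C) (j : B →⋆ₐ[ℂ] C) (α : D →⋆ₐ[ℂ] E) (β : B →⋆ₐ[ℂ] E),
    IsCTensor i j → CommRanges α β → Dominates i j α β

/-- Approximate unitary equivalence of two maps. -/
def ApproxUnitEq {D E : Type u} [CStarAlgebra D] [CStarAlgebra E] (φ ψ : D → E) : Prop :=
  ∃ v : ℕ → unitary E, ∀ d, Tendsto (fun n => (v n : E) * φ d * star (v n : E)) atTop (𝓝 (ψ d))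

/-- Strong self-absorption: there is an isomorphism `D → D ⊗ D` that is approximately unitarily
equivalent to the first factor embedding. -/
def IsSelfAbsorbing (D : Type u) [CStarAlgebra D] : Prop :=
  ∃ (E : Type u) (_ : CStarAlgebra E) (i j : D →⋆ₐ[ℂ] E), IsCTensor i j ∧
    ∃ φ : D ≃⋆ₐ[ℂ] E, ApproxUnitEq φ i

/-- The subset `T` of `D` is a unital copy of the star algebra `S`. -/
def IsCopy {B : Type} [Semiring B] [StarRing B] [Algebra ℂ B] [StarModule ℂ B]
    (S : StarSubalgebra ℂ B) {D : Type u} [CStarAlgebra D] (T : Set D) : Prop :=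
  ∃ ι : S →⋆ₐ[ℂ] D, Function.Injective ι ∧ Set.range ι = T

/-- The Jiang-Su algebra: simple, separable, nuclear, strongly self-absorbing, and an inductive
limit of prime dimension drop algebras with unital injective connecting maps. -/
structure IsJiangSu (Z : Type u) [CStarAlgebra Z] : Prop where
  simple : IsSimpleRing Z
  separable : TopologicalSpace.SeparableSpace Z
  nuclear : IsNuclear Z
  absorbing : IsSelfAbsorbing Z
  limit : ∃ (p q : ℕ → ℕ) (T : ℕ → Set Z),
    (∀ n, 2 ≤ p n ∧ 2 ≤ q n ∧ Nat.Coprime (p n) (q n) ∧ IsCopy (DimDrop (p n) (q n)) (T n)) ∧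
      Monotone T ∧ Dense (⋃ n, T n)

end Vale.Agent.P101
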